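import Crest.Agent.R287.Visit

/-!
# Row 287: the one-pass algorithm on P-lists (definitions)

A ring is a cyclic list `P` of nonempty words with `P_s.tail <+: P_{s+1}`; `P_s` is the longest word
under the ring starting in column `s`.  An open chain is the same, but linear.
-/

set_option autoImplicit false

namespace Crest.Agent.R287

/-- ring (read cyclically) or open chain (read linearly) in staircase form -/
abbrev PL := List Word

/-- first and last word -/
def headW (X : PL) : Word := X.headD []
def lastW (X : PL) : Word := X.getLastD []

/-- `X` can be followed by `Y` (the end node `(lastW X).tail` of `X` is a prefix of the head of `Y`) -/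
def linkB (X Y : PL) : Bool := (lastW X).tail.isPrefixOf (headW Y)

/-- extension of an open chain by one column -/
def ext (X : PL) : PL := X ++ [(lastW X).tail]

/-- the open chain closed through the empty word: add all nonempty proper suffixes of the last word -/
def closeR (X : PL) : PL := X ++ (lastW X).tail.tails.dropLast

/-! ### vertices, level, text -/

/-- the vertices of the column with top `q`, when the previous top is `p` -/
def column (p q : Word) : List Word :=
  (List.range (q.length + 1 - (p.length - 1))).map fun k => q.take (p.length - 1 + k)

/-- all vertices (visited words) of a ring in cyclic order -/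
def nodes (P : PL) : List Word :=
  ((lastW P :: P).zip P).flatMap fun pq => column pq.1 pq.2

/-- level = length of a shortest vertex -/
def levN (P : PL) : ℕ := (P.map fun p => p.length - 1).foldr min (headW P).length

/-- first shortest vertex -/
def bottom (P : PL) : Word := ((P.find? fun p => p.length - 1 == levN P).getD []).tail

/-- wrapping -/
def wrapB (P : PL) : Bool := decide (P.length < levN P)

/-- the word issued for a wrap -/
def xw (P : PL) : Word := (bottom P).take (levN P - P.length)

/-- one period of the text -/
def txt (P : PL) : Word := P.map fun p => p.headD 0

/-- window of length `n` at `i` of the periodic continuation of `c` -/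
def perWin (c : Word) (i n : ℕ) : Word :=
  (List.range n).map fun t => c.getD ((i + t) % c.length) 0

/-- the top of column `s - 1` -/
def prevW (P : PL) (s : ℕ) : Word := P.getD ((s + P.length - 1) % P.length) []

/-! ### linked, near, candidate -/

/-- the texts agree on the longer one of the lowest vertices of column `s` of `A` and of column `t`
of `B`, and differ just before (helper707's `LinkAt`) -/
def linkAt (A B : PL) (s t : ℕ) : Bool :=
  ((prevW A s).headD 0 != (prevW B t).headD 0) &&
    (perWin (txt A) s (max ((prevW A s).length - 1) ((prevW B t).length - 1)) ==
      perWin (txt B) t (max ((prevW A s).length - 1) ((prevW B t).length - 1)))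

def linkedB (A B : PL) : Bool :=
  (List.range A.length).any fun s => (List.range B.length).any fun t => linkAt A B s t

/-- `v` is a word `κ[i, j)`, `i ≤ 0`, `j ≥ m`, of the `w`-periodic text with `κ[0, |z|) = z`,
`m = |z| - w` -/
def inU (z : Word) (w : ℕ) (v : Word) : Bool :=
  (List.range w).any fun r =>
    decide (r + (z.length - w) ≤ v.length) && (v == perWin (z.take w) (w - r) v.length)

/-- the ring `A` visits a word of `U(x_K)` -/
def visU (K A : PL) : Bool := (nodes A).any fun v => inU (bottom K) K.length v

/-- candidate condition for `K` in the family `fam` -/
def candB (fam : List PL) (K : PL) : Bool :=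
  wrapB K &&
  (fam.all fun A => !visU K A || (wrapB A && decide (levN K ≤ levN A))) &&
  ((fam.filter fun A => visU K A).all fun A => (fam.filter fun A => visU K A).all fun B =>
    !linkedB A B)

/-- a pair `(u, v)`, `u` a vertex of `K`, `v` a vertex of `A`, with closed cost at most `w_K` -/
def nearPair (K A : PL) : Option (Word × Word) :=
  ((nodes K).flatMap fun u => (nodes A).map fun v => (u, v)).find? fun p =>
    decide (dist p.1 p.2 + dist p.2 p.1 ≤ K.length)

def nearB (K A : PL) : Bool := (nearPair K A).isSome

/-! ### the process -/

/-- state: open chains, closed rings -/
abbrev St := List PL × List PL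

/-- the family of rings of a state -/
def famS (st : St) : List PL := st.2 ++ st.1.map closeR

/-- issue the demand of the ring `K` at level `m` -/
def issue (m : ℕ) (st : St) (K : PL) : St :=
  if decide (levN K = m + K.length) && candB (famS st) K then ([xw K] :: st.1, st.2) else st

/-- is `s` a factor of some word of the state -/
def occursB (st : St) (s : Word) : Bool :=
  (st.1 ++ st.2).any fun X => X.any fun p => p.tails.any fun q => s.isPrefixOf q

/-- add the input word `s` at level `m` -/
def addInput (m : ℕ) (st : St) (s : Word) : St :=
  if decide (s.length = m) && !occursB st s then ([s] :: st.1, st.2) else st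

/-- remove the first member of `acc` satisfying `p` -/
def pick (p : PL → Bool) (acc : List PL) : PL × List PL := ((acc.find? p).getD [], acc.eraseP p)

/-- insert an open chain, merging it with a successor and a predecessor -/
def insertOpen (X : PL) (acc : List PL) : List PL :=
  let r := pick (fun Y => linkB X Y) acc
  let X1 := X ++ r.1
  let q := pick (fun Z => linkB Z X1) r.2
  (q.1 ++ X1) :: q.2

def mergeAll (l : List PL) : List PL := l.foldr insertOpen []

/-- one level: words of length `m`, then the links of level `m - 1` -/
def level (S : List Word) (m : ℕ) (st : St) : St :=
  let st1 : St := (st.1.map ext, st.2)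
  let st2 : St := st1.2.foldl (issue m) st1
  let st3 : St := S.foldl (addInput m) st2
  let op := mergeAll st3.1
  (op.filter (fun X => !linkB X X), st3.2 ++ op.filter (fun X => linkB X X))

def maxLen (S : List Word) : ℕ := (S.map List.length).foldr max 0

/-- state after `i` levels (next level: `maxLen S - i`) -/
def stt (S : List Word) : ℕ → St
  | 0 => ([], [])
  | i + 1 => level S (maxLen S - i) (stt S i)

/-- the final rings -/
def ringsOf (S : List Word) : List PL := (stt S (maxLen S)).2

end Crest.Agent.R287
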