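import Crest.Agent.R287.PWC
import Crest.Agent.R287.Core

/-!
# Row 287: the algorithm
-/

set_option autoImplicit false

namespace Crest.Agent.R287

/-- the algorithm -/
def alg (S : List Word) : Word := Asm.asm (wcsOf (ringsOf S))

end Crest.Agent.R287
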