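import Crest.Agent.R287.AsmDefs

/-!
# Row 287: the assembly theorem (word level)
-/

set_option autoImplicit false
set_option linter.unusedSectionVars false
set_option linter.unusedVariables false

namespace Crest.Agent.R287.Asm

/-! ### basic facts -/

theorem hasPer_iff {w : ℕ} {v : Word} : hasPer w v = true ↔ v.drop w <+: v := by
  simp [hasPer, List.isPrefixOf_iff_prefix]

theorem overW_iff {v : Word} {K : WC} :
    overW v K = true ↔ hasPer K.wt v = true ∧ ∃ y ∈ K.tour, y <+: v := by
  simp [overW, List.isPrefixOf_iff_prefix]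

theorem overC_iff {A K : WC} : overC A K = true ↔ ∃ v ∈ A.tour, overW v K = true := by
  simp [overC]

theorem overS_iff {A K : WC} :
    overS A K = true ↔ ∃ v ∈ A.tour, overW v K = true ∧ v.length < A.wt + K.wt := by
  simp [overS]

theorem near_iff {K A : WC} :
    near K A = true ↔ ∃ u ∈ K.tour, ∃ v ∈ A.tour, dist u v + dist v u ≤ K.wt := by
  simp only [near, nearPair, List.find?_isSome, List.mem_flatMap, List.mem_map,
    decide_eq_true_eq]
  constructor
  · rintro ⟨p, ⟨u, hu, v, hv, rfl⟩, h⟩
    exact ⟨u, hu, v, hv, h⟩
  · rintro ⟨u, hu, v, hv, h⟩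
    exact ⟨(u, v), ⟨u, hu, v, hv, rfl⟩, h⟩

theorem nearPair_some {K A : WC} {u v : Word} (h : nearPair K A = some (u, v)) :
    u ∈ K.tour ∧ v ∈ A.tour ∧ dist u v + dist v u ≤ K.wt := by
  have h1 := List.mem_of_find?_eq_some h
  have h2 := List.find?_some h
  simp only [List.mem_flatMap, List.mem_map, decide_eq_true_eq, Prod.mk.injEq] at h1 h2
  obtain ⟨a, ha, b, hb, rfl, rfl⟩ := h1
  exact ⟨ha, hb, h2⟩

theorem linked_iff {K A : WC} : linked K A = true ↔ K.wrap = true ∧ A.wrap = true ∧
    K.num ≠ A.num ∧ (overS A K = true ∨ overS K A = true) := by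
  simp [linked, and_assoc]

theorem linked_comm {K A : WC} (h : linked K A = true) : linked A K = true := by
  rw [linked_iff] at h ⊢
  exact ⟨h.2.1, h.1, h.2.2.1.symm, h.2.2.2.symm⟩

theorem smaller_iff {A K : WC} :
    smaller A K = true ↔ A.wt < K.wt ∨ (A.wt = K.wt ∧ A.num < K.num) := by
  simp [smaller]

theorem mem_partners {Cs : List WC} {K A : WC} :
    A ∈ partners Cs K ↔ A ∈ Cs ∧ linked K A = true := by
  simp [partners]

theorem isolated_iff {Cs : List WC} {K : WC} :
    isolated Cs K = true ↔ ∀ A ∈ Cs, linked K A = false := by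
  simp [isolated, partners, List.filter_eq_nil_iff]

theorem not_isolated_iff {Cs : List WC} {K : WC} :
    isolated Cs K = false ↔ ∃ A ∈ Cs, linked K A = true := by
  rw [← Bool.not_eq_true, isolated_iff]
  push Not
  simp

theorem locmin_iff {Cs : List WC} {K : WC} :
    locmin Cs K = true ↔ isolated Cs K = false ∧ ∀ A ∈ Cs, linked K A = true →
      smaller A K = false := by
  simp [locmin, mem_partners]

theorem ctr_some {Cs : List WC} {K A : WC} (h : ctr Cs K = some A) : A ∈ Cs ∧ linked K A = true := by
  rw [← mem_partners]
  exact List.mem_of_head? h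

theorem exists_ctr {Cs : List WC} {K : WC} (h : isolated Cs K = false) : ∃ A, ctr Cs K = some A := by
  unfold ctr
  unfold isolated at h
  cases hp : partners Cs K with
  | nil => rw [hp] at h; simp at h
  | cons a l => exact ⟨a, rfl⟩

theorem mem_leaves {Cs : List WC} {K A : WC} :
    K ∈ leaves Cs A ↔ K ∈ Cs ∧ locmin Cs K = true ∧ ctr Cs K = some A := by
  simp [leaves]

theorem mem_farLeaves {Cs : List WC} {K A : WC} :
    K ∈ farLeaves Cs A ↔ K ∈ leaves Cs A ∧ near K A = false := by
  simp [farLeaves]

/-- the basic near lemma -/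
theorem near_word {y v : Word} {w : ℕ} (h1 : y <+: v) (h2 : hasPer w v = true)
    (h3 : w ≤ v.length) (h4 : v.length ≤ y.length + w) : dist v y + dist y v ≤ w := by
  rw [hasPer_iff] at h2
  have h5 : v.drop w <+: y := by
    apply List.prefix_of_prefix_length_le h2 h1
    rw [List.length_drop]; omega
  have h6 := dist_le (List.drop_suffix w v) h5
  have h7 := dist_of_prefix h1
  rw [List.length_drop] at h6
  have := h1.length_le
  omega

/-- hypotheses of the assembly theorem -/
structure AsmHyp (Cs : List WC) : Prop where
  nodup : (Cs.map WC.num).Nodup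
  cc : ∀ K ∈ Cs, ccost K.tour ≤ K.wt
  wlen : ∀ K ∈ Cs, K.wrap = true → ∀ v ∈ K.tour, K.wt < v.length
  wper : ∀ K ∈ Cs, K.wrap = true → ∀ v ∈ K.tour, hasPer K.wt v = true
  h2 : ∀ A ∈ Cs, A.wrap = true → ∀ L : List WC, L ≠ [] → (∀ K ∈ L, K ∈ Cs) → L.Nodup →
    (∀ K ∈ L, linked K A = true ∧ near K A = false) →
    (∀ K ∈ L, ∀ K' ∈ L, linked K K' = false) → ∃ r ∈ cands A L, good A L r = true
  h3 : ∀ V ∈ Cs, V.wrap = false → ∀ L : List WC, (∀ K ∈ L, K ∈ Cs) → L.Nodup →
    (∀ K ∈ L, K.wrap = true ∧ isolated Cs K = true ∧ overC V K = true ∧ near K V = false) →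
    ∃ r ∈ cands V L, good V L r = true
  h4 : ∀ K ∈ Cs, K.wrap = true → isolated Cs K = true →
    hasTarget Cs K = true ∨ ∃ V ∈ Cs, V.wrap = false ∧ overC V K = true

namespace AsmHyp

variable {Cs : List WC} (h : AsmHyp Cs)

include h

theorem eq_of_num {K A : WC} (hK : K ∈ Cs) (hA : A ∈ Cs) (e : K.num = A.num) : K = A :=
  List.inj_on_of_nodup_map h.nodup hK hA e

theorem nodupCs : Cs.Nodup := List.Nodup.of_map _ h.nodup

theorem near_of_overS {K A : WC} (hK : K ∈ Cs) (hA : A ∈ Cs) (wK : K.wrap = true)
    (wA : A.wrap = true) (ho : overS K A = true) : near K A = true := by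
  rw [overS_iff] at ho
  obtain ⟨v, hv, hov, hl⟩ := ho
  rw [overW_iff] at hov
  obtain ⟨-, y, hy, hyv⟩ := hov
  rw [near_iff]
  refine ⟨v, hv, y, hy, ?_⟩
  have h1 := h.wlen K hK wK v hv
  have h2 := h.wlen A hA wA y hy
  exact near_word hyv (h.wper K hK wK v hv) (by omega) (by omega)

theorem near_of_smaller {K A : WC} (hK : K ∈ Cs) (hA : A ∈ Cs) (hl : linked K A = true)
    (hs : smaller A K = true) : near K A = true := by
  rw [linked_iff] at hl
  obtain ⟨wK, wA, -, ho | ho⟩ := hl
  · rw [overS_iff] at ho
    obtain ⟨v, hv, hov, hl⟩ := ho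
    rw [overW_iff] at hov
    obtain ⟨hp, y, hy, hyv⟩ := hov
    rw [near_iff]
    refine ⟨y, hy, v, hv, ?_⟩
    have h1 := h.wlen K hK wK y hy
    have h2 := hyv.length_le
    have h3 : A.wt ≤ K.wt := by
      rw [smaller_iff] at hs; omega
    have := near_word hyv hp (by omega) (by omega)
    omega
  · exact h.near_of_overS hK hA wK wA ho

theorem smaller_total {K A : WC} (hn : K.num ≠ A.num) : smaller A K = true ∨ smaller K A = true := by
  rw [smaller_iff, smaller_iff]; omega

/-- a centre is not a leaf -/
theorem not_locmin_of_centre {A : WC} (hA : (leaves Cs A) ≠ []) : locmin Cs A = false := by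
  obtain ⟨K, hK⟩ := List.exists_mem_of_ne_nil _ hA
  rw [mem_leaves] at hK
  obtain ⟨hK, hlm, hc⟩ := hK
  obtain ⟨hA', hl⟩ := ctr_some hc
  by_contra hne
  rw [Bool.not_eq_false] at hne
  rw [locmin_iff] at hlm hne
  have h1 := hlm.2 A hA' hl
  have h2 := hne.2 K hK (linked_comm hl)
  rcases h.smaller_total (linked_iff.1 hl).2.2.1 with h3 | h3
  · rw [h1] at h3; exact absurd h3 (by simp)
  · rw [h2] at h3; exact absurd h3 (by simp)

theorem isolated_of_not_wrap {V : WC} (hV : V.wrap = false) : isolated Cs V = true := by
  rw [isolated_iff]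
  intro A _
  by_contra hne
  rw [Bool.not_eq_false] at hne
  rw [linked_iff] at hne
  rw [hV] at hne
  exact absurd hne.1 (by simp)

theorem wrap_of_not_isolated {K : WC} (hK : isolated Cs K = false) : K.wrap = true := by
  by_contra hne
  rw [Bool.not_eq_true] at hne
  rw [h.isolated_of_not_wrap hne] at hK
  exact absurd hK (by simp)

theorem hubLeaves_wrap {A K : WC} (hA : A.wrap = true) (hK : K ∈ hubLeaves Cs A) :
    K ∈ leaves Cs A := by
  unfold hubLeaves at hK
  rw [hA, cond_true] at hK
  cases hf : (farLeaves Cs A).isEmpty with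
  | true =>
    rw [hf, cond_true] at hK
    exact List.mem_of_mem_take hK
  | false =>
    rw [hf, cond_false] at hK
    exact (mem_farLeaves.1 hK).1

omit h in
theorem mem_hubLeaves_nw {V K : WC} (hV : V.wrap = false) : K ∈ hubLeaves Cs V ↔
    K ∈ Cs ∧ K.wrap = true ∧ isolated Cs K = true ∧ hasTarget Cs K = false ∧
      firstOver Cs K = some V := by
  unfold hubLeaves
  rw [hV, cond_false]
  simp [and_assoc]

theorem hubLeaves_sub {A K : WC} (hK : K ∈ hubLeaves Cs A) : K ∈ Cs := by
  cases hA : A.wrap with
  | true => exact (mem_leaves.1 (h.hubLeaves_wrap hA hK)).1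
  | false => exact ((mem_hubLeaves_nw hA).1 hK).1

theorem hubLeaves_nodup (A : WC) : (hubLeaves Cs A).Nodup := by
  have hn := h.nodupCs
  unfold hubLeaves
  cases A.wrap with
  | true =>
    rw [cond_true]
    cases (farLeaves Cs A).isEmpty with
    | true =>
      rw [cond_true]
      exact ((hn.filter _).sublist (List.take_sublist _ _))
    | false =>
      rw [cond_false]
      exact (hn.filter _).filter _
  | false =>
    rw [cond_false]
    exact hn.filter _

theorem leaf_wrap {A K : WC} (hK : K ∈ hubLeaves Cs A) : K.wrap = true := by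
  cases hA : A.wrap with
  | true =>
    have h1 := (mem_leaves.1 (h.hubLeaves_wrap hA hK)).2.1
    exact h.wrap_of_not_isolated (locmin_iff.1 h1).1
  | false => exact ((mem_hubLeaves_nw hA).1 hK).2.1

omit h in
theorem isCentre_iff {A : WC} : isCentre Cs A = true ↔ A.wrap = false ∨ leaves Cs A ≠ [] := by
  unfold isCentre
  cases A.wrap <;> simp

theorem centre_not_leaf {A A' : WC} (hA : isCentre Cs A = true) : A ∉ hubLeaves Cs A' := by
  intro hm
  rw [isCentre_iff] at hA
  have hw := h.leaf_wrap hm
  have hl : leaves Cs A ≠ [] := by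
    rcases hA with hA | hA
    · rw [hA] at hw; exact absurd hw (by simp)
    · exact hA
  cases hA' : A'.wrap with
  | true =>
    have h1 := (mem_leaves.1 (h.hubLeaves_wrap hA' hm)).2.1
    rw [h.not_locmin_of_centre hl] at h1
    exact absurd h1 (by simp)
  | false =>
    have h1 := ((mem_hubLeaves_nw hA').1 hm).2.2.1
    obtain ⟨K, hK⟩ := List.exists_mem_of_ne_nil _ hl
    rw [mem_leaves] at hK
    obtain ⟨hK, -, hc⟩ := hK
    have h2 := isolated_iff.1 h1 K hK
    rw [linked_comm (ctr_some hc).2] at h2
    exact absurd h2 (by simp)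

theorem leaf_unique {A A' K : WC} (hA : K ∈ hubLeaves Cs A) (hA' : K ∈ hubLeaves Cs A') : A = A' := by
  cases wA : A.wrap with
  | true =>
    have h1 := mem_leaves.1 (h.hubLeaves_wrap wA hA)
    cases wA' : A'.wrap with
    | true =>
      have h2 := mem_leaves.1 (h.hubLeaves_wrap wA' hA')
      have := h1.2.2.symm.trans h2.2.2
      exact Option.some_injective _ this
    | false =>
      have h2 := (mem_hubLeaves_nw wA').1 hA'
      have := (locmin_iff.1 h1.2.1).1
      rw [h2.2.2.1] at this
      exact absurd this (by simp)
  | false =>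
    have h1 := (mem_hubLeaves_nw wA).1 hA
    cases wA' : A'.wrap with
    | true =>
      have h2 := mem_leaves.1 (h.hubLeaves_wrap wA' hA')
      have := (locmin_iff.1 h2.2.1).1
      rw [h1.2.2.1] at this
      exact absurd this (by simp)
    | false =>
      have h2 := (mem_hubLeaves_nw wA').1 hA'
      have := h1.2.2.2.2.symm.trans h2.2.2.2.2
      exact Option.some_injective _ this

omit h in
theorem members_eq : members Cs =
    (Cs.filter (fun A => isCentre Cs A)).flatMap (fun A => A :: hubLeaves Cs A) := by
  unfold members hubs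
  rw [List.flatMap_map]

theorem members_nodup : (members Cs).Nodup := by
  rw [members_eq, List.nodup_flatMap]
  constructor
  · intro A hA
    rw [List.mem_filter] at hA
    rw [List.nodup_cons]
    exact ⟨h.centre_not_leaf hA.2, h.hubLeaves_nodup A⟩
  · have hn : (Cs.filter (fun A => isCentre Cs A)).Nodup := h.nodupCs.filter _
    refine List.Pairwise.imp_of_mem ?_ hn
    intro A A' hA hA' hne
    rw [List.mem_filter] at hA hA'
    rw [Function.onFun, List.disjoint_left]
    intro K hK hK'
    rcases List.mem_cons.1 hK with rfl | hK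
    · rcases List.mem_cons.1 hK' with rfl | hK'
      · exact hne rfl
      · exact h.centre_not_leaf hA.2 hK'
    · rcases List.mem_cons.1 hK' with rfl | hK'
      · exact h.centre_not_leaf hA'.2 hK
      · exact hne (h.leaf_unique hK hK')

theorem members_sub {K : WC} (hK : K ∈ members Cs) : K ∈ Cs := by
  rw [members_eq, List.mem_flatMap] at hK
  obtain ⟨A, hA, hK⟩ := hK
  rcases List.mem_cons.1 hK with rfl | hK
  · exact (List.mem_filter.1 hA).1
  · exact h.hubLeaves_sub hK

/-! ### hub routes are good -/

omit h in
theorem cost_inits_aux (p : Word) (v : Word) :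
    cost (v.inits.map (fun x => p ++ x)) ≤ v.length := by
  induction v generalizing p with
  | nil => simp
  | cons a v ih =>
    have h1 : (a :: v).inits = [] :: v.inits.map (fun x => a :: x) := List.inits_cons ..
    have h2 : ((a :: v).inits.map (fun x => p ++ x)) =
        p :: (v.inits.map (fun x => (p ++ [a]) ++ x)) := by
      rw [h1]; simp
    rw [h2]
    have h3 := ih (p ++ [a])
    have h4 : v.inits.map (fun x => (p ++ [a]) ++ x) =
        (p ++ [a]) :: (v.inits.map (fun x => (p ++ [a]) ++ x)).tail := by
      cases v <;> simp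
    rw [h4, cost_cons_cons]
    rw [h4] at h3
    have h5 := dist_append p a
    simp only [List.length_cons]
    omega

omit h in
theorem ccost_of_head {L : List Word} (h : L.head? = some []) : ccost L = cost L := by
  cases L with
  | nil => simp at h
  | cons a l =>
    simp at h
    subst h
    rw [ccost]
    have key : ∀ (l : List Word) (a : Word), cost (a :: l ++ [[]]) = cost (a :: l) := by
      intro l
      induction l with
      | nil =>
        intro a
        have := dist_le_length a []
        simp at this
        simp [this]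
      | cons b l ih =>
        intro a
        have := ih b
        simp only [List.cons_append, cost_cons_cons] at this ⊢
        omega
    exact key l []

omit h in
theorem ccost_inits (v : Word) : ccost v.inits ≤ v.length := by
  have h1 : v.inits.head? = some [] := by cases v <;> simp
  rw [ccost_of_head h1]
  simpa using cost_inits_aux [] v

omit h in
theorem wtSum_cons (A : WC) (L : List WC) : wtSum (A :: L) = A.wt + wtSum L := by
  simp [wtSum]

/-- the pair route -/
theorem pair_good {A K : WC} (hA : A ∈ Cs) (hK : K ∈ Cs) (hl : linked K A = true) :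
    ∃ r ∈ cands A [K], good A [K] r = true := by
  rw [linked_iff] at hl
  obtain ⟨wK, wA, hne, ho⟩ := hl
  -- a word `v` of one of them over the other
  have key : ∃ v ∈ A.tour ++ K.tour, v.length < A.wt + K.wt ∧ (∃ y ∈ A.tour, y <+: v) ∧
      (∃ y ∈ K.tour, y <+: v) := by
    rcases ho with ho | ho
    · rw [overS_iff] at ho
      obtain ⟨v, hv, hov, hlen⟩ := ho
      rw [overW_iff] at hov
      exact ⟨v, List.mem_append_left _ hv, hlen, ⟨v, hv, List.prefix_refl _⟩, hov.2⟩
    · rw [overS_iff] at ho
      obtain ⟨v, hv, hov, hlen⟩ := ho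
      rw [overW_iff] at hov
      exact ⟨v, List.mem_append_right _ hv, by omega, hov.2, ⟨v, hv, List.prefix_refl _⟩⟩
  obtain ⟨v, hv, hlen, ⟨y, hy, hyv⟩, ⟨z, hz, hzv⟩⟩ := key
  refine ⟨v.inits, ?_, ?_⟩
  · unfold cands
    refine List.mem_append_left _ (List.mem_map.2 ⟨v, ?_, rfl⟩)
    simpa using hv
  · unfold good
    have h1 : [] ∈ v.inits := by simp
    have h2 : ccost v.inits ≤ wtSum [A, K] := by
      have := ccost_inits v
      simp only [wtSum, List.map_cons, List.map_nil, List.sum_cons, List.sum_nil]
      omega
    have h3 : touches v.inits A = true := by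
      simp only [touches, List.any_eq_true, decide_eq_true_eq]
      exact ⟨y, by simpa using hyv, hy⟩
    have h4 : touches v.inits K = true := by
      simp only [touches, List.any_eq_true, decide_eq_true_eq]
      exact ⟨z, by simpa using hzv, hz⟩
    simp [h2, h3, h4]

theorem exists_good {A : WC} (hA : A ∈ Cs) (hc : isCentre Cs A = true) :
    ∃ r ∈ cands A (hubLeaves Cs A), good A (hubLeaves Cs A) r = true := by
  cases wA : A.wrap with
  | true =>
    have hl : leaves Cs A ≠ [] := by
      rcases isCentre_iff.1 hc with h1 | h1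
      · rw [wA] at h1; exact absurd h1 (by simp)
      · exact h1
    cases hf : (farLeaves Cs A).isEmpty with
    | true =>
      have e : hubLeaves Cs A = (leaves Cs A).take 1 := by
        unfold hubLeaves; rw [wA, hf]; rfl
      obtain ⟨K, l, hKl⟩ := List.exists_cons_of_ne_nil hl
      have e2 : hubLeaves Cs A = [K] := by rw [e, hKl]; rfl
      have hK : K ∈ leaves Cs A := by rw [hKl]; exact List.mem_cons_self
      rw [mem_leaves] at hK
      rw [e2]
      exact h.pair_good hA hK.1 (ctr_some hK.2.2).2
    | false =>
      have e : hubLeaves Cs A = farLeaves Cs A := by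
        unfold hubLeaves; rw [wA, hf]; rfl
      rw [e]
      apply h.h2 A hA wA
      · intro h0; rw [h0] at hf; simp at hf
      · intro K hK; rw [mem_farLeaves, mem_leaves] at hK; exact hK.1.1
      · rw [← e]; exact h.hubLeaves_nodup A
      · intro K hK
        rw [mem_farLeaves, mem_leaves] at hK
        exact ⟨(ctr_some hK.1.2.2).2, hK.2⟩
      · intro K hK K' hK'
        rw [mem_farLeaves, mem_leaves] at hK hK'
        by_contra hne
        rw [Bool.not_eq_false] at hne
        have h1 := (locmin_iff.1 hK.1.2.1).2 K' hK'.1.1 hne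
        have h2 := (locmin_iff.1 hK'.1.2.1).2 K hK.1.1 (linked_comm hne)
        rcases h.smaller_total (linked_iff.1 hne).2.2.1 with h3 | h3
        · rw [h1] at h3; exact absurd h3 (by simp)
        · rw [h2] at h3; exact absurd h3 (by simp)
  | false =>
    apply h.h3 A hA wA
    · intro K hK; exact h.hubLeaves_sub hK
    · exact h.hubLeaves_nodup A
    · intro K hK
      rw [mem_hubLeaves_nw wA] at hK
      obtain ⟨hK, wK, iK, tK, fK⟩ := hK
      have h1 := List.find?_some fK
      simp only [Bool.and_eq_true, Bool.not_eq_true'] at h1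
      refine ⟨wK, iK, h1.2, ?_⟩
      -- `A` is a target of `K`
      have h2 : A ∈ targets Cs K := by
        unfold targets
        rw [iK, cond_true, List.mem_filter]
        refine ⟨hA, ?_⟩
        have hne : A.num ≠ K.num := by
          intro e
          have := h.eq_of_num hA hK e
          rw [this, wK] at wA
          exact absurd wA (by simp)
        simp [hne, wA]
      by_contra hne
      rw [Bool.not_eq_false] at hne
      have h3 : hasTarget Cs K = true := by
        unfold hasTarget
        rw [List.any_eq_true]
        exact ⟨A, h2, hne⟩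
      rw [tK] at h3
      exact absurd h3 (by simp)

theorem hubRoute_good {p : WC × List WC} (hp : p ∈ hubs Cs) : good p.1 p.2 (hubRoute p) = true := by
  unfold hubs at hp
  rw [List.mem_map] at hp
  obtain ⟨A, hA, rfl⟩ := hp
  rw [List.mem_filter] at hA
  obtain ⟨r, hr, hg⟩ := h.exists_good hA.1 hA.2
  unfold hubRoute
  simp only
  cases hf : (cands A (hubLeaves Cs A)).find? (good A (hubLeaves Cs A)) with
  | none =>
    have := List.find?_eq_none.1 hf r hr
    exact absurd hg this
  | some r' =>
    rw [Option.getD_some]
    exact List.find?_some hf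

/-! ### cost -/

omit h in
theorem wtSum_filter_add (L : List WC) (p : WC → Bool) :
    wtSum (L.filter p) + wtSum (L.filter (fun K => !p K)) = wtSum L := by
  induction L with
  | nil => rfl
  | cons a l ih =>
    cases hp : p a with
    | true =>
      rw [List.filter_cons_of_pos hp, List.filter_cons_of_neg (by simp [hp]), wtSum_cons,
        wtSum_cons]
      omega
    | false =>
      rw [List.filter_cons_of_neg (by simp [hp]), List.filter_cons_of_pos (by simp [hp]),
        wtSum_cons, wtSum_cons]
      omega

theorem wtSum_members : wtSum (members Cs) + wtSum (Cs.filter (fun K => decide (K ∉ members Cs))) =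
    wtSum Cs := by
  have hp : (members Cs).Perm (Cs.filter (fun K => decide (K ∈ members Cs))) := by
    rw [List.perm_ext_iff_of_nodup h.members_nodup (h.nodupCs.filter _)]
    intro K
    rw [List.mem_filter, decide_eq_true_eq]
    exact ⟨fun hK => ⟨h.members_sub hK, hK⟩, fun hK => hK.2⟩
  have h1 : wtSum (members Cs) = wtSum (Cs.filter (fun K => decide (K ∈ members Cs))) :=
    (hp.map _).sum_eq
  rw [h1]
  have := wtSum_filter_add Cs (fun K => decide (K ∈ members Cs))
  simpa using this

omit h in
theorem sum_hubs_le (H : List (WC × List WC)) (f : WC × List WC → ℕ)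
    (hf : ∀ p ∈ H, f p ≤ wtSum (p.1 :: p.2)) :
    (H.map f).sum ≤ wtSum (H.flatMap (fun p => p.1 :: p.2)) := by
  induction H with
  | nil => simp
  | cons a l ih =>
    have h1 := hf a List.mem_cons_self
    have h2 := ih (fun p hp => hf p (List.mem_cons_of_mem _ hp))
    have h3 : wtSum ((a :: l).flatMap (fun p => p.1 :: p.2)) =
        wtSum (a.1 :: a.2) + wtSum (l.flatMap (fun p => p.1 :: p.2)) := by
      simp only [List.flatMap_cons, wtSum, List.map_append, List.sum_append]
    rw [h3, List.map_cons, List.sum_cons]
    omega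

omit h in
theorem connector_some {K : WC} {C : List Word} (hc : connector Cs K = some C) :
    K ∉ members Cs ∧ ∃ V ∈ targets Cs K, ∃ u ∈ K.tour, ∃ v ∈ V.tour, C = [u, v] ∧
      dist u v + dist v u ≤ K.wt := by
  unfold connector at hc
  cases hm : decide (K ∈ members Cs) with
  | true => rw [hm, cond_true] at hc; exact absurd hc (by simp)
  | false =>
    rw [hm, cond_false, Option.map_eq_some_iff] at hc
    obtain ⟨⟨u, v⟩, hp, rfl⟩ := hc
    have h1 := List.mem_of_head? hp
    rw [List.mem_filterMap] at h1
    obtain ⟨V, hV, hn⟩ := h1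
    obtain ⟨hu, hv, hd⟩ := nearPair_some hn
    exact ⟨by simpa using hm, V, hV, u, hu, v, hv, rfl, hd⟩

omit h in
theorem exists_connector {K : WC} (hK : K ∉ members Cs) (ht : hasTarget Cs K = true) :
    ∃ C, connector Cs K = some C := by
  unfold hasTarget at ht
  rw [List.any_eq_true] at ht
  obtain ⟨V, hV, hn⟩ := ht
  unfold near at hn
  obtain ⟨p, hp⟩ := Option.isSome_iff_exists.1 hn
  have h1 : p ∈ (targets Cs K).filterMap (fun V => nearPair K V) :=
    List.mem_filterMap.2 ⟨V, hV, hp⟩
  have h2 : ∃ q, ((targets Cs K).filterMap (fun V => nearPair K V)).head? = some q := by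
    cases hl : (targets Cs K).filterMap (fun V => nearPair K V) with
    | nil => rw [hl] at h1; simp at h1
    | cons a l => exact ⟨a, rfl⟩
  obtain ⟨q, hq⟩ := h2
  refine ⟨[q.1, q.2], ?_⟩
  unfold connector
  have : decide (K ∈ members Cs) = false := by simpa using hK
  rw [this, cond_false, hq]
  rfl

omit h in
theorem ccost_pair (u v : Word) : ccost [u, v] = dist u v + dist v u := by
  simp [ccost]

theorem sum_closedLists : ((closedLists Cs).map ccost).sum ≤ 2 * wtSum Cs := by
  unfold closedLists
  rw [List.map_append, List.map_append, List.sum_append, List.sum_append, List.map_map,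
    List.map_map]
  have h1 : (Cs.map (ccost ∘ WC.tour)).sum ≤ wtSum Cs := by
    unfold wtSum
    exact List.sum_le_sum (fun K hK => h.cc K hK)
  have h2 : ((hubs Cs).map (ccost ∘ hubRoute)).sum ≤ wtSum (members Cs) := by
    apply sum_hubs_le
    intro p hp
    have := h.hubRoute_good hp
    unfold good at this
    simp only [Bool.and_eq_true, decide_eq_true_eq] at this
    exact this.1.2
  have h3 : ((Cs.filterMap (fun K => connector Cs K)).map ccost).sum ≤
      wtSum (Cs.filter (fun K => decide (K ∉ members Cs))) := by
    have key : ∀ L : List WC, ((L.filterMap (fun K => connector Cs K)).map ccost).sum ≤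
        wtSum (L.filter (fun K => decide (K ∉ members Cs))) := by
      intro L
      induction L with
      | nil => simp [wtSum]
      | cons a l ih =>
        cases hc : connector Cs a with
        | none =>
          rw [List.filterMap_cons_none hc]
          refine ih.trans ?_
          by_cases ha : a ∈ members Cs
          · rw [List.filter_cons_of_neg (by simpa using ha)]
          · rw [List.filter_cons_of_pos (by simpa using ha), wtSum_cons]; omega
        | some C =>
          rw [List.filterMap_cons_some hc, List.map_cons, List.sum_cons]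
          obtain ⟨ha, V, -, u, -, v, -, rfl, hd⟩ := connector_some hc
          rw [List.filter_cons_of_pos (by simpa using ha), wtSum_cons, ccost_pair]
          change _ + ((l.filterMap (fun K => connector Cs K)).map ccost).sum ≤ _
          omega
    exact key Cs
  have h4 := h.wtSum_members
  omega

/-! ### connectivity -/

omit h in
theorem tour_mem {K : WC} (hK : K ∈ Cs) : K.tour ∈ closedLists Cs :=
  List.mem_append_left _ (List.mem_map_of_mem hK)

theorem reach_member {K : WC} (hK : K ∈ members Cs) : Reach (closedLists Cs) K.tour := by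
  have hK' := h.members_sub hK
  unfold members at hK
  rw [List.mem_flatMap] at hK
  obtain ⟨p, hp, hK⟩ := hK
  have hg := h.hubRoute_good hp
  unfold good at hg
  simp only [Bool.and_eq_true, decide_eq_true_eq, List.all_eq_true] at hg
  obtain ⟨⟨h1, -⟩, h2⟩ := hg
  have h3 := h2 K hK
  unfold touches at h3
  simp only [List.any_eq_true, decide_eq_true_eq] at h3
  obtain ⟨v, hv, hv'⟩ := h3
  have h4 : hubRoute p ∈ closedLists Cs :=
    List.mem_append_right _ (List.mem_append_left _ (List.mem_map_of_mem hp))
  exact Reach.step (Reach.base h4 h1) (tour_mem hK') hv hv'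

omit h in
theorem reach_connector {K : WC} (hK : K ∈ Cs) {C : List Word} (hc : connector Cs K = some C)
    (ht : ∀ V ∈ targets Cs K, Reach (closedLists Cs) V.tour) :
    Reach (closedLists Cs) C ∧ Reach (closedLists Cs) K.tour := by
  obtain ⟨-, V, hV, u, hu, v, hv, rfl, -⟩ := connector_some hc
  have h1 : [u, v] ∈ closedLists Cs :=
    List.mem_append_right _ (List.mem_append_right _ (List.mem_filterMap.2 ⟨K, hK, hc⟩))
  have h2 : Reach (closedLists Cs) [u, v] := Reach.step (ht V hV) h1 hv (by simp)
  exact ⟨h2, Reach.step h2 (tour_mem hK) (by simp : u ∈ [u, v]) hu⟩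

theorem centre_member {A : WC} (hA : A ∈ Cs) (hc : isCentre Cs A = true) : A ∈ members Cs := by
  rw [members_eq, List.mem_flatMap]
  exact ⟨A, List.mem_filter.2 ⟨hA, hc⟩, List.mem_cons_self⟩

theorem reach_not_wrap {V : WC} (hV : V ∈ Cs) (wV : V.wrap = false) :
    Reach (closedLists Cs) V.tour :=
  h.reach_member (h.centre_member hV (isCentre_iff.2 (Or.inl wV)))

theorem leaf_near_or_member {K A : WC} (hA : A ∈ Cs) (hK : K ∈ leaves Cs A)
    (hm : K ∉ members Cs) : near K A = true := by
  have hwA : A.wrap = true := (linked_iff.1 (ctr_some (mem_leaves.1 hK).2.2).2).2.1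
  have hcA : isCentre Cs A = true :=
    isCentre_iff.2 (Or.inr (List.ne_nil_of_mem hK))
  have hnl : K ∉ hubLeaves Cs A := by
    intro hh
    apply hm
    rw [members_eq, List.mem_flatMap]
    exact ⟨A, List.mem_filter.2 ⟨hA, hcA⟩, List.mem_cons_of_mem _ hh⟩
  by_contra hne
  rw [Bool.not_eq_true] at hne
  have hf : K ∈ farLeaves Cs A := mem_farLeaves.2 ⟨hK, hne⟩
  apply hnl
  unfold hubLeaves
  rw [hwA, cond_true]
  have : (farLeaves Cs A).isEmpty = false := by
    rw [List.isEmpty_eq_false_iff]
    exact List.ne_nil_of_mem hf
  rw [this, cond_false]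
  exact hf

/-- data of the connector of a non-isolated component -/
theorem nonisolated_target {K : WC} (hK : K ∈ Cs) (hi : isolated Cs K = false)
    (hm : K ∉ members Cs) : hasTarget Cs K = true := by
  unfold hasTarget
  rw [List.any_eq_true]
  unfold targets
  rw [hi, cond_false]
  cases hl : locmin Cs K with
  | true =>
    rw [cond_true]
    obtain ⟨A, hA⟩ := exists_ctr hi
    refine ⟨A, by simp [hA], ?_⟩
    exact h.leaf_near_or_member (ctr_some hA).1 (mem_leaves.2 ⟨hK, hl, hA⟩) hm
  | false =>
    rw [cond_false]
    have : ∃ A ∈ Cs, linked K A = true ∧ smaller A K = true := by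
      by_contra hne
      push Not at hne
      have : locmin Cs K = true := by
        rw [locmin_iff]
        refine ⟨hi, fun A hA hlA => ?_⟩
        have := hne A hA hlA
        simpa using this
      rw [hl] at this
      exact absurd this (by simp)
    obtain ⟨A, hA, hlA, hs⟩ := this
    exact ⟨A, List.mem_filter.2 ⟨mem_partners.2 ⟨hA, hlA⟩, hs⟩, h.near_of_smaller hK hA hlA hs⟩

theorem reach_nonisolated {K : WC} (hK : K ∈ Cs) (hi : isolated Cs K = false) :
    Reach (closedLists Cs) K.tour := by
  -- well-founded induction on (wt, num)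
  have key : ∀ x : ℕ ×ₗ ℕ, ∀ K ∈ Cs, toLex (K.wt, K.num) = x → isolated Cs K = false →
      Reach (closedLists Cs) K.tour := by
    intro x
    induction x using WellFounded.induction (wellFounded_lt (α := ℕ ×ₗ ℕ)) with
    | _ x ih =>
      intro K hK hx hi
      by_cases hm : K ∈ members Cs
      · exact h.reach_member hm
      · obtain ⟨C, hC⟩ := exists_connector hm (h.nonisolated_target hK hi hm)
        refine (reach_connector hK hC ?_).2
        intro V hV
        unfold targets at hV
        rw [hi, cond_false] at hV
        cases hl : locmin Cs K with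
        | true =>
          rw [hl, cond_true] at hV
          obtain ⟨A, hA⟩ := exists_ctr hi
          rw [hA] at hV
          simp only [Option.toList_some, List.mem_singleton] at hV
          subst hV
          have h1 : K ∈ leaves Cs V := mem_leaves.2 ⟨hK, hl, hA⟩
          exact h.reach_member (h.centre_member (ctr_some hA).1
            (isCentre_iff.2 (Or.inr (List.ne_nil_of_mem h1))))
        | false =>
          rw [hl, cond_false, List.mem_filter] at hV
          obtain ⟨hV, hs⟩ := hV
          obtain ⟨hV, hlV⟩ := mem_partners.1 hV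
          refine ih (toLex (V.wt, V.num)) ?_ V hV rfl ?_
          · rw [← hx, Prod.Lex.toLex_lt_toLex]
            exact smaller_iff.1 hs
          · rw [not_isolated_iff]
            exact ⟨K, hK, linked_comm hlV⟩
  exact key _ K hK rfl hi

theorem isolated_target {K : WC} (hK : K ∈ Cs) (wK : K.wrap = true) (hi : isolated Cs K = true)
    (hm : K ∉ members Cs) : hasTarget Cs K = true := by
  by_contra hne
  rw [Bool.not_eq_true] at hne
  rcases h.h4 K hK wK hi with h1 | ⟨V, hV, wV, hoV⟩
  · rw [hne] at h1; exact absurd h1 (by simp)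
  · have h2 : ∃ V', firstOver Cs K = some V' := by
      rw [← Option.isSome_iff_exists]
      unfold firstOver
      rw [List.find?_isSome]
      exact ⟨V, hV, by simp [wV, hoV]⟩
    obtain ⟨V', hV'⟩ := h2
    have h3 := List.find?_some hV'
    simp only [Bool.and_eq_true, Bool.not_eq_true'] at h3
    have h4 : V' ∈ Cs := List.mem_of_find?_eq_some hV'
    apply hm
    rw [members_eq, List.mem_flatMap]
    refine ⟨V', List.mem_filter.2 ⟨h4, isCentre_iff.2 (Or.inl h3.1)⟩, List.mem_cons_of_mem _ ?_⟩
    rw [mem_hubLeaves_nw h3.1]
    exact ⟨hK, wK, hi, hne, hV'⟩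

theorem reach_tour {K : WC} (hK : K ∈ Cs) : Reach (closedLists Cs) K.tour := by
  have key : ∀ n : ℕ, ∀ K ∈ Cs, K.lv = n → Reach (closedLists Cs) K.tour := by
    intro n
    induction n using Nat.strong_induction_on with
    | _ n ih =>
      intro K hK hn
      by_cases hm : K ∈ members Cs
      · exact h.reach_member hm
      · cases wK : K.wrap with
        | false => exact h.reach_not_wrap hK wK
        | true =>
          cases hi : isolated Cs K with
          | false => exact h.reach_nonisolated hK hi
          | true =>
            obtain ⟨C, hC⟩ := exists_connector hm (h.isolated_target hK wK hi hm)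
            refine (reach_connector hK hC ?_).2
            intro V hV
            unfold targets at hV
            rw [hi, cond_true, List.mem_filter] at hV
            obtain ⟨hV, hc⟩ := hV
            simp only [Bool.and_eq_true, Bool.or_eq_true, Bool.not_eq_true', decide_eq_true_eq]
              at hc
            rcases hc.2 with (h1 | h1) | h1
            · exact h.reach_not_wrap hV h1
            · exact h.reach_nonisolated hV h1
            · exact ih V.lv (by omega) V hV rfl
  exact key _ K hK rfl

theorem reach_all : ∀ C ∈ closedLists Cs, Reach (closedLists Cs) C := by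
  intro C hC
  have hC' := hC
  unfold closedLists at hC
  rcases List.mem_append.1 hC with hC | hC
  · obtain ⟨K, hK, rfl⟩ := List.mem_map.1 hC
    exact h.reach_tour hK
  · rcases List.mem_append.1 hC with hC | hC
    · obtain ⟨p, hp, rfl⟩ := List.mem_map.1 hC
      have hg := h.hubRoute_good hp
      unfold good at hg
      simp only [Bool.and_eq_true, decide_eq_true_eq, List.all_eq_true] at hg
      exact Reach.base hC' hg.1.1
    · obtain ⟨K, hK, hc⟩ := List.mem_filterMap.1 hC
      refine (reach_connector hK hc ?_).1
      intro V hV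
      apply h.reach_tour
      unfold targets at hV
      cases hi : isolated Cs K with
      | true => rw [hi, cond_true] at hV; exact (List.mem_filter.1 hV).1
      | false =>
        rw [hi, cond_false] at hV
        cases hl : locmin Cs K with
        | true =>
          rw [hl, cond_true] at hV
          obtain ⟨A, hA⟩ := exists_ctr hi
          rw [hA] at hV
          simp only [Option.toList_some, List.mem_singleton] at hV
          subst hV
          exact (ctr_some hA).1
        | false =>
          rw [hl, cond_false] at hV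
          exact (mem_partners.1 (List.mem_filter.1 hV).1).1

end AsmHyp

/-- **Assembly theorem.** -/
theorem asm_spec {Cs : List WC} (h : AsmHyp Cs) :
    (∀ K ∈ Cs, ∀ v ∈ K.tour, v <:+: asm Cs) ∧ (asm Cs).length ≤ 2 * wtSum Cs := by
  obtain ⟨h1, h2⟩ := assemble_spec h.reach_all
  refine ⟨fun K hK v hv => h1 _ (AsmHyp.tour_mem hK) v hv, ?_⟩
  unfold asm
  rw [h2]
  exact h.sum_closedLists

end Crest.Agent.R287.Asm
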