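import Crest.Agent.R287.Visit

/-!
# Row 287: the assembly, definitions (a list program on words)

A component is given by `(tour, w, l, id)`: the cyclic list of all its visited words, its weight,
its level and a number (distinct components have distinct numbers).
-/

set_option autoImplicit false

namespace Crest.Agent.R287.Asm

/-- component data: tour, weight, level, number -/
abbrev WC := List Word × ℕ × ℕ × ℕ

/-- visited words, in cyclic order -/
def WC.tour (K : WC) : List Word := K.1
/-- weight -/
def WC.wt (K : WC) : ℕ := K.2.1
/-- level -/
def WC.lv (K : WC) : ℕ := K.2.2.1
/-- number -/
def WC.num (K : WC) : ℕ := K.2.2.2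

/-- `v` has period `w` -/
def hasPer (w : ℕ) (v : Word) : Bool := (v.drop w).isPrefixOf v

/-- wrapping component -/
def WC.wrap (K : WC) : Bool := decide (K.wt < K.lv)

/-- `v` is over the component `K` -/
def overW (v : Word) (K : WC) : Bool := hasPer K.wt v && K.tour.any (fun y => y.isPrefixOf v)

/-- some visited word of `A` is over `K` -/
def overC (A K : WC) : Bool := A.tour.any (fun v => overW v K)

/-- some short visited word of `A` is over `K` -/
def overS (A K : WC) : Bool :=
  A.tour.any (fun v => overW v K && decide (v.length < A.wt + K.wt))

/-- linked components -/
def linked (K A : WC) : Bool :=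
  K.wrap && A.wrap && (decide (K.num ≠ A.num) && (overS A K || overS K A))

/-- first pair of words of `K` and `A` at mutual distance at most the weight of `K` -/
def nearPair (K A : WC) : Option (Word × Word) :=
  (K.tour.flatMap (fun u => A.tour.map (fun v => (u, v)))).find?
    (fun p => decide (dist p.1 p.2 + dist p.2 p.1 ≤ K.wt))

/-- `K` can be inserted into `A` -/
def near (K A : WC) : Bool := (nearPair K A).isSome

/-- a linear order of the components -/
def smaller (A K : WC) : Bool := decide (A.wt < K.wt) || (decide (A.wt = K.wt) && decide (A.num < K.num))

/-- the linked partners -/
def partners (Cs : List WC) (K : WC) : List WC := Cs.filter (fun A => linked K A)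

/-- no linked partner -/
def isolated (Cs : List WC) (K : WC) : Bool := (partners Cs K).isEmpty

/-- there is a linked partner but no smaller one -/
def locmin (Cs : List WC) (K : WC) : Bool :=
  !isolated Cs K && (partners Cs K).all (fun A => !smaller A K)

/-- the chosen centre of a local minimum -/
def ctr (Cs : List WC) (K : WC) : Option WC := (partners Cs K).head?

/-- the leaves of a wrapping centre -/
def leaves (Cs : List WC) (A : WC) : List WC :=
  Cs.filter (fun K => locmin Cs K && decide (ctr Cs K = some A))

/-- the far leaves -/
def farLeaves (Cs : List WC) (A : WC) : List WC := (leaves Cs A).filter (fun K => !near K A)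

/-- possible targets of a connection of `K` -/
def targets (Cs : List WC) (K : WC) : List WC :=
  bif isolated Cs K then
    Cs.filter (fun V => decide (V.num ≠ K.num) &&
      (!V.wrap || !isolated Cs V || decide (V.lv < K.lv)))
  else bif locmin Cs K then (ctr Cs K).toList
  else (partners Cs K).filter (fun A => smaller A K)

/-- there is a target to which `K` is near -/
def hasTarget (Cs : List WC) (K : WC) : Bool := (targets Cs K).any (fun V => near K V)

/-- the first non-wrapping component over `K` -/
def firstOver (Cs : List WC) (K : WC) : Option WC := Cs.find? (fun V => !V.wrap && overC V K)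

/-- the leaves of the hub with centre `A` -/
def hubLeaves (Cs : List WC) (A : WC) : List WC :=
  bif A.wrap then
    bif (farLeaves Cs A).isEmpty then (leaves Cs A).take 1 else farLeaves Cs A
  else Cs.filter (fun K => (K.wrap && isolated Cs K) && (!hasTarget Cs K &&
    decide (firstOver Cs K = some A)))

/-- the centres -/
def isCentre (Cs : List WC) (A : WC) : Bool := !A.wrap || !(leaves Cs A).isEmpty

/-- the hubs: centres with their leaves -/
def hubs (Cs : List WC) : List (WC × List WC) :=
  (Cs.filter (fun A => isCentre Cs A)).map (fun A => (A, hubLeaves Cs A))

/-- the members of the hubs -/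
def members (Cs : List WC) : List WC := (hubs Cs).flatMap (fun h => h.1 :: h.2)

/-! ### routes -/

/-- shortest prefix of `v` visited by `K` -/
def yOf (v : Word) (K : WC) : Option Word := v.inits.find? (fun y => decide (y ∈ K.tour))

/-- entries of the components `hit` below `v`, by increasing length -/
def ysOf (v : Word) (hit : List WC) : List Word :=
  v.inits.filter (fun y => hit.any (fun K => decide (yOf v K = some y)))

/-- state of the star walk: words visited so far, last centre word, components not yet met -/
abbrev StarS := List Word × Word × List WC

/-- one step of the star walk at the centre word `v` -/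
def starStep (s : StarS) (v : Word) : StarS :=
  bif (s.2.2.filter (fun K => overW v K)).isEmpty then s
  else (s.1 ++ ysOf v (s.2.2.filter (fun K => overW v K)), v, s.2.2.filter (fun K => !overW v K))

/-- the star walk along the words `ws` -/
def starWalk (L : List WC) (ws : List Word) : List Word :=
  let s := ws.foldl starStep ([], [], L)
  [] :: (s.1 ++ [s.2.1])

/-- all candidates for a closed walk through the empty word touching `A` and all `K ∈ L` -/
def cands (A : WC) (L : List WC) : List (List Word) :=
  ((A :: L).flatMap (fun K => K.tour)).map (fun v => v.inits) ++
    (List.range A.tour.length).map (fun t => starWalk L (A.tour.drop t ++ A.tour.take t))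

/-- total weight -/
def wtSum (L : List WC) : ℕ := (L.map WC.wt).sum

/-- the walk `r` touches the component `K` -/
def touches (r : List Word) (K : WC) : Bool := r.any (fun v => decide (v ∈ K.tour))

/-- a good route for the hub `(A, L)` -/
def good (A : WC) (L : List WC) (r : List Word) : Bool :=
  (decide ([] ∈ r) && decide (ccost r ≤ wtSum (A :: L))) && (A :: L).all (fun K => touches r K)

/-- the route of a hub -/
def hubRoute (h : WC × List WC) : List Word := ((cands h.1 h.2).find? (good h.1 h.2)).getD [[]]

/-- the connector of a component that is not a member of a hub -/
def connector (Cs : List WC) (K : WC) : Option (List Word) :=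
  bif decide (K ∈ members Cs) then none
  else (((targets Cs K).filterMap (fun V => nearPair K V)).head?).map (fun p => [p.1, p.2])

/-- the closed lists which are glued together -/
def closedLists (Cs : List WC) : List (List Word) :=
  Cs.map WC.tour ++ ((hubs Cs).map hubRoute ++ Cs.filterMap (fun K => connector Cs K))

/-- the output text -/
def asm (Cs : List WC) : Word := assemble (closedLists Cs)

end Crest.Agent.R287.Asm
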