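import Crest.Agent.R287.Core

/-!
# Row 287: the closed list `nodes P` of a ring has cost at most `P.length`
-/

set_option autoImplicit false

namespace Crest.Agent.R287

/-- consecutive columns -/
def PStep (p q : Word) : Prop := p ≠ [] ∧ p.tail <+: q

/-- the columns of a chain, the previous top being `p` -/
def nodesFrom : Word → PL → List Word
  | _, [] => []
  | p, q :: P => column p q ++ nodesFrom q P

theorem nodesFrom_eq (p : Word) (P : PL) :
    nodesFrom p P = ((p :: P).zip P).flatMap fun pq => column pq.1 pq.2 := by
  induction P generalizing p with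
  | nil => simp [nodesFrom]
  | cons q P ih => simp [nodesFrom, ih]

theorem nodes_eq (P : PL) : nodes P = nodesFrom (lastW P) P := by
  rw [nodesFrom_eq]; rfl

theorem column_cons {p q : Word} (h : PStep p q) :
    column p q = p.tail :: (List.range (q.length - (p.length - 1))).map
      (fun k => q.take (p.length - 1 + 1 + k)) := by
  obtain ⟨h1, h2⟩ := h
  have hl := h2.length_le
  rw [List.length_tail] at hl
  unfold column
  rw [show q.length + 1 - (p.length - 1) = (q.length - (p.length - 1)) + 1 by omega,
    List.range_succ_eq_map, List.map_cons, List.map_map]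
  congr 1
  · rw [Nat.add_zero, ← List.length_tail]
    exact (List.prefix_iff_eq_take.1 h2).symm
  · apply List.map_congr_left
    intro k _
    simp only [Function.comp]
    congr 1
    omega

/-- last word of a column is the top -/
theorem column_concat {p q : Word} (h : PStep p q) :
    column p q = (List.range (q.length - (p.length - 1))).map
      (fun k => q.take (p.length - 1 + k)) ++ [q] := by
  obtain ⟨h1, h2⟩ := h
  have hl := h2.length_le
  rw [List.length_tail] at hl
  unfold column
  rw [show q.length + 1 - (p.length - 1) = (q.length - (p.length - 1)) + 1 by omega,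
    List.range_succ, List.map_append, List.map_singleton]
  congr 2
  rw [show p.length - 1 + (q.length - (p.length - 1)) = q.length by omega, List.take_length]

theorem mem_column {p q : Word} (h : PStep p q) (v : Word) :
    v ∈ column p q ↔ p.tail <+: v ∧ v <+: q := by
  obtain ⟨h1, h2⟩ := h
  have hl := h2.length_le
  rw [List.length_tail] at hl
  unfold column
  simp only [List.mem_map, List.mem_range]
  constructor
  · rintro ⟨k, hk, rfl⟩
    refine ⟨?_, List.take_prefix _ _⟩
    have e := List.prefix_iff_eq_take.1 h2
    rw [List.length_tail] at e
    rw [e]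
    exact List.take_prefix_take_left (by omega)
  · rintro ⟨ha, hb⟩
    have h3 := ha.length_le
    rw [List.length_tail] at h3
    have h4 := hb.length_le
    refine ⟨v.length - (p.length - 1), by omega, ?_⟩
    rw [show p.length - 1 + (v.length - (p.length - 1)) = v.length by omega]
    exact (List.prefix_iff_eq_take.1 hb).symm

theorem cost_takes_up (q : Word) (m k : ℕ) (L : List Word) (a : Word) (ha : a = q.take k)
    (hk : k + m ≤ q.length) :
    cost (a :: (List.range m).map (fun j => q.take (k + 1 + j)) ++ L) ≤
      m + cost (q.take (k + m) :: L) := by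
  induction m generalizing k a with
  | zero => simp [ha]
  | succ m ih =>
    rw [List.range_succ_eq_map, List.map_cons, List.map_map]
    have h1 : (fun j => q.take (k + 1 + j)) ∘ Nat.succ = (fun j => q.take (k + 1 + 1 + j)) := by
      funext j; simp only [Function.comp]; congr 1; omega
    rw [h1, List.cons_append, List.cons_append, cost_cons_cons, ← List.cons_append]
    have h2 := ih (k + 1) (q.take (k + 1 + 0)) (by simp) (by omega)
    have h3 : dist a (q.take (k + 1 + 0)) ≤ 1 := by
      refine (dist_of_prefix ?_).trans ?_
      · rw [ha]; exact List.take_prefix_take_left (by omega)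
      · rw [ha, List.length_take, List.length_take]; omega
    rw [show k + (m + 1) = k + 1 + m by omega]
    omega

theorem cost_column {p q : Word} (h : PStep p q) (L : List Word) :
    cost (column p q ++ L) ≤ (q.length - (p.length - 1)) + cost (q :: L) := by
  have hl := h.2.length_le
  rw [List.length_tail] at hl
  rw [column_cons h]
  have e := List.prefix_iff_eq_take.1 h.2
  rw [List.length_tail] at e
  have := cost_takes_up q (q.length - (p.length - 1)) (p.length - 1) L p.tail e (by omega)
  rwa [show p.length - 1 + (q.length - (p.length - 1)) = q.length by omega, List.take_length]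
    at this

theorem cost_nodesFrom (p : Word) (P : PL) (hc : List.IsChain PStep (p :: P)) (hP : P ≠ []) :
    cost (nodesFrom p P ++ [(lastW P).tail]) + p.length ≤ (lastW P).length + P.length := by
  induction P generalizing p with
  | nil => exact absurd rfl hP
  | cons q P ih =>
    rw [List.isChain_cons_cons] at hc
    have hp := List.length_pos_of_ne_nil hc.1.1
    have hl := hc.1.2.length_le
    rw [List.length_tail] at hl
    cases P with
    | nil =>
      simp only [nodesFrom, List.append_nil]
      have h1 := cost_column hc.1 [(lastW [q]).tail]
      have h2 : lastW [q] = q := rfl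
      rw [h2] at h1 ⊢
      simp only [cost_cons_cons, cost_single, dist_tail] at h1
      simp only [List.length_cons, List.length_nil]
      omega
    | cons r P =>
      have h1 := ih q hc.2 (by simp)
      simp only [nodesFrom, List.append_assoc] at h1 ⊢
      have hqr : PStep q r := by
        have := hc.2
        rw [List.isChain_cons_cons] at this
        exact this.1
      have h2 := cost_column hc.1 (column q r ++ (nodesFrom r P ++ [(lastW (q :: r :: P)).tail]))
      have h3 : lastW (q :: r :: P) = lastW (r :: P) := rfl
      rw [h3] at h2 ⊢
      have h4 : cost (q :: (column q r ++ (nodesFrom r P ++ [(lastW (r :: P)).tail]))) =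
          cost (column q r ++ (nodesFrom r P ++ [(lastW (r :: P)).tail])) := by
        rw [column_cons hqr, List.cons_append, cost_cons_cons, dist_tail]; simp
      rw [h4] at h2
      simp only [List.length_cons] at h1 ⊢
      omega

/-- **cost of the tour** -/
theorem ccost_nodes_le {P : PL} (hP : P ≠ []) (hc : List.IsChain PStep (lastW P :: P)) :
    ccost (nodes P) ≤ P.length := by
  rw [nodes_eq]
  have h1 := cost_nodesFrom _ _ hc hP
  cases P with
  | nil => exact absurd rfl hP
  | cons q P =>
    rw [List.isChain_cons_cons] at hc
    have h2 : ∃ L, nodesFrom (lastW (q :: P)) (q :: P) = (lastW (q :: P)).tail :: L := by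
      simp only [nodesFrom]
      rw [column_cons hc.1]
      exact ⟨_, rfl⟩
    obtain ⟨L, hL⟩ := h2
    rw [hL] at h1 ⊢
    simp only [ccost]
    omega

theorem mem_nodesFrom {p : Word} {P : PL} (hc : List.IsChain PStep (p :: P)) (v : Word) :
    v ∈ nodesFrom p P ↔ ∃ a b, (a, b) ∈ (p :: P).zip P ∧ a.tail <+: v ∧ v <+: b := by
  induction P generalizing p with
  | nil => simp [nodesFrom]
  | cons q P ih =>
    rw [List.isChain_cons_cons] at hc
    simp only [nodesFrom, List.mem_append, mem_column hc.1, ih hc.2, List.zip_cons_cons,
      List.mem_cons, Prod.mk.injEq]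
    constructor
    · rintro (⟨h1, h2⟩ | ⟨a, b, h, h1, h2⟩)
      · exact ⟨p, q, Or.inl ⟨rfl, rfl⟩, h1, h2⟩
      · exact ⟨a, b, Or.inr h, h1, h2⟩
    · rintro ⟨a, b, (⟨rfl, rfl⟩ | h), h1, h2⟩
      · exact Or.inl ⟨h1, h2⟩
      · exact Or.inr ⟨a, b, h, h1, h2⟩

/-- the tops are nodes -/
theorem mem_nodes_of_mem {P : PL} (hc : List.IsChain PStep (lastW P :: P)) {q : Word}
    (hq : q ∈ P) : q ∈ nodes P := by
  rw [nodes_eq]
  have key : ∀ (p : Word) (P : PL), List.IsChain PStep (p :: P) → q ∈ P → q ∈ nodesFrom p P := by
    intro p P
    induction P generalizing p with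
    | nil => intro _ h; simp at h
    | cons r P ih =>
      intro hc hq
      rw [List.isChain_cons_cons] at hc
      simp only [nodesFrom, List.mem_append]
      rcases List.mem_cons.1 hq with rfl | hq
      · left; rw [column_concat hc.1]; simp
      · right; exact ih r hc.2 hq
  exact key _ _ hc hq

end Crest.Agent.R287
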