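import Crest.Agent.R287.SpecCand
import Crest.Agent.R287.NodesCost
import Crest.Agent.R287.AsmDefs

/-!
Row 287: conversion of a P-list into the component data `WC` of the assembly.
-/

set_option autoImplicit false

namespace Crest.Agent.R287

open Asm

/-- component data of a P-list -/
def wcOf (P : PL) (num : ℕ) : WC := (nodes P, P.length, levN P, num)

@[simp] theorem wcOf_tour (P : PL) (n : ℕ) : (wcOf P n).tour = nodes P := rfl
@[simp] theorem wcOf_wt (P : PL) (n : ℕ) : (wcOf P n).wt = P.length := rfl
@[simp] theorem wcOf_lv (P : PL) (n : ℕ) : (wcOf P n).lv = levN P := rfl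
@[simp] theorem wcOf_num (P : PL) (n : ℕ) : (wcOf P n).num = n := rfl

/-- the components of a list of P-lists, numbered in order -/
def wcsOf (Ps : List PL) : List WC := Ps.zipIdx.map (fun q => wcOf q.1 q.2)

theorem wcOf_wrap (P : PL) (n : ℕ) : (wcOf P n).wrap = wrapB P := rfl

theorem wcsOf_num (Ps : List PL) : (wcsOf Ps).map WC.num = List.range Ps.length := by
  unfold wcsOf
  rw [List.map_map]
  have : (WC.num ∘ fun q : PL × ℕ => wcOf q.1 q.2) = Prod.snd := by
    funext q; rfl
  rw [this, List.zipIdx_map_snd]
  simp [List.range_eq_range']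

theorem wcsOf_nodup (Ps : List PL) : ((wcsOf Ps).map WC.num).Nodup := by
  rw [wcsOf_num]; exact List.nodup_range

theorem mem_wcsOf {Ps : List PL} {K : WC} : K ∈ wcsOf Ps ↔ ∃ (n : ℕ) (hn : n < Ps.length),
    K = wcOf Ps[n] n := by
  unfold wcsOf
  rw [List.mem_map]
  constructor
  · rintro ⟨⟨P, n⟩, hq, rfl⟩
    rw [List.mem_zipIdx_iff_getElem?] at hq
    obtain ⟨hn, hP⟩ := List.getElem?_eq_some_iff.mp hq
    exact ⟨n, hn, by rw [hP]⟩
  · rintro ⟨n, hn, rfl⟩
    refine ⟨(Ps[n], n), ?_, rfl⟩
    rw [List.mem_zipIdx_iff_getElem?]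
    exact List.getElem?_eq_getElem hn

theorem wcsOf_wtSum (Ps : List PL) : wtSum (wcsOf Ps) = (Ps.map List.length).sum := by
  unfold wtSum wcsOf
  rw [List.map_map]
  have : (WC.wt ∘ fun q : PL × ℕ => wcOf q.1 q.2) = List.length ∘ Prod.fst := by
    funext q; rfl
  rw [this, ← List.map_map, List.zipIdx_map_fst]

section

variable {P : PL} (h : IsPRing P)

include h in
theorem chain_lastW : List.IsChain PStep (lastW P :: P) := by
  rw [List.isChain_iff_getElem]
  intro n hn
  have hl : 0 < P.length := List.length_pos_iff.mpr h.1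
  have hn' : n < P.length := by simpa using hn
  have h2 : (lastW P :: P)[n + 1] = pz P n := by
    rw [pz_nat hn', List.getD_eq_getElem?_getD, List.getElem?_eq_getElem hn']; simp
  have h1 : (lastW P :: P)[n] = pz P ((n : ℤ) - 1) := by
    cases n with
    | zero =>
      have e : (((0 : ℕ) : ℤ) - 1) % (P.length : ℤ) = ((P.length - 1 : ℕ) : ℤ) := by
        have : (((0 : ℕ) : ℤ) - 1) = ((P.length - 1 : ℕ) : ℤ) - P.length := by omega
        rw [this, Int.sub_emod_right, Int.emod_eq_of_lt (by omega) (by omega)]
      unfold pz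
      rw [e, Int.toNat_natCast, List.getElem_cons_zero]
      unfold lastW
      rw [List.getD_eq_getElem?_getD, ← List.getLast?_eq_getElem?, List.getLastD_eq_getLast?]
    | succ m =>
      have e : (((m + 1 : ℕ) : ℤ) - 1) = (m : ℤ) := by push_cast; ring
      rw [e, pz_nat (by omega), List.getD_eq_getElem?_getD, List.getElem?_eq_getElem (by omega)]
      simp
  rw [h1, h2]
  exact ⟨h.2.1 _ (pz_mem h.1 _), pz_step' h n⟩

include h in
theorem ccost_nodes : ccost (nodes P) ≤ P.length := ccost_nodes_le h.1 (chain_lastW h)

include h in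
theorem nodes_ne_nil : nodes P ≠ [] := by
  have := win_mem_nodes h (i := 0) (j := (toRing P h).F 0)
    ⟨(toRing P h).mono (by omega), le_rfl⟩
  exact List.ne_nil_of_mem this

include h in
theorem levN_le_of_mem_nodes {v : Word} (hv : v ∈ nodes P) : levN P ≤ v.length := by
  obtain ⟨i, _, hvis⟩ := (mem_nodes_iff h v).mp hv
  have h1 := (toRing P h).lev_le i
  have h2 := hvis.1
  rw [lev_toRing h] at h1
  omega

include h in
theorem hasPer_of_mem_nodes {v : Word} (hv : v ∈ nodes P) : hasPer P.length v = true := by
  obtain ⟨i, hw, _⟩ := (mem_nodes_iff h v).mp hv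
  unfold hasPer
  rw [List.isPrefixOf_iff_prefix]
  by_cases hle : P.length ≤ v.length
  · have e1 : v.drop P.length = win (toRing P h).κ (i + P.length) (i + v.length) := by
      conv_lhs => rw [← hw, win_append (toRing P h).κ (i := i) (j := i + P.length) (by omega)
        (by omega)]
      rw [List.drop_append_of_le_length (by simp), List.drop_of_length_le (by simp)]
      simp
    have e2 : win (toRing P h).κ (i + P.length) (i + v.length) =
        win (toRing P h).κ i (i + v.length - P.length) := by
      have := (toRing P h).win_per i (i + v.length - P.length)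
      rw [toRing_w] at this
      rw [← this]
      congr 1
      ring
    rw [e1, e2]
    conv_rhs => rw [← hw, win_append (toRing P h).κ (i := i) (j := i + v.length - P.length)
      (by omega) (by omega)]
    exact List.prefix_append _ _
  · rw [List.drop_of_length_le (by omega)]
    exact List.nil_prefix

include h in
theorem wrap_lt_of_mem_nodes (hw : wrapB P = true) {v : Word} (hv : v ∈ nodes P) :
    P.length < v.length := by
  have h1 := levN_le_of_mem_nodes h hv
  unfold wrapB at hw
  rw [decide_eq_true_iff] at hw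
  omega

/-- visited words as ring windows, form with two endpoints -/
theorem mem_nodes_win (v : Word) : v ∈ nodes P ↔
    ∃ i j : ℤ, (toRing P h).Vis i j ∧ v = win (toRing P h).κ i j := by
  rw [mem_nodes_iff h]
  constructor
  · rintro ⟨i, h1, h2⟩
    exact ⟨i, _, h2, h1.symm⟩
  · rintro ⟨i, j, h1, rfl⟩
    have hij : i ≤ j := by
      have := (toRing P h).Fgt (i - 1)
      have := h1.1
      omega
    have e : i + ((win (toRing P h).κ i j).length : ℤ) = j := by rw [length_win]; omega
    exact ⟨i, by rw [e], by rw [e]; exact h1⟩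

end

end Crest.Agent.R287
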