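import Mathlib

/-!
Row 287: number of occurrences of a word in a string, recursions.
-/

set_option autoImplicit false

namespace Crest.Agent.R287

/-- number of occurrences of the (nonempty) word `y` in the string `T` -/
def occ (y : List ℕ) : List ℕ → ℕ
  | [] => 0
  | (c :: T) => (if y <+: (c :: T) then 1 else 0) + occ y T

@[simp] theorem occ_nil (y : List ℕ) : occ y [] = 0 := rfl

theorem occ_cons (y : List ℕ) (c : ℕ) (T : List ℕ) :
    occ y (c :: T) = (if y <+: (c :: T) then 1 else 0) + occ y T := rfl

theorem occ_eq_zero_of_length_lt {y T : List ℕ} (h : T.length < y.length) : occ y T = 0 := by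
  induction T with
  | nil => rfl
  | cons c T ih =>
    rw [occ_cons, ih (by simp only [List.length_cons] at h; omega)]
    have : ¬ (y <+: (c :: T)) := fun hp => by
      have := hp.length_le
      omega
    simp [this]

theorem occ_pos {y T : List ℕ} (hy : y ≠ []) (h : y <:+: T) : 0 < occ y T := by
  induction T with
  | nil => exact absurd (List.infix_nil.mp h) hy
  | cons c T ih =>
    rw [occ_cons]
    rcases List.infix_cons_iff.mp h with h | h
    · simp [h]
    · have := ih h
      omega

theorem infix_of_occ_pos {y T : List ℕ} (h : 0 < occ y T) : y <:+: T := by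
  induction T with
  | nil => simp at h
  | cons c T ih =>
    rw [occ_cons] at h
    by_cases hp : y <+: (c :: T)
    · exact hp.isInfix
    · simp only [hp, if_false, zero_add] at h
      exact (ih h).trans (List.suffix_cons c T).isInfix

/-- splitting a prefix test by the next letter -/
theorem prefix_split (A : Finset ℕ) {y T : List ℕ} (hA : ∀ c ∈ T, c ∈ A) :
    (if y <+: T then 1 else 0) = (if y = T then 1 else 0) +
      ∑ b ∈ A, (if (y ++ [b]) <+: T then 1 else 0) := by
  by_cases hp : y <+: T
  · obtain ⟨r, hr⟩ := hp
    cases r with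
    | nil =>
      have e : y = T := by simpa using hr
      have h2 : ∀ b, ¬ ((y ++ [b]) <+: T) := by
        intro b hb
        have := hb.length_le
        rw [e] at this
        simp at this
      rw [if_pos ⟨[], hr⟩, if_pos e]
      simp [h2]
    | cons b r =>
      have e : y ≠ T := by
        intro e
        have := congrArg List.length hr
        rw [e] at this
        simp at this
      have hb : ∀ b', ((y ++ [b']) <+: T) ↔ b' = b := by
        intro b'
        constructor
        · rintro ⟨r', hr'⟩
          rw [← hr, List.append_assoc, List.append_right_inj] at hr'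
          simpa using (List.cons.inj hr').1
        · rintro rfl
          exact ⟨r, by rw [← hr]; simp⟩
      have hbA : b ∈ A := hA b (by rw [← hr]; simp)
      rw [if_pos ⟨b :: r, hr⟩, if_neg e]
      simp [hb, hbA]
  · have e : y ≠ T := fun e => hp (e ▸ List.prefix_rfl)
    have h2 : ∀ b, ¬ ((y ++ [b]) <+: T) := fun b hb => hp ((List.prefix_append y [b]).trans hb)
    rw [if_neg hp, if_neg e]
    simp [h2]

/-- recursion by the right neighbour -/
theorem occ_eq_suffix (A : Finset ℕ) {T : List ℕ} (hA : ∀ c ∈ T, c ∈ A) {y : List ℕ}
    (hy : y ≠ []) :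
    occ y T = ∑ b ∈ A, occ (y ++ [b]) T + (if y <:+ T then 1 else 0) := by
  induction T with
  | nil =>
    have : ¬ (y <:+ []) := by simpa using hy
    simp [this]
  | cons c T ih =>
    have ih' := ih (fun d hd => hA d (List.mem_cons_of_mem c hd))
    have hs : (if y <:+ (c :: T) then 1 else 0) = (if y = c :: T then 1 else 0) +
        (if y <:+ T then 1 else 0) := by
      by_cases h1 : y = c :: T
      · have h2 : ¬ (y <:+ T) := by
          intro h2
          have := h2.length_le
          rw [h1] at this
          simp at this
        have h3 : y <:+ (c :: T) := List.suffix_cons_iff.mpr (Or.inl h1)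
        rw [if_pos h1, if_neg h2, if_pos h3]
      · by_cases h2 : y <:+ T
        · have h3 : y <:+ (c :: T) := List.suffix_cons_iff.mpr (Or.inr h2)
          rw [if_neg h1, if_pos h2, if_pos h3]
        · have h3 : ¬ (y <:+ (c :: T)) := by
            rw [List.suffix_cons_iff]; exact not_or.mpr ⟨h1, h2⟩
          rw [if_neg h1, if_neg h2, if_neg h3]
    simp only [occ_cons, Finset.sum_add_distrib]
    rw [prefix_split A hA, hs, ih']
    ring

/-- recursion by the left neighbour -/
theorem occ_eq_prefix (A : Finset ℕ) {T : List ℕ} (hA : ∀ c ∈ T, c ∈ A) {y : List ℕ}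
    (hy : y ≠ []) :
    occ y T = ∑ a ∈ A, occ (a :: y) T + (if y <+: T then 1 else 0) := by
  induction T with
  | nil =>
    have : ¬ (y <+: []) := by simpa using hy
    simp [this]
  | cons c T ih =>
    have ih' := ih (fun d hd => hA d (List.mem_cons_of_mem c hd))
    have hc : c ∈ A := hA c (by simp)
    have hs : ∑ a ∈ A, (if (a :: y) <+: (c :: T) then 1 else 0) = (if y <+: T then 1 else 0) := by
      have : ∀ a, ((a :: y) <+: (c :: T)) ↔ (a = c ∧ y <+: T) := by
        intro a; rw [List.cons_prefix_cons]
      simp only [this]
      by_cases h : y <+: T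
      · simp [h, hc]
      · simp [h]
    simp only [occ_cons, Finset.sum_add_distrib]
    rw [hs, ih']
    ring

theorem occ_concat_le {T y : List ℕ} (b : ℕ) (hy : y ≠ []) : occ (y ++ [b]) T ≤ occ y T := by
  classical
  have := occ_eq_suffix (insert b T.toFinset) (T := T) (by intro c hc; simp [hc]) hy
  rw [this]
  have h2 := Finset.single_le_sum (f := fun b => occ (y ++ [b]) T)
    (fun _ _ => Nat.zero_le _) (Finset.mem_insert_self b T.toFinset)
  omega

theorem occ_cons_le {T y : List ℕ} (a : ℕ) (hy : y ≠ []) : occ (a :: y) T ≤ occ y T := by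
  classical
  have := occ_eq_prefix (insert a T.toFinset) (T := T) (by intro c hc; simp [hc]) hy
  rw [this]
  have h2 := Finset.single_le_sum (f := fun a => occ (a :: y) T)
    (fun _ _ => Nat.zero_le _) (Finset.mem_insert_self a T.toFinset)
  omega

theorem sum_occ_singleton (A : Finset ℕ) {T : List ℕ} (hA : ∀ c ∈ T, c ∈ A) :
    ∑ a ∈ A, occ [a] T = T.length := by
  induction T with
  | nil => simp
  | cons c T ih =>
    have ih' := ih (fun d hd => hA d (List.mem_cons_of_mem c hd))
    have hc : c ∈ A := hA c (by simp)
    simp only [occ_cons, Finset.sum_add_distrib, ih', List.length_cons]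
    have : ∀ a, ([a] <+: (c :: T)) ↔ a = c := by
      intro a; rw [List.cons_prefix_cons]; simp
    simp only [this]
    simp [hc]
    ring

end Crest.Agent.R287
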