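import Crest.Agent.R287.Ring
import Crest.Agent.R287.Occ

/-!
Row 287: totals over a finite family of rings, pointwise wrap-up of the lower bound.
-/

set_option autoImplicit false

namespace Crest.Agent.R287

open Finset

variable {ι : Type*} [Fintype ι]

/-- total number of covered occurrences -/
def Mtot (R : ι → Ring) (y : List ℕ) : ℕ := ∑ c, (R c).M y
/-- total number of down-arcs out of `y` -/
def Dtot (R : ι → Ring) (y : List ℕ) : ℕ := ∑ c, (R c).D y
/-- total number of up-arcs into `y` -/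
def Utot (R : ι → Ring) (y : List ℕ) : ℕ := ∑ c, (R c).U y

/-- the ring `c` visits a word of `U(x)`, `x = κ_K[z, z+m)` -/
def VisU (R : ι → Ring) (K : ι) (z m : ℤ) (c : ι) : Prop :=
  ∃ i j t : ℤ, i ≤ z ∧ z + m ≤ j ∧ win (R c).κ t (t + (j - i)) = win (R K).κ i j ∧
    (R c).Vis t (t + (j - i))

/-- the candidate condition of the algorithm (`x = κ_K[z, z + lev - w)`), in ring form -/
structure Cand (R : ι → Ring) (K : ι) (z : ℤ) : Prop where
  wrapK : (R K).Wrap
  bot : (R K).F (z - 1) = z + (R K).lev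
  wrap : ∀ c, VisU R K z ((R K).lev - (R K).w) c → (R c).Wrap ∧ (R K).lev ≤ (R c).lev
  unlinked : ∀ c c', VisU R K z ((R K).lev - (R K).w) c → VisU R K z ((R K).lev - (R K).w) c' →
    ¬ (R c).Linked (R c')

section letters

variable (R : ι → Ring) (T : List ℕ)

/-- a finite alphabet containing everything -/
theorem exists_alphabet : ∃ A : Finset ℕ, (∀ c i, (R c).κ i ∈ A) ∧ ∀ a ∈ T, a ∈ A := by
  classical
  refine ⟨(Finset.univ.biUnion fun c => (Finset.range (R c).w).image fun n : ℕ => (R c).κ (n : ℤ)) ∪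
    T.toFinset, ?_, ?_⟩
  · intro c i
    rw [Finset.mem_union]
    left
    rw [Finset.mem_biUnion]
    refine ⟨c, Finset.mem_univ _, ?_⟩
    rw [Finset.mem_image]
    have hw' : (0 : ℤ) < (R c).w := by exact_mod_cast (R c).wpos
    have h0 := Int.emod_nonneg i hw'.ne'
    have h1 := Int.emod_lt_of_pos i hw'
    refine ⟨(i % (R c).w).toNat, ?_, ?_⟩
    · rw [Finset.mem_range]; omega
    · have e : i % (R c).w + (i / (R c).w) * (R c).w = i := by
        rw [mul_comm]; exact Int.emod_add_mul_ediv i (R c).w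
      have e2 : (((i % (R c).w).toNat : ℕ) : ℤ) = i % (R c).w := by omega
      rw [e2]
      conv_rhs => rw [← e]
      rw [(R c).κper']
  · intro a ha
    rw [Finset.mem_union]
    right
    exact List.mem_toFinset.mpr ha

variable {R}

theorem Mtot_eq_D {A : Finset ℕ} (hA : ∀ c i, (R c).κ i ∈ A) (y : List ℕ) :
    Mtot R y = ∑ b ∈ A, Mtot R (y ++ [b]) + Dtot R y := by
  unfold Mtot Dtot
  rw [Finset.sum_comm, ← Finset.sum_add_distrib]
  exact Finset.sum_congr rfl fun c _ => (R c).M_eq_D A (hA c) y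

theorem Mtot_eq_U {A : Finset ℕ} (hA : ∀ c i, (R c).κ i ∈ A) (y : List ℕ) :
    Mtot R y = ∑ a ∈ A, Mtot R (a :: y) + Utot R y := by
  unfold Mtot Utot
  rw [Finset.sum_comm, ← Finset.sum_add_distrib]
  exact Finset.sum_congr rfl fun c _ => (R c).M_eq_U A (hA c) y

variable (R)

theorem exists_Mtot_bound : ∃ B : ℕ, ∀ y : List ℕ, B < y.length → Mtot R y = 0 := by
  classical
  choose B hB using fun c => (R c).exists_bound
  refine ⟨∑ c, B c, fun y hy => ?_⟩
  unfold Mtot
  apply Finset.sum_eq_zero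
  intro c _
  refine (R c).M_eq_zero_of_bound (hB c) ?_
  have := Finset.single_le_sum (f := B) (fun _ _ => Nat.zero_le _) (Finset.mem_univ c)
  omega

variable {R T}

/-- **pointwise wrap-up** -/
theorem Mtot_le_occ (P : List ℕ → Prop) (hP : ∀ y, y ≠ [] → P y →
      (∀ y' : List ℕ, y.length < y'.length → Mtot R y' ≤ occ y' T) → Mtot R y ≤ occ y T)
    (hG : ∀ y, y ≠ [] → ¬ P y → Utot R y = 0 ∨ Dtot R y = 0) :
    ∀ y, y ≠ [] → Mtot R y ≤ occ y T := by
  obtain ⟨A, hA, hAT⟩ := exists_alphabet R T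
  obtain ⟨B, hB⟩ := exists_Mtot_bound R
  have key : ∀ n : ℕ, ∀ y : List ℕ, y ≠ [] → B + 1 ≤ y.length + n → Mtot R y ≤ occ y T := by
    intro n
    induction n with
    | zero => intro y _ h; rw [hB y (by omega)]; exact Nat.zero_le _
    | succ n ih =>
      intro y hy h
      by_cases hPy : P y
      · apply hP y hy hPy
        intro y' hy'
        apply ih y' _ (by omega)
        intro e; rw [e] at hy'; simp at hy'
      · rcases hG y hy hPy with h0 | h0
        · rw [Mtot_eq_U hA y, h0, occ_eq_prefix A hAT hy]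
          have : ∑ a ∈ A, Mtot R (a :: y) ≤ ∑ a ∈ A, occ (a :: y) T :=
            Finset.sum_le_sum fun a _ => ih (a :: y) (by simp)
              (by simp only [List.length_cons]; omega)
          omega
        · rw [Mtot_eq_D hA y, h0, occ_eq_suffix A hAT hy]
          have : ∑ b ∈ A, Mtot R (y ++ [b]) ≤ ∑ b ∈ A, occ (y ++ [b]) T :=
            Finset.sum_le_sum fun b _ => ih (y ++ [b]) (by simp)
              (by simp only [List.length_append, List.length_singleton]; omega)
          omega
  intro y hy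
  exact key (B + 1) y hy (by omega)

/-- total number of letters -/
theorem sum_w_le (h : ∀ a, Mtot R [a] ≤ occ [a] T) : ∑ c, (R c).w ≤ T.length := by
  obtain ⟨A, hA, hAT⟩ := exists_alphabet R T
  calc ∑ c, (R c).w = ∑ c, ∑ a ∈ A, (R c).M [a] :=
        Finset.sum_congr rfl fun c _ => ((R c).sum_M_singleton A (hA c)).symm
    _ = ∑ a ∈ A, Mtot R [a] := Finset.sum_comm
    _ ≤ ∑ a ∈ A, occ [a] T := Finset.sum_le_sum fun a _ => h a
    _ = T.length := sum_occ_singleton A hAT

end letters

/-- FROZEN STATEMENT of the lower bound step (slack lemma), to be proved in `LBStep.lean`. -/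
def LBStepStatement : Prop :=
  ∀ (ι : Type) [Fintype ι] (R : ι → Ring) (K : ι) (z : ℤ) (T : List ℕ), Cand R K z →
    (∀ y : List ℕ, (win (R K).κ z (z + ((R K).lev - (R K).w))).length < y.length →
      Mtot R y ≤ occ y T) →
    Mtot R (win (R K).κ z (z + ((R K).lev - (R K).w))) + 1 ≤
      occ (win (R K).κ z (z + ((R K).lev - (R K).w))) T

end Crest.Agent.R287
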