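import Crest.Agent.R287.Cost
import Crest.Agent.R287.LBDefs

/-!
# Row 287: cost side — isolated wraps (ring level)

`FarOver K V d a c`: `V` visits `[a,c)`, the text of `K` shifted by `d` agrees there, and `K` is more
than `w_K` below.  `InPhase K V d`: the texts are equal after shifting `K` by `d`.
-/

set_option autoImplicit false

namespace Crest.Agent.R287

/-- in coordinates of `V`: `[a,c)` is visited by `V`, `K` shifted by `d` agrees there and is more than
`w_K` below -/
structure FarOver (K V : Ring) (d a c : ℤ) : Prop where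
  vis : V.Vis a c
  ag : ∀ x, a ≤ x → x < c → K.κ (x + d) = V.κ x
  far : K.F (a + d) - d + K.w < c

/-- texts in phase -/
def InPhase (K V : Ring) (d : ℤ) : Prop := ∀ x, K.κ (x + d) = V.κ x

/-- (R1) a server of the isolated candidate is near or far over it -/
theorem farOver_of_server {K V : Ring} {z i j t : ℤ} (hbot : K.F (z - 1) = z + K.lev)
    (hi : i ≤ z) (hj : z + (K.lev - K.w) ≤ j)
    (hwin : win V.κ t (t + (j - i)) = win K.κ i j) (hvis : V.Vis t (t + (j - i)))
    (hn : ¬ Near K V) : FarOver K V (i - t) t (t + (j - i)) := by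
  have h0 : V.F (t - 1) ≤ t + (j - i) := hvis.1
  have h1 := V.le_F t
  have hag : ∀ x, t ≤ x → x < t + (j - i) → (K.shift (i - t)).κ x = V.κ x := by
    intro x hx1 hx2
    have := (win_eq_iff V.κ K.κ (show t + (j - i) - t = j - i by ring)).mp hwin (x - t)
      (by omega) (by omega)
    have e1 : t + (x - t) = x := by ring
    have e2 : i + (x - t) = x + (i - t) := by ring
    rw [e1, e2] at this
    exact this.symm
  have hn' : ¬ Near (K.shift (i - t)) V := fun h => hn ((near_shift_left _).mp h)
  rcases far_of_not_near hn' hvis.1 hvis.2 hag with h | h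
  · exfalso
    simp only [Ring.shift_F, Ring.shift_w] at h
    have e3 : t - 1 + (i - t) = i - 1 := by ring
    rw [e3] at h
    have : K.F (i - 1) ≤ K.F (z - 1) := Ring.F_le (by omega)
    omega
  · simp only [Ring.shift_F, Ring.shift_w] at h
    exact ⟨hvis, hag, h⟩

/-- over (touching) and not near implies far over -/
theorem farOver_of_touch {K V : Ring} {d a c : ℤ} (hvis : V.Vis a c)
    (hag : ∀ x, a ≤ x → x < c → K.κ (x + d) = V.κ x) (ht : K.F (a - 1 + d) - d ≤ c + K.w)
    (hn : ¬ Near K V) : FarOver K V d a c := by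
  have hn' : ¬ Near (K.shift d) V := fun h => hn ((near_shift_left _).mp h)
  rcases far_of_not_near hn' hvis.1 hvis.2 hag with h | h
  · exfalso
    simp only [Ring.shift_F, Ring.shift_w] at h
    omega
  · simp only [Ring.shift_F, Ring.shift_w] at h
    exact ⟨hvis, hag, h⟩

/-- (R2) -/
theorem FarOver.inPhase {K V : Ring} {d a c : ℤ} (h : FarOver K V d a c)
    (hl : ¬ K.Linked V) : InPhase K V d := by
  by_contra hp
  apply hl
  have hK := K.wpos'
  refine ⟨a + d, a, c - a, ?_, ?_, ?_, fun hr => hp fun x => ?_⟩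
  · rw [win_eq_iff _ _ (by ring)]
    intro n h0 h1
    have := h.ag (a + n) (by omega) (by omega)
    rw [← this]; congr 1; ring
  · unfold Ring.Touch
    have h1 := h.far
    have h2 : K.F (a + d - 1) ≤ K.F (a + d) := Ring.F_le (by omega)
    omega
  · unfold Ring.Touch
    have h1 := h.vis.1
    omega
  · have := hr (x - a)
    have e1 : a + (x - a) = x := by ring
    have e2 : a + d + (x - a) = x + d := by ring
    rw [e1, e2] at this
    exact this

/-- left propagation for `FarOver` -/
theorem FarOver.left {K V : Ring} {d a c s : ℤ} (h : FarOver K V d a c) (hn : ¬ Near K V)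
    (hs : s ≤ a) (hag : ∀ x, s ≤ x → x < c → K.κ (x + d) = V.κ x) :
    K.F (s + d) - d + K.w < V.F (s - 1) := by
  have hn' : ¬ Near (K.shift d) V := fun h => hn ((near_shift_left _).mp h)
  have := deep_left hn' (s := s) (a - s).toNat a c (by omega) h.vis.1 h.vis.2 hag
    (by simp only [Ring.shift_F, Ring.shift_w]; exact h.far)
  simpa only [Ring.shift_F, Ring.shift_w] using this

/-- (R3) -/
theorem FarOver.all {K V : Ring} {d a c : ℤ} (h : FarOver K V d a c) (hn : ¬ Near K V)
    (hp : InPhase K V d) (i : ℤ) : K.F (i + d) - d + K.w < V.F (i - 1) := by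
  have hK := K.wpos'
  have hV := V.wpos'
  obtain ⟨n, hn1⟩ : ∃ n : ℕ, i - n * (K.w * V.w) ≤ a := by
    refine ⟨(i - a).toNat, ?_⟩
    have h1 : (1 : ℤ) ≤ K.w * V.w := by nlinarith
    rcases le_total (i - a) 0 with h2 | h2
    · have : (i - a).toNat = 0 := by omega
      rw [this]; simp; omega
    · have : (((i - a).toNat : ℕ) : ℤ) = i - a := by omega
      rw [this]; nlinarith
  have key := h.left hn hn1 (fun x _ _ => hp x)
  have e1 : K.F (i - n * (K.w * V.w) + d) = K.F (i + d) - n * (K.w * V.w) := by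
    have := K.Fper' (-(n * V.w)) (i + d)
    have e : i + d + -(n * V.w) * K.w = i - n * (K.w * V.w) + d := by ring
    rw [e] at this
    rw [this]; ring
  have e2 : V.F (i - n * (K.w * V.w) - 1) = V.F (i - 1) - n * (K.w * V.w) := by
    have := V.Fper' (-(n * K.w)) (i - 1)
    have e : i - 1 + -(n * K.w) * V.w = i - n * (K.w * V.w) - 1 := by ring
    rw [e] at this
    rw [this]; ring
  rw [e1, e2] at key
  omega

/-- (R3') the level of the server is much larger -/
theorem FarOver.lev_lt {K V : Ring} {d a c : ℤ} (h : FarOver K V d a c) (hn : ¬ Near K V)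
    (hp : InPhase K V d) : K.lev + K.w < V.lev := by
  obtain ⟨i, _, _, hi⟩ := V.exists_lev
  have h1 := h.all hn hp i
  have h2 := K.lev_le (i + d)
  have h3 : K.F (i + d - 1) ≤ K.F (i + d) := Ring.F_le (by omega)
  omega

/-- (R4) two wraps in phase with the same text are not linked -/
theorem not_linked_of_inPhase {K V V' : Ring} {d d' : ℤ} (hV : V.Wrap)
    (h : InPhase K V d) (h' : InPhase K V' d') : ¬ V.Linked V' := by
  rintro ⟨s, t, n, hwin, h1, h2, hne⟩
  apply hne
  have hlt := hV.lt s
  unfold Ring.Touch at h1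
  have e : ∀ r, V'.κ (t + r) = V.κ (t + (d' - d) + r) := by
    intro r
    rw [← h' (t + r), ← h (t + (d' - d) + r)]
    congr 1; ring
  intro r
  rw [e]
  refine Ring.κ_eq_of_window (fun m hm0 hm1 => ?_) r
  rw [← e]
  exact (win_eq_iff V.κ V'.κ (by ring)).mp hwin m hm0 (by omega)

/-- a wrap is not linked with a ring in phase with it -/
theorem not_linked_of_inPhase' {V V' : Ring} {d : ℤ} (hV : V.Wrap) (h : InPhase V V' d) :
    ¬ V.Linked V' :=
  not_linked_of_inPhase (K := V) (d := 0) hV (fun x => by rw [add_zero]) h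

theorem not_linked_self {V : Ring} (hV : V.Wrap) : ¬ V.Linked V :=
  not_linked_of_inPhase' (d := 0) hV (fun x => by rw [add_zero])

/-- (R6) far over and not in phase: there is a left end of the run, and `K` is far below there -/
theorem FarOver.deepAt {K V : Ring} {d a c : ℤ} (h : FarOver K V d a c) (hn : ¬ Near K V)
    (hp : ¬ InPhase K V d) : ∃ s, s ≤ a ∧ DeepAt K V d s := by
  have hne : (K.shift d).κ ≠ V.κ := fun e => hp fun x => congrFun e x
  obtain ⟨s, hs1, hs2, hs3⟩ := exists_run_start hne h.ag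
  refine ⟨s, hs1, hs2, fun t ht1 ht2 => hs3 t ht1 ?_, h.left hn hs1 hs3⟩
  have h1 : V.F (s - 1) ≤ V.F (a - 1) := Ring.F_le (by omega)
  have h2 := h.vis.1
  omega

/-- (R5) a far leaf in phase and a far leaf out of phase are linked -/
theorem linked_of_mixed {K K' V : Ring} {d d' s : ℤ} (hp : InPhase K V d)
    (hfar : K.F (s + d) - d + K.w < V.F (s - 1)) (h' : DeepAt K' V d' s) : K.Linked K' := by
  have hK := K.wpos'
  have hK' := K'.wpos'
  have hV := V.le_F s
  refine ⟨s + d, s + d', V.F (s - 1) - s, ?_, ?_, ?_, fun hr => h'.ne ?_⟩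
  · rw [win_eq_iff _ _ (by ring)]
    intro n h0 h1
    have e1 := hp (s + n)
    have e2 := h'.ag (s + n) (by omega) (by omega)
    have e3 : s + n + d = s + d + n := by ring
    have e4 : s + n + d' = s + d' + n := by ring
    rw [e3] at e1; rw [e4] at e2
    rw [e1, e2]
  · unfold Ring.Touch
    have : K.F (s + d - 1) ≤ K.F (s + d) := Ring.F_le (by omega)
    omega
  · unfold Ring.Touch
    have h1 := h'.deep
    have : K'.F (s + d' - 1) ≤ K'.F (s + d') := Ring.F_le (by omega)
    omega
  · have e1 := hr (-1)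
    have e2 := hp (s - 1)
    have e3 : s + d + -1 = s - 1 + d := by ring
    have e4 : s + d' + -1 = s - 1 + d' := by ring
    rw [e3, e4] at e1
    rw [← e1, e2]

/-- two unlinked far leaves of the same ring are both in phase or both out of phase -/
theorem inPhase_of_inPhase {K K' V : Ring} {d d' a a' c c' : ℤ} (h : FarOver K V d a c)
    (h' : FarOver K' V d' a' c') (hn : ¬ Near K V) (hn' : ¬ Near K' V) (hp : InPhase K V d)
    (hl : ¬ K.Linked K') : InPhase K' V d' := by
  by_contra hp'
  obtain ⟨s, _, hs⟩ := h'.deepAt hn' hp'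
  exact hl (linked_of_mixed hp (h.all hn hp s) hs)

/-- same text and far below in every column: the bottom of `V` has a prefix visited by `K` -/
theorem visW_prefix_of_all {K V : Ring} {d : ℤ} (hp : InPhase K V d)
    (hall : ∀ i, K.F (i + d) - d + K.w < V.F (i - 1)) (i : ℤ) :
    ∃ y, K.VisW y ∧ y <+: win V.κ i (V.F (i - 1)) := by
  have h1 := hall i
  have hK := K.wpos'
  have h2 : K.F (i + d - 1) ≤ K.F (i + d) := Ring.F_le (by omega)
  have h3 := K.le_F (i + d)
  refine ⟨win K.κ (i + d) (K.F (i + d - 1)), ⟨i + d, K.F (i + d - 1), ⟨le_rfl, h2⟩, rfl⟩, ?_⟩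
  have e1 : win K.κ (i + d) (K.F (i + d - 1)) = win V.κ i (K.F (i + d - 1) - d) := by
    rw [win_eq_iff _ _ (by ring)]
    intro n h0 h1
    have := hp (i + n)
    rw [← this]; congr 1; ring
  rw [e1, win_append V.κ (i := i) (j := K.F (i + d - 1) - d) (k := V.F (i - 1)) (by omega)
    (by omega)]
  exact List.prefix_append _ _

/-- (R7) **isolated wraps** (ring level form of (H4)) -/
theorem h4_ring {ι : Type*} (R : ι → Ring) (K : ι) (z : ℤ)
    (hbot : (R K).F (z - 1) = z + (R K).lev)
    (hiso : ∀ c, c ≠ K → (R c).Wrap → ¬ (R K).Linked (R c))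
    (hcert : (∃ c, VisU R K z ((R K).lev - (R K).w) c ∧ c ≠ K ∧
        (¬ (R c).Wrap ∨ (R c).lev < (R K).lev)) ∨
      ∃ c c', VisU R K z ((R K).lev - (R K).w) c ∧ VisU R K z ((R K).lev - (R K).w) c' ∧
        (R c).Wrap ∧ (R c').Wrap ∧ (R c).Linked (R c')) :
    (∃ c, c ≠ K ∧ Near (R K) (R c) ∧
      (¬ (R c).Wrap ∨ ((R c).Wrap ∧ ∃ c', c' ≠ c ∧ (R c').Wrap ∧ (R c).Linked (R c')) ∨
        (R c).lev < (R K).lev)) ∨
    ∃ c, ¬ (R c).Wrap ∧ ¬ Near (R K) (R c) ∧ ∃ d a b, FarOver (R K) (R c) d a b := by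
  have hfo : ∀ c, VisU R K z ((R K).lev - (R K).w) c → ¬ Near (R K) (R c) →
      ∃ d a b, FarOver (R K) (R c) d a b := by
    rintro c ⟨i, j, t, hi, hj, hwin, hvis⟩ hn
    exact ⟨_, _, _, farOver_of_server hbot hi hj hwin hvis hn⟩
  rcases hcert with ⟨c, hc, hcK, hcw⟩ | ⟨c, c', hc, hc', hw, hw', hl⟩
  · by_cases hn : Near (R K) (R c)
    · left
      refine ⟨c, hcK, hn, ?_⟩
      rcases hcw with h | h
      · exact Or.inl h
      · exact Or.inr (Or.inr h)
    · by_cases hwc : (R c).Wrap
      · exfalso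
        rcases hcw with h | h
        · exact h hwc
        · obtain ⟨d, a, b, hf⟩ := hfo c hc hn
          have hp := hf.inPhase (hiso c hcK hwc)
          have := hf.lev_lt hn hp
          have := (R K).wpos'
          omega
      · right
        exact ⟨c, hwc, hn, hfo c hc hn⟩
  · have hcc : c ≠ c' := by
      rintro rfl
      exact not_linked_self hw hl
    have hcK : c ≠ K := by
      rintro rfl
      exact hiso c' hcc.symm hw' hl
    have hcK' : c' ≠ K := by
      rintro rfl
      exact hiso c hcK hw hl.symm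
    left
    by_cases hn : Near (R K) (R c)
    · exact ⟨c, hcK, hn, Or.inr (Or.inl ⟨hw, c', hcc.symm, hw', hl⟩)⟩
    by_cases hn' : Near (R K) (R c')
    · exact ⟨c', hcK', hn', Or.inr (Or.inl ⟨hw', c, hcc, hw, hl.symm⟩)⟩
    exfalso
    obtain ⟨d, a, b, hf⟩ := hfo c hc hn
    obtain ⟨d', a', b', hf'⟩ := hfo c' hc' hn'
    exact not_linked_of_inPhase hw (hf.inPhase (hiso c hcK hw)) (hf'.inPhase (hiso c' hcK' hw')) hl

end Crest.Agent.R287
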