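import Crest.Agent.R287.AsmMix
import Crest.Agent.R287.CandB
import Crest.Agent.R287.CostIso
import Crest.Agent.R287.AsmThm

/-!
Row 287: bridges between the word tests of `AsmDefs` on `wcOf P n` and the rings `toRing P h`.
-/

set_option autoImplicit false

namespace Crest.Agent.R287

namespace Mix

open Asm Crest.Agent.R287.Star

/-- linked rings (P-lists) give linked components -/
theorem linked_wcOf {P Q : PL} (hP : IsPRing P) (hQ : IsPRing Q) (wP : wrapB P = true)
    (wQ : wrapB Q = true) {n m : ℕ} (hnm : n ≠ m) (h : (toRing P hP).Linked (toRing Q hQ)) :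
    linked (wcOf P n) (wcOf Q m) = true :=
  linked_of_ring (RA := toRing Q hQ) (RK := toRing P hP) rfl rfl
    (by rw [lev_toRing]; rfl) (by rw [lev_toRing]; rfl) ((wrapB_iff hQ).1 wQ) ((wrapB_iff hP).1 wP)
    (mem_nodes_win hQ) (mem_nodes_win hP) hnm h

/-- the same with the program's test -/
theorem linked_of_linkedB {P Q : PL} (hP : IsPRing P) (hQ : IsPRing Q) (wP : wrapB P = true)
    (wQ : wrapB Q = true) {n m : ℕ} (hnm : n ≠ m) (h : linkedB P Q = true) :
    linked (wcOf P n) (wcOf Q m) = true :=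
  linked_wcOf hP hQ wP wQ hnm ((linkedB_iff hP hQ).1 h)

/-- not linked components: the rings are not linked -/
theorem not_ring_linked {P Q : PL} (hP : IsPRing P) (hQ : IsPRing Q) (wP : wrapB P = true)
    (wQ : wrapB Q = true) {n m : ℕ} (hnm : n ≠ m) (h : linked (wcOf P n) (wcOf Q m) = false) :
    ¬ (toRing P hP).Linked (toRing Q hQ) := by
  intro hl
  rw [linked_wcOf hP hQ wP wQ hnm hl] at h
  exact Bool.noConfusion h

/-- `overW` at a visited window -/
theorem overW_wcOf_iff {V K : PL} (hV : IsPRing V) (hK : IsPRing K) (wK : wrapB K = true) {m : ℕ}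
    {a c : ℤ} (hv : (toRing V hV).Vis a c) :
    overW (win (toRing V hV).κ a c) (wcOf K m) = true ↔
      ∃ d, Over (toRing V hV) (toRing K hK) a c d := by
  constructor
  · exact over_of_overW (K := wcOf K m) (R := toRing K hK) rfl ((wrapB_iff hK).1 wK)
      (mem_nodes_win hK) hv
  · rintro ⟨d, hd⟩
    exact overW_of_over (K := wcOf K m) (R := toRing K hK) rfl ((wrapB_iff hK).1 wK)
      (mem_nodes_win hK) hd

/-- `overC` in ring form -/
theorem overC_wcOf_iff {V K : PL} (hV : IsPRing V) (hK : IsPRing K) (wK : wrapB K = true)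
    {n m : ℕ} : overC (wcOf V n) (wcOf K m) = true ↔
      ∃ a c d, Over (toRing V hV) (toRing K hK) a c d := by
  rw [Asm.overC_iff]
  constructor
  · rintro ⟨v, hv, ho⟩
    obtain ⟨a, c, hvis, rfl⟩ := (mem_nodes_win hV v).1 hv
    obtain ⟨d, hd⟩ := (overW_wcOf_iff hV hK wK hvis).1 ho
    exact ⟨a, c, d, hd⟩
  · rintro ⟨a, c, d, hd⟩
    exact ⟨_, (mem_nodes_win hV _).2 ⟨a, c, hd.1, rfl⟩, (overW_wcOf_iff hV hK wK hd.1).2 ⟨d, hd⟩⟩

/-- not near components: the rings are not `Near` -/
theorem not_near_of_near_eq_false {K V : PL} (hK : IsPRing K) (hV : IsPRing V) {n m : ℕ}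
    (h : near (wcOf K n) (wcOf V m) = false) : ¬ Near (toRing K hK) (toRing V hV) := by
  intro hn
  rw [(asm_near_iff hK hV n m).2 hn] at h
  exact Bool.noConfusion h

/-- over a component in 923's form and not near: `FarOver` -/
theorem farOver_of_over {K V : Ring} {a c d : ℤ} (h : Over V K a c d) (hn : ¬ Near K V) :
    FarOver K V d a c :=
  farOver_of_touch h.1 (fun x h1 h2 => (h.2.1 x h1 h2).symm)
    (by have := h.2.2; have := K.wpos; omega) hn

/-- `FarOver` implies 923's `Over` -/
theorem over_of_farOver {K V : Ring} {a c d : ℤ} (h : FarOver K V d a c) : Over V K a c d := by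
  refine ⟨h.vis, fun x h1 h2 => (h.ag x h1 h2).symm, ?_⟩
  have h1 := h.far
  have h2 := K.mono (show a - 1 + d ≤ a + d by omega)
  omega

/-- **overC and not near: `FarOver`** -/
theorem farOver_of_overC {V K : PL} (hV : IsPRing V) (hK : IsPRing K) (wK : wrapB K = true)
    {n m : ℕ} (ho : overC (wcOf V n) (wcOf K m) = true)
    (hn : near (wcOf K m) (wcOf V n) = false) :
    ∃ d a c, FarOver (toRing K hK) (toRing V hV) d a c := by
  obtain ⟨a, c, d, hd⟩ := (overC_wcOf_iff hV hK wK).1 ho
  exact ⟨d, a, c, farOver_of_over hd (not_near_of_near_eq_false hK hV hn)⟩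

/-- `FarOver` gives `overC` -/
theorem overC_of_farOver {V K : PL} (hV : IsPRing V) (hK : IsPRing K) (wK : wrapB K = true)
    {n m : ℕ} {d a c : ℤ} (h : FarOver (toRing K hK) (toRing V hV) d a c) :
    overC (wcOf V n) (wcOf K m) = true :=
  (overC_wcOf_iff hV hK wK).2 ⟨a, c, d, over_of_farOver h⟩

/-- linked and not near (K below A): `FarOver`, and short -/
theorem farOver_of_linked {A K : PL} (hA : IsPRing A) (hK : IsPRing K) {n m : ℕ}
    (hl : linked (wcOf K m) (wcOf A n) = true) (hn : near (wcOf K m) (wcOf A n) = false) :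
    ∃ d a c, FarOver (toRing K hK) (toRing A hA) d a c ∧ c - a < (A.length : ℤ) + K.length ∧
      overC (wcOf A n) (wcOf K m) = true := by
  obtain ⟨wK, wA, hne, hs⟩ := Asm.linked_iff.1 hl
  rcases hs with hs | hs
  · obtain ⟨a, c, d, hd, hlt⟩ := (Mix.overS_iff (A := wcOf A n) (K := wcOf K m) (RA := toRing A hA)
      (RK := toRing K hK) rfl rfl ((wrapB_iff hK).1 wK) (mem_nodes_win hA) (mem_nodes_win hK)).1 hs
    refine ⟨d, a, c, farOver_of_over hd (not_near_of_near_eq_false hK hA hn), ?_, ?_⟩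
    · rw [toRing_w, toRing_w] at hlt; omega
    · exact (overC_wcOf_iff hA hK wK).2 ⟨a, c, d, hd⟩
  · -- K over A and short: near
    exfalso
    obtain ⟨v, hv, ho, hlt⟩ := Asm.overS_iff.1 hs
    obtain ⟨hper, y, hy, hyv⟩ := Asm.overW_iff.1 ho
    have h1 : K.length < v.length := wrap_lt_of_mem_nodes hK wK hv
    have h2 : A.length < y.length := wrap_lt_of_mem_nodes hA wA hy
    have h3 := near_word (w := K.length) hyv (hasPer_of_mem_nodes hK hv) (by omega)
      (by simp only [wcOf_wt] at hlt; omega)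
    have : near (wcOf K m) (wcOf A n) = true := by
      rw [Asm.near_iff]
      exact ⟨v, hv, y, hy, by rw [wcOf_wt]; exact h3⟩
    rw [this] at hn
    exact Bool.noConfusion hn

end Mix

end Crest.Agent.R287
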