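import Crest.Agent.R287.AsmSame
import Crest.Agent.R287.AsmThm

/-!
Row 287: field `h2` of the assembly hypotheses from the star theorem (ring level data).
-/

set_option autoImplicit false

namespace Crest.Agent.R287.Asm

open Crest.Agent.R287.Star

/-- the route up to the bottom of `V` touches all components of the same text below it -/
theorem same_good' {V : WC} {RV : Ring} (hlV : (V.lv : ℤ) = RV.lev)
    (htV : ∀ v, v ∈ V.tour ↔ ∃ i j, RV.Vis i j ∧ v = win RV.κ i j)
    {L : List WC} (hlen : V.lv ≤ wtSum (V :: L))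
    (hL : ∀ K ∈ L, ∃ R : Ring, (∀ v, v ∈ K.tour ↔ ∃ i j, R.Vis i j ∧ v = win R.κ i j) ∧
      ∃ c, (∀ x, RV.κ x = R.κ (x + c)) ∧ ∀ a b, RV.Vis a b → Over RV R a b c) :
    ∃ r ∈ cands V L, good V L r = true := by
  obtain ⟨i, _, _, hi⟩ := RV.exists_lev
  have hv : RV.Vis i (RV.F (i - 1)) := ⟨le_refl _, RV.mono (by omega)⟩
  have hF := RV.Fgt (i - 1)
  have hlen' : (win RV.κ i (RV.F (i - 1))).length = V.lv := by
    rw [length_win]; omega
  refine exists_good_inits (v := win RV.κ i (RV.F (i - 1))) ((htV _).2 ⟨i, _, hv, rfl⟩)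
    (by rw [hlen']; exact hlen) ?_
  intro K hK
  obtain ⟨R, ht, c, hc, hall⟩ := hL K hK
  have ho := hall i _ hv
  refine ⟨win R.κ (i + c) (R.F (i + c - 1)), (ht _).2 ⟨i + c, _, ⟨le_refl _, R.mono (by omega)⟩, rfl⟩,
    ?_⟩
  have e : win R.κ (i + c) (R.F (i + c - 1)) = win RV.κ i (R.F (i + c - 1) - c) := by
    rw [win_eq_iff _ _ (by ring)]
    intro n _ _
    rw [hc]; congr 1; ring
  rw [e]
  apply win_prefix_win
  have := ho.2.2
  rw [show i - 1 + c = i + c - 1 by ring] at this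
  exact this

theorem ring_wrap {K : WC} {R : Ring} (hw : K.wt = R.w) (hl : (K.lv : ℤ) = R.lev)
    (h : K.wrap = true) : R.Wrap := by
  unfold WC.wrap at h
  rw [decide_eq_true_iff] at h
  show (R.w : ℤ) < R.lev
  omega

theorem lv_le_length {K : WC} {R : Ring} (hl : (K.lv : ℤ) = R.lev)
    (ht : ∀ v, v ∈ K.tour ↔ ∃ i j, R.Vis i j ∧ v = win R.κ i j) {v : Word} (hv : v ∈ K.tour) :
    K.lv ≤ v.length := by
  obtain ⟨i, j, hvis, rfl⟩ := (ht v).1 hv
  have h1 := R.lev_le i
  have h2 := hvis.1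
  rw [length_win]
  omega

theorem wlen_of_ring {K : WC} {R : Ring} (hw : K.wt = R.w) (hl : (K.lv : ℤ) = R.lev)
    (ht : ∀ v, v ∈ K.tour ↔ ∃ i j, R.Vis i j ∧ v = win R.κ i j) (h : K.wrap = true)
    {v : Word} (hv : v ∈ K.tour) : K.wt < v.length := by
  have h1 := lv_le_length hl ht hv
  unfold WC.wrap at h
  rw [decide_eq_true_iff] at h
  omega

theorem wper_of_ring {K : WC} {R : Ring} (hw : K.wt = R.w) (hl : (K.lv : ℤ) = R.lev)
    (ht : ∀ v, v ∈ K.tour ↔ ∃ i j, R.Vis i j ∧ v = win R.κ i j) (h : K.wrap = true)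
    {v : Word} (hv : v ∈ K.tour) : hasPer K.wt v = true := by
  obtain ⟨i, j, hvis, rfl⟩ := (ht v).1 hv
  rw [hw]
  apply Mix.hasPer_win
  have h1 := Mix.wrap_lt (ring_wrap hw hl h) i
  have h2 := hvis.1
  omega

/-- **field `h2` of the assembly hypotheses**, from the star theorem `hstar` -/
theorem h2_of_rings (Cs : List WC) (nodup : (Cs.map WC.num).Nodup) (R : WC → Ring)
    (hw : ∀ K ∈ Cs, K.wt = (R K).w) (hl : ∀ K ∈ Cs, (K.lv : ℤ) = (R K).lev)
    (ht : ∀ K ∈ Cs, ∀ v, v ∈ K.tour ↔ ∃ i j, (R K).Vis i j ∧ v = win (R K).κ i j)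
    (hstar : ∀ V ∈ Cs, ∀ L : List WC, L ≠ [] → (∀ K ∈ L, K ∈ Cs) → L.Nodup →
      (∀ K ∈ L, K.wrap = true ∧ overC V K = true ∧ near K V = false ∧
        ∀ c, ¬ ∀ x, (R V).κ x = (R K).κ (x + c)) → ∃ r ∈ cands V L, good V L r = true) :
    ∀ A ∈ Cs, A.wrap = true → ∀ L : List WC, L ≠ [] → (∀ K ∈ L, K ∈ Cs) → L.Nodup →
    (∀ K ∈ L, linked K A = true ∧ near K A = false) →
    (∀ K ∈ L, ∀ K' ∈ L, linked K K' = false) → ∃ r ∈ cands A L, good A L r = true := by
  intro A hA wA L hL0 hLC hLn hL hLL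
  -- a short vertex of `A` over `K`
  have hshort : ∀ K ∈ L, K.wrap = true ∧ overS A K = true := by
    intro K hK
    obtain ⟨h1, h2⟩ := hL K hK
    rw [linked_iff] at h1
    refine ⟨h1.1, ?_⟩
    rcases h1.2.2.2 with h3 | h3
    · exact h3
    · exfalso
      rw [overS_iff] at h3
      obtain ⟨v, hv, hov, hlv⟩ := h3
      rw [overW_iff] at hov
      obtain ⟨-, y, hy, hyv⟩ := hov
      have : near K A = true := by
        rw [near_iff]
        refine ⟨v, hv, y, hy, ?_⟩
        have h4 := wlen_of_ring (hw K (hLC K hK)) (hl K (hLC K hK)) (ht K (hLC K hK)) h1.1 hv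
        have h5 := wlen_of_ring (hw A hA) (hl A hA) (ht A hA) wA hy
        exact near_word hyv (wper_of_ring (hw K (hLC K hK)) (hl K (hLC K hK)) (ht K (hLC K hK))
          h1.1 hv) (by omega) (by omega)
      rw [h2] at this
      exact absurd this (by simp)
  have hwrap : ∀ K ∈ L, (R K).Wrap := fun K hK =>
    ring_wrap (hw K (hLC K hK)) (hl K (hLC K hK)) (hshort K hK).1
  have hoverC : ∀ K ∈ L, overC A K = true := by
    intro K hK
    have h1 := (hshort K hK).2
    rw [overS_iff] at h1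
    obtain ⟨v, hv, hov, -⟩ := h1
    rw [overC_iff]
    exact ⟨v, hv, hov⟩
  have hover : ∀ K : {K // K ∈ L}, ∃ a b c, Over (R A) (R K.1) a b c := by
    rintro ⟨K, hK⟩
    have h1 := hoverC K hK
    rw [overC_iff] at h1
    obtain ⟨v, hv, hov⟩ := h1
    obtain ⟨a, b, hvis, rfl⟩ := (ht A hA v).1 hv
    obtain ⟨c, hc⟩ := Mix.over_of_overW (hw K (hLC K hK)) (hwrap K hK) (ht K (hLC K hK)) hvis hov
    exact ⟨a, b, c, hc⟩
  have hno : ∀ (K : {K // K ∈ L}) a b c, Over (R A) (R K.1) a b c → ¬ (R K.1).Vis (a + c) (b + c) := by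
    rintro ⟨K, hK⟩ a b c ho hvis
    have h1 : near K A = true := by
      apply near_of_common (v := win (R A).κ a b)
      · rw [ht K (hLC K hK)]
        refine ⟨a + c, b + c, hvis, ?_⟩
        rw [win_eq_iff _ _ (by ring)]
        intro n h0 h1
        rw [ho.2.1 (a + n) (by omega) (by omega)]
        congr 1; ring
      · rw [ht A hA]
        exact ⟨a, b, ho.1, rfl⟩
    rw [(hL K hK).2] at h1
    exact absurd h1 (by simp)
  have hns : ∀ K K' : {K // K ∈ L}, K ≠ K' → ¬ Mix.Short (R K.1) (R K'.1) := by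
    rintro ⟨K, hK⟩ ⟨K', hK'⟩ hne hs
    have hne' : K.num ≠ K'.num := by
      intro e
      apply hne
      have := List.inj_on_of_nodup_map nodup (hLC K hK) (hLC K' hK') e
      simp [this]
    have h1 : overS K' K = true :=
      (Mix.overS_iff (hw K' (hLC K' hK')) (hw K (hLC K hK)) (hwrap K hK) (ht K' (hLC K' hK'))
        (ht K (hLC K hK))).2 hs
    have h2 : linked K K' = true := by
      unfold linked
      rw [(hshort K hK).1, (hshort K' hK').1, h1]
      simp [hne']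
    rw [hLL K hK K' hK'] at h2
    exact absurd h2 (by simp)
  rcases Mix.mixed (R A) (fun K : {K // K ∈ L} => R K.1) (fun K => hwrap K.1 K.2) hover hno hns with
    h | h
  · apply hstar A hA L hL0 hLC hLn
    intro K hK
    exact ⟨(hshort K hK).1, hoverC K hK, (hL K hK).2, fun c => h ⟨K, hK⟩ c⟩
  · have hlen : A.lv ≤ wtSum (A :: L) := by
      obtain ⟨K, L', rfl⟩ := List.exists_cons_of_ne_nil hL0
      have h1 := (hshort K (by simp)).2
      rw [overS_iff] at h1
      obtain ⟨v, hv, -, hlt⟩ := h1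
      have h2 := lv_le_length (hl A hA) (ht A hA) hv
      simp only [wtSum, List.map_cons, List.sum_cons]
      omega
    apply same_good' (hl A hA) (ht A hA) hlen
    intro K hK
    obtain ⟨c, h1, h2⟩ := h ⟨K, hK⟩
    exact ⟨R K, ht K (hLC K hK), c, h1, fun a b hv => (h2 a b hv).1⟩

end Crest.Agent.R287.Asm
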