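import Crest.Agent.R287.AsmMix
import Crest.Agent.R287.CandB
import Crest.Agent.R287.CostIso
import Crest.Agent.R287.AsmThm

/-!
Row 287: field (H4) of `AsmHyp` for the components of a list of P-rings without candidate: an
isolated wrap has a near target or some non-wrapping component visits a word over it.
-/

set_option autoImplicit false

namespace Crest.Agent.R287

open Asm

theorem asm_h4 (Ps : List PL) (hP : ∀ P ∈ Ps, IsPRing P)
    (hc : ∀ K ∈ Ps, candB Ps K = false) :
    ∀ K ∈ wcsOf Ps, K.wrap = true → isolated (wcsOf Ps) K = true →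
      hasTarget (wcsOf Ps) K = true ∨ ∃ V ∈ wcsOf Ps, V.wrap = false ∧ overC V K = true := by
  intro K hK hw hiso
  obtain ⟨n, hn, rfl⟩ := mem_wcsOf.1 hK
  set P : Fin Ps.length → PL := fun c => Ps[c] with hPdef
  have hPP : ∀ c, IsPRing (P c) := fun c => hP _ (List.getElem_mem _)
  set R : Fin Ps.length → Ring := fun c => toRing (P c) (hPP c) with hR
  set k : Fin Ps.length := ⟨n, hn⟩ with hk
  have hmem : ∀ c : Fin Ps.length, wcOf (P c) c ∈ wcsOf Ps := fun c =>
    mem_wcsOf.2 ⟨c, c.2, rfl⟩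
  have hK' : wcOf Ps[n] n = wcOf (P k) k := rfl
  rw [hK'] at hiso hw ⊢
  have hwr : wrapB (P k) = true := hw
  obtain ⟨z, hz1, hz2⟩ := exists_bottom (hPP k)
  have hbot : (R k).F (z - 1) = z + (R k).lev := by
    rw [hz1, lev_toRing (hPP k)]
  have htour : ∀ c v, v ∈ (wcOf (P c) c).tour ↔ ∃ i j, (R c).Vis i j ∧ v = win (R c).κ i j :=
    fun c v => mem_nodes_win (hPP c) v
  have hwrapiff : ∀ c, (wcOf (P c) c).wrap = true ↔ (R c).Wrap := fun c => wrapB_iff (hPP c)
  have hlv : ∀ c, ((wcOf (P c) c).lv : ℤ) = (R c).lev := fun c => (lev_toRing (hPP c)).symm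
  have hlink : ∀ c c', c ≠ c' → (R c).Wrap → (R c').Wrap → (R c).Linked (R c') →
      linked (wcOf (P c) c) (wcOf (P c') c') = true := by
    intro c c' hne h1 h2 hl
    refine Mix.linked_of_ring (RA := R c') (RK := R c) rfl rfl (hlv c') (hlv c) h2 h1 (htour c')
      (htour c) ?_ hl
    intro h
    apply hne
    exact Fin.ext h
  have hiso' : ∀ c, c ≠ k → (R c).Wrap → ¬ (R k).Linked (R c) := by
    intro c hck hcw hl
    have h1 := hlink k c (Ne.symm hck) ((hwrapiff k).1 hw) hcw hl
    rw [isolated_iff.1 hiso _ (hmem c)] at h1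
    exact absurd h1 (by simp)
  have hfam : ∀ A ∈ Ps, ∃ c, P c = A := by
    intro A hA
    obtain ⟨m, hm, rfl⟩ := List.getElem_of_mem hA
    exact ⟨⟨m, hm⟩, rfl⟩
  have hcert := of_candB_eq_false' P hPP Ps hfam k hwr (hc _ (List.getElem_mem _)) hz2
  have hcert' : (∃ c, VisU R k z ((R k).lev - (R k).w) c ∧ c ≠ k ∧
        (¬ (R c).Wrap ∨ (R c).lev < (R k).lev)) ∨
      ∃ c c', VisU R k z ((R k).lev - (R k).w) c ∧ VisU R k z ((R k).lev - (R k).w) c' ∧
        (R c).Wrap ∧ (R c').Wrap ∧ (R c).Linked (R c') := by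
    rcases hcert with ⟨c, h1, h2⟩ | ⟨c, c', h1, h2, h3, h4, h5⟩
    · left
      refine ⟨c, h1, ?_, h2⟩
      rintro rfl
      rcases h2 with h2 | h2
      · exact h2 ((hwrapiff _).1 hw)
      · exact lt_irrefl _ h2
    · right
      exact ⟨c, c', h1, h2, h4.1, h5.1, h3⟩
  have hnear : ∀ c, Near (R k) (R c) → near (wcOf (P k) k) (wcOf (P c) c) = true := fun c h =>
    (asm_near_iff (hPP k) (hPP c) _ _).2 h
  rcases h4_ring R k z hbot hiso' hcert' with ⟨c, hck, hn, hcc⟩ | ⟨c, hcw, -, d, a, b, hf⟩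
  · left
    unfold hasTarget targets
    rw [hiso, cond_true, List.any_eq_true]
    refine ⟨wcOf (P c) c, ?_, hnear c hn⟩
    rw [List.mem_filter]
    refine ⟨hmem c, ?_⟩
    rw [Bool.and_eq_true, decide_eq_true_iff]
    refine ⟨?_, ?_⟩
    · intro h
      apply hck
      exact Fin.ext h
    · rw [Bool.or_eq_true, Bool.or_eq_true, Bool.not_eq_true', Bool.not_eq_true',
        decide_eq_true_iff]
      rcases hcc with h | ⟨h, c', hc', hw', hl⟩ | h
      · left; left
        rw [← Bool.not_eq_true, hwrapiff]; exact h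
      · left; right
        rw [not_isolated_iff]
        exact ⟨wcOf (P c') c', hmem c', hlink c c' (Ne.symm hc') h hw' hl⟩
      · right
        have h1 := hlv c
        have h2 := hlv k
        omega
  · right
    refine ⟨wcOf (P c) c, hmem c, ?_, ?_⟩
    · rw [← Bool.not_eq_true, hwrapiff]; exact hcw
    · rw [overC_iff]
      refine ⟨win (R c).κ a b, (htour c _).2 ⟨a, b, hf.vis, rfl⟩, ?_⟩
      apply Mix.overW_of_over (K := wcOf (P k) k) (R := R k) rfl ((hwrapiff k).1 hw) (htour k)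
        (c := d)
      refine ⟨hf.vis, fun x hx hx' => (hf.ag x hx hx').symm, ?_⟩
      have h1 := hf.far
      have h2 : (R k).F (a - 1 + d) ≤ (R k).F (a + d) := (R k).mono (by omega)
      omega

end Crest.Agent.R287
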