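import Crest.Agent.R287.AsmThm
import Crest.Agent.R287.PWC

/-!
Row 287: the assembly hypotheses for the components of a list of P-lists, and the two correctness
facts of the final program from the process facts.
-/

set_option autoImplicit false

namespace Crest.Agent.R287

open Asm

/-- the geometric facts `H2`, `H3`, `H4` for a family of components -/
structure GeoHyp (Cs : List WC) : Prop where
  h2 : ∀ A ∈ Cs, A.wrap = true → ∀ L : List WC, L ≠ [] → (∀ K ∈ L, K ∈ Cs) → L.Nodup →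
    (∀ K ∈ L, linked K A = true ∧ near K A = false) →
    (∀ K ∈ L, ∀ K' ∈ L, linked K K' = false) → ∃ r ∈ cands A L, good A L r = true
  h3 : ∀ V ∈ Cs, V.wrap = false → ∀ L : List WC, (∀ K ∈ L, K ∈ Cs) → L.Nodup →
    (∀ K ∈ L, K.wrap = true ∧ isolated Cs K = true ∧ overC V K = true ∧ near K V = false) →
    ∃ r ∈ cands V L, good V L r = true
  h4 : ∀ K ∈ Cs, K.wrap = true → isolated Cs K = true →
    hasTarget Cs K = true ∨ ∃ V ∈ Cs, V.wrap = false ∧ overC V K = true

theorem asmHyp_wcsOf {Ps : List PL} (hR : ∀ P ∈ Ps, IsPRing P) (hg : GeoHyp (wcsOf Ps)) :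
    AsmHyp (wcsOf Ps) where
  nodup := wcsOf_nodup Ps
  cc := by
    intro K hK
    obtain ⟨n, hn, rfl⟩ := mem_wcsOf.mp hK
    exact ccost_nodes (hR _ (List.getElem_mem hn))
  wlen := by
    intro K hK hw v hv
    obtain ⟨n, hn, rfl⟩ := mem_wcsOf.mp hK
    exact wrap_lt_of_mem_nodes (hR _ (List.getElem_mem hn)) hw hv
  wper := by
    intro K hK hw v hv
    obtain ⟨n, hn, rfl⟩ := mem_wcsOf.mp hK
    exact hasPer_of_mem_nodes (hR _ (List.getElem_mem hn)) hv
  h2 := hg.h2
  h3 := hg.h3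
  h4 := hg.h4

/-- words of the P-lists are nodes -/
theorem mem_nodes_of_mem' {P : PL} (hR : IsPRing P) {p : Word} (hp : p ∈ P) : p ∈ nodes P := by
  rw [mem_nodes hR, mem_visWords hR]
  obtain ⟨k, hk, rfl⟩ := List.getElem_of_mem hp
  refine ⟨k, ?_, ?_⟩
  · have := pz_step' hR k
    rw [pz_nat hk, List.getD_eq_getElem?_getD, List.getElem?_eq_getElem hk] at this
    simpa using this
  · rw [pz_nat hk, List.getD_eq_getElem?_getD, List.getElem?_eq_getElem hk]
    simp

theorem asm_wcsOf_spec {Ps : List PL} (hR : ∀ P ∈ Ps, IsPRing P) (hg : GeoHyp (wcsOf Ps)) :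
    (∀ P ∈ Ps, ∀ p ∈ P, p <:+: asm (wcsOf Ps)) ∧
      (asm (wcsOf Ps)).length ≤ 2 * (Ps.map List.length).sum := by
  obtain ⟨h1, h2⟩ := asm_spec (asmHyp_wcsOf hR hg)
  rw [wcsOf_wtSum] at h2
  refine ⟨fun P hP p hp => ?_, h2⟩
  obtain ⟨n, hn, rfl⟩ := List.getElem_of_mem hP
  exact h1 _ (mem_wcsOf.mpr ⟨n, hn, rfl⟩) p (mem_nodes_of_mem' (hR _ (List.getElem_mem hn)) hp)

/-- correctness of the final program from the process facts -/
theorem main_correct
    (hR : ∀ S : List Word, ∀ P ∈ ringsOf S, IsPRing P)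
    (hcov : ∀ S : List Word, ∀ s ∈ S, s ≠ [] → ∃ P ∈ ringsOf S, ∃ p ∈ P, s <:+: p)
    (hlb : ∀ (S : List Word) (T : Word), (∀ s ∈ S, s <:+: T) →
      ((ringsOf S).map List.length).sum ≤ T.length)
    (hg : ∀ S : List Word, GeoHyp (wcsOf (ringsOf S))) :
    (∀ S : List Word, ∀ s ∈ S, s <:+: asm (wcsOf (ringsOf S))) ∧
    (∀ (S : List Word) (T : Word), (∀ s ∈ S, s <:+: T) →
      (asm (wcsOf (ringsOf S))).length ≤ 2 * T.length) := by
  constructor
  · intro S s hs
    by_cases h0 : s = []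
    · subst h0; exact List.nil_infix
    · obtain ⟨P, hP, p, hp, hsp⟩ := hcov S s hs h0
      exact hsp.trans ((asm_wcsOf_spec (hR S) (hg S)).1 P hP p hp)
  · intro S T hT
    have h1 := (asm_wcsOf_spec (hR S) (hg S)).2
    have h2 := hlb S T hT
    omega

end Crest.Agent.R287
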