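import Crest.Agent.R287.AsmMix
import Crest.Agent.R287.MainAsm

/-!
# Row 287: existence of good hub routes (fields `h2`, `h3` of `AsmHyp`)
-/

set_option autoImplicit false

namespace Crest.Agent.R287.Asm

open Crest.Agent.R287.Mix Crest.Agent.R287.Star

/-- the prefixes of a word `z` of the centre form a good route if every leaf has a visited word that
is a prefix of `z` and `z` is short -/
theorem bottom_good {V : WC} {L : List WC} {z : Word} (hz : z ∈ V.tour)
    (hc : z.length ≤ wtSum (V :: L)) (hL : ∀ K ∈ L, ∃ y ∈ K.tour, y <+: z) :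
    ∃ r ∈ cands V L, good V L r = true := by
  refine ⟨z.inits, ?_, ?_⟩
  · unfold cands
    refine List.mem_append_left _ (List.mem_map.2 ⟨z, ?_, rfl⟩)
    rw [List.flatMap_cons]
    exact List.mem_append_left _ hz
  · unfold good
    have h1 : ([] : Word) ∈ z.inits := by simp
    have h2 : ccost z.inits ≤ wtSum (V :: L) := (AsmHyp.ccost_inits z).trans hc
    have h3 : ∀ K ∈ V :: L, touches z.inits K = true := by
      intro K hK
      rcases List.mem_cons.1 hK with rfl | hK
      · simp only [touches, List.any_eq_true, decide_eq_true_eq]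
        exact ⟨z, by simp, hz⟩
      · obtain ⟨y, hy, hyz⟩ := hL K hK
        simp only [touches, List.any_eq_true, decide_eq_true_eq]
        exact ⟨y, by simpa using hyz, hy⟩
    rw [Bool.and_eq_true, Bool.and_eq_true, List.all_eq_true]
    exact ⟨⟨by simpa using h1, by simpa using h2⟩, h3⟩

variable {Ps : List PL} (hP : ∀ P ∈ Ps, IsPRing P)

/-- the ring of the `n`-th component -/
def rg (hP : ∀ P ∈ Ps, IsPRing P) (n : Fin Ps.length) : Ring :=
  toRing Ps[n] (hP _ (List.getElem_mem n.2))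

/-- the `n`-th component -/
def cw (Ps : List PL) (n : Fin Ps.length) : WC := wcOf Ps[n] n

theorem exists_cw {K : WC} (hK : K ∈ wcsOf Ps) : ∃ n : Fin Ps.length, K = cw Ps n := by
  obtain ⟨n, hn, rfl⟩ := mem_wcsOf.1 hK
  exact ⟨⟨n, hn⟩, rfl⟩

theorem cw_mem (n : Fin Ps.length) : cw Ps n ∈ wcsOf Ps := mem_wcsOf.2 ⟨n, n.2, rfl⟩

theorem cw_num (n : Fin Ps.length) : (cw Ps n).num = n := rfl

theorem cw_wt (n : Fin Ps.length) : (cw Ps n).wt = (rg hP n).w := rfl

theorem cw_lv (n : Fin Ps.length) : ((cw Ps n).lv : ℤ) = (rg hP n).lev :=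
  (lev_toRing (hP _ (List.getElem_mem n.2))).symm

theorem cw_tour (n : Fin Ps.length) (v : Word) : v ∈ (cw Ps n).tour ↔
    ∃ i j, (rg hP n).Vis i j ∧ v = win (rg hP n).κ i j :=
  mem_nodes_win (hP _ (List.getElem_mem n.2)) v

theorem cw_wrap (n : Fin Ps.length) : (cw Ps n).wrap = true ↔ (rg hP n).Wrap := by
  unfold WC.wrap Ring.Wrap
  rw [decide_eq_true_iff]
  have h1 := cw_lv hP n
  have h2 := cw_wt hP n
  omega

/-- a common visited word makes components near -/
theorem near_of_common_word {K V : WC} {v : Word} (h1 : v ∈ K.tour) (h2 : v ∈ V.tour) :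
    near K V = true := by
  rw [near_iff]
  exact ⟨v, h1, v, h2, by rw [dist_self]; omega⟩

/-- the star lemma in word form (helper923), as a hypothesis -/
def StarFact (Ps : List PL) (hP : ∀ P ∈ Ps, IsPRing P) : Prop :=
  ∀ (V : Fin Ps.length) (L : List WC), L ≠ [] → L.Nodup → (∀ K ∈ L, K ∈ wcsOf Ps) →
    (∀ n : Fin Ps.length, cw Ps n ∈ L → (cw Ps n).wrap = true ∧ overC (cw Ps V) (cw Ps n) = true ∧
      near (cw Ps n) (cw Ps V) = false ∧
      ∀ c, ¬ ∀ x, (rg hP V).κ x = (rg hP n).κ (x + c)) →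
    ∃ r ∈ cands (cw Ps V) L, good (cw Ps V) L r = true

theorem hub_exists (hstar : StarFact Ps hP) (V : Fin Ps.length) {L : List WC} (hL : L ≠ [])
    (hn : L.Nodup) (hLC : ∀ K ∈ L, K ∈ wcsOf Ps)
    (h1 : ∀ K ∈ L, K.wrap = true ∧ overC (cw Ps V) K = true ∧ near K (cw Ps V) = false)
    (h2 : ∀ K ∈ L, ∀ K' ∈ L, linked K K' = false)
    (hc : (cw Ps V).lv ≤ wtSum (cw Ps V :: L)) :
    ∃ r ∈ cands (cw Ps V) L, good (cw Ps V) L r = true := by
  let ι := {n : Fin Ps.length // cw Ps n ∈ L}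
  have hwrap : ∀ i : ι, (rg hP i.1).Wrap := fun i => (cw_wrap hP i.1).1 (h1 _ i.2).1
  have hover : ∀ i : ι, ∃ a b c, Over (rg hP V) (rg hP i.1) a b c := by
    intro i
    obtain ⟨v, hv, ho⟩ := overC_iff.1 (h1 _ i.2).2.1
    obtain ⟨a, b, hvis, rfl⟩ := (cw_tour hP V v).1 hv
    obtain ⟨c, hc⟩ := over_of_overW (K := cw Ps i.1) (R := rg hP i.1) (cw_wt hP i.1) (hwrap i)
      (cw_tour hP i.1) hvis ho
    exact ⟨a, b, c, hc⟩
  have hno : ∀ (i : ι) a b c, Over (rg hP V) (rg hP i.1) a b c →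
      ¬ (rg hP i.1).Vis (a + c) (b + c) := by
    intro i a b c ho hvis
    have h3 : near (cw Ps i.1) (cw Ps V) = true := by
      apply near_of_common_word (v := win (rg hP V).κ a b)
      · rw [cw_tour hP]
        refine ⟨a + c, b + c, hvis, ?_⟩
        rw [win_eq_iff _ _ (by ring)]
        intro n hn0 hn1
        rw [ho.2.1 (a + n) (by omega) (by omega)]
        congr 1; ring
      · rw [cw_tour hP]
        exact ⟨a, b, ho.1, rfl⟩
    rw [(h1 _ i.2).2.2] at h3
    exact absurd h3 (by simp)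
  have hns : ∀ i j : ι, i ≠ j → ¬ Short (rg hP i.1) (rg hP j.1) := by
    intro i j hij hs
    have h3 := (Mix.overS_iff (A := cw Ps j.1) (K := cw Ps i.1) (cw_wt hP j.1) (cw_wt hP i.1)
      (hwrap i) (cw_tour hP j.1) (cw_tour hP i.1)).2 hs
    have h4 : linked (cw Ps i.1) (cw Ps j.1) = true := by
      rw [linked_iff]
      refine ⟨(h1 _ i.2).1, (h1 _ j.2).1, ?_, Or.inl h3⟩
      rw [cw_num, cw_num]
      intro e
      exact hij (Subtype.ext (Fin.ext e))
    rw [h2 _ i.2 _ j.2] at h4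
    exact absurd h4 (by simp)
  rcases mixed (rg hP V) (fun i : ι => rg hP i.1) hwrap hover hno hns with hm | hm
  · exact hstar V L hL hn hLC (fun n hnL => ⟨(h1 _ hnL).1, (h1 _ hnL).2.1, (h1 _ hnL).2.2,
      fun c => hm ⟨n, hnL⟩ c⟩)
  · -- the bottom of `V`
    obtain ⟨i, -, -, hi⟩ := (rg hP V).exists_lev
    have hvis : (rg hP V).Vis i ((rg hP V).F (i - 1)) := ⟨le_rfl, (rg hP V).mono (by omega)⟩
    have hz : win (rg hP V).κ i ((rg hP V).F (i - 1)) ∈ (cw Ps V).tour :=
      (cw_tour hP V _).2 ⟨_, _, hvis, rfl⟩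
    refine bottom_good hz ?_ ?_
    · rw [length_win, hi]
      have := cw_lv hP V
      omega
    · intro K hK
      obtain ⟨n, rfl⟩ := exists_cw (hLC K hK)
      obtain ⟨c, hp, hall⟩ := hm ⟨n, hK⟩
      simp only at hp hall
      have h3 := (hall _ _ hvis).1.2.2
      have h4 := (rg hP n).Fgt (i - 1 + c)
      refine ⟨win (rg hP n).κ (i + c) ((rg hP n).F (i - 1 + c)), (cw_tour hP n _).2
        ⟨i + c, _, ⟨?_, ?_⟩, rfl⟩, ?_⟩
      · rw [show i + c - 1 = i - 1 + c by ring]
      · exact (rg hP n).mono (by omega)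
      · have e : win (rg hP n).κ (i + c) ((rg hP n).F (i - 1 + c)) =
            win (rg hP V).κ i ((rg hP n).F (i - 1 + c) - c) := by
          rw [win_eq_iff _ _ (by ring)]
          intro m hm0 hm1
          rw [hp (i + m)]
          congr 1; ring
        rw [e, win_append (rg hP V).κ (i := i) (j := (rg hP n).F (i - 1 + c) - c)
          (k := (rg hP V).F (i - 1)) (by omega) h3]
        exact List.prefix_append _ _

/-- field `h2` -/
theorem field_h2 (hstar : StarFact Ps hP) : ∀ A ∈ wcsOf Ps, A.wrap = true → ∀ L : List WC, L ≠ [] →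
    (∀ K ∈ L, K ∈ wcsOf Ps) → L.Nodup → (∀ K ∈ L, linked K A = true ∧ near K A = false) →
    (∀ K ∈ L, ∀ K' ∈ L, linked K K' = false) → ∃ r ∈ cands A L, good A L r = true := by
  intro A hA wA L hL hLC hn h1 h2
  obtain ⟨V, rfl⟩ := exists_cw hA
  -- every leaf is below the centre and short
  have key : ∀ K ∈ L, K.wrap = true ∧ overS (cw Ps V) K = true := by
    intro K hK
    obtain ⟨hl, hnear⟩ := h1 K hK
    obtain ⟨wK, -, -, ho⟩ := linked_iff.1 hl
    refine ⟨wK, ?_⟩
    rcases ho with ho | ho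
    · exact ho
    · exfalso
      rw [overS_iff] at ho
      obtain ⟨v, hv, hov, hlen⟩ := ho
      rw [Asm.overW_iff] at hov
      obtain ⟨-, y, hy, hyv⟩ := hov
      obtain ⟨m, rfl⟩ := exists_cw (hLC K hK)
      have h3 := wrap_lt_of_mem_nodes (hP _ (List.getElem_mem m.2)) wK hv
      have h4 := hasPer_of_mem_nodes (hP _ (List.getElem_mem m.2)) hv
      have h5 := wrap_lt_of_mem_nodes (hP _ (List.getElem_mem V.2)) wA hy
      have h6 : near (cw Ps m) (cw Ps V) = true := by
        rw [near_iff]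
        refine ⟨v, hv, y, hy, ?_⟩
        refine near_word hyv h4 h3.le ?_
        have e1 : (cw Ps m).wt = Ps[m].length := rfl
        have e2 : (cw Ps V).wt = Ps[V].length := rfl
        rw [e1, e2] at hlen
        have e3 : (Ps[V] : PL).length < y.length := h5
        show v.length ≤ y.length + (Ps[m] : PL).length
        omega
      rw [hnear] at h6
      exact absurd h6 (by simp)
  refine hub_exists hP hstar V hL hn hLC (fun K hK => ⟨(key K hK).1, ?_, (h1 K hK).2⟩) h2 ?_
  · obtain ⟨v, hv, ho, -⟩ := overS_iff.1 (key K hK).2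
    exact overC_iff.2 ⟨v, hv, ho⟩
  · obtain ⟨K, l, rfl⟩ := List.exists_cons_of_ne_nil hL
    obtain ⟨v, hv, -, hlen⟩ := overS_iff.1 (key K List.mem_cons_self).2
    have h3 : (cw Ps V).lv ≤ v.length := levN_le_of_mem_nodes (hP _ (List.getElem_mem V.2)) hv
    simp only [wtSum, List.map_cons, List.sum_cons]
    omega

/-- field `h3` -/
theorem field_h3 (hstar : StarFact Ps hP) : ∀ V ∈ wcsOf Ps, V.wrap = false → ∀ L : List WC,
    (∀ K ∈ L, K ∈ wcsOf Ps) → L.Nodup →
    (∀ K ∈ L, K.wrap = true ∧ isolated (wcsOf Ps) K = true ∧ overC V K = true ∧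
      near K V = false) → ∃ r ∈ cands V L, good V L r = true := by
  intro A hA wA L hLC hn h1
  obtain ⟨V, rfl⟩ := exists_cw hA
  have hlv : (cw Ps V).lv ≤ (cw Ps V).wt := by
    unfold WC.wrap at wA
    rw [decide_eq_false_iff_not] at wA
    omega
  have hc : (cw Ps V).lv ≤ wtSum (cw Ps V :: L) := by
    simp only [wtSum, List.map_cons, List.sum_cons]
    omega
  by_cases hL : L = []
  · subst hL
    obtain ⟨i, -, -, hi⟩ := (rg hP V).exists_lev
    have hvis : (rg hP V).Vis i ((rg hP V).F (i - 1)) := ⟨le_rfl, (rg hP V).mono (by omega)⟩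
    have hz : win (rg hP V).κ i ((rg hP V).F (i - 1)) ∈ (cw Ps V).tour :=
      (cw_tour hP V _).2 ⟨_, _, hvis, rfl⟩
    refine bottom_good hz ?_ (by simp)
    rw [length_win, hi]
    have := cw_lv hP V
    omega
  · refine hub_exists hP hstar V hL hn hLC (fun K hK => ⟨(h1 K hK).1, (h1 K hK).2.2.1,
      (h1 K hK).2.2.2⟩) ?_ hc
    intro K hK K' hK'
    exact isolated_iff.1 (h1 K hK).2.1 K' (hLC K' hK')

end Crest.Agent.R287.Asm
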