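import Crest.Agent.R287.Visit
import Crest.Agent.Lib.PT.ListFns2

/-!
# Row 287: the output engine is polynomial time
-/

set_option autoImplicit false

namespace Crest.Agent.R287

open Crest.Agent.Lib.PT

section gen

variable {γ α β : Type} [PTCode γ] [PTCode α] [PTCode β]

theorem ptf_fst {f : γ → α × β} (h : PTF f) : PTF (fun c => (f c).1) := PTF.comp PTF.fst h
theorem ptf_snd {f : γ → α × β} (h : PTF f) : PTF (fun c => (f c).2) := PTF.comp PTF.snd h

/-- prefix test -/
theorem ptp_prefix {f g : γ → List α} (hf : PTF f) (hg : PTF g) :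
    PTPred (fun c => f c <+: g c) := by
  refine (PTPred.eq (f := fun c => (g c).take (f c).length) (g := f)
    (PTF.take (PTU.length hf) hg) hf).of_iff (fun c => ?_)
  constructor
  · intro h; rw [← h]; exact List.take_prefix _ _
  · intro h
    exact (List.prefix_iff_eq_take.1 h).symm

omit [PTCode α] in
/-- all suffixes -/
theorem tails_eq_foldr (l : List α) :
    l.tails = l.foldr (fun a acc => (a :: acc.headD []) :: acc) [[]] := by
  induction l with
  | nil => rfl
  | cons a l ih =>
    rw [List.foldr_cons, ← ih]
    cases l <;> simp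

theorem sz_tails_le (l : List α) : sz l.tails ≤ (l.length + 1) * (2 * sz l + 1) := by
  have h := sz_list_le (l := l.tails) (m := sz l) (by
    intro a ha
    obtain ⟨t, rfl⟩ := (List.mem_tails a l).1 ha
    rw [sz_append]; omega)
  rwa [List.length_tails] at h

theorem ptf_tails {f : γ → List α} (hf : PTF f) : PTF (fun c => (f c).tails) := by
  refine PTF.of_eq (f := fun c => (f c).foldr (fun a acc => (a :: acc.headD []) :: acc) [[]]) ?_
    (fun _ => (tails_eq_foldr _).symm)
  have hd : ∀ (δ : Type) [PTCode δ] (h : δ → List (List α)), PTF h →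
      PTF (fun q => (h q).headD []) := by
    intro δ _ h hh
    refine PTF.of_eq (PTF.optionGetD (PTF.head? hh) (PTF.const [])) (fun q => ?_)
    cases h q <;> rfl
  refine PTF.foldr (f := fun (_ : γ) (a : α) (acc : List (List α)) => (a :: acc.headD []) :: acc) hf ?_
    (PTF.const _) (B := fun c => (sz (f c) + 1) * (2 * sz (f c) + 1))
    (by have := hf.sz; fun_prop) ?_
  · refine PTF.listCons (PTF.listCons (by fun_prop) (hd _ _ (by fun_prop))) (by fun_prop)
  · intro c i hi
    rw [← tails_eq_foldr]
    refine (sz_tails_le _).trans ?_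
    have h1 := length_le_sz ((f c).drop i)
    have h2 := sz_drop_le (f c) i
    exact Nat.mul_le_mul (by omega) (by omega)

end gen

variable {γ : Type} [PTCode γ]

theorem ov_eq (v u : Word) :
    ov v u = ((v.tails.find? (fun w => decide (w <+: u))).getD []).length := by
  induction v with
  | nil => simp [ov]
  | cons a v ih =>
    rw [ov_cons, List.tails_cons, List.find?_cons]
    by_cases h : (a :: v) <+: u
    · simp [h]
    · simp [h, ih]

theorem ptu_ov {f g : γ → Word} (hf : PTF f) (hg : PTF g) : PTU (fun c => ov (f c) (g c)) := by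
  have h : PTF (fun c => (((f c).tails.find? (fun w => decide (w <+: g c))).getD [])) := by
    refine PTF.optionGetD (PTF.find? (p := fun c w => decide (w <+: g c)) (ptf_tails hf) ?_)
      (PTF.const [])
    exact (ptp_prefix (f := fun q : γ × Word => q.2) (g := fun q : γ × Word => g q.1)
      (by fun_prop) (by fun_prop)).toPTF
  exact (PTU.length h).of_eq (fun c => (ov_eq _ _).symm)

theorem ptu_dist {f g : γ → Word} (hf : PTF f) (hg : PTF g) : PTU (fun c => dist (f c) (g c)) :=
  PTU.sub (PTU.length hg) (ptu_ov hf hg)

theorem tailText_eq (v : Word) (L : List Word) :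
    tailText v L = (List.zipWith (fun a b => b.drop (ov a b)) (v :: L) L).flatten := by
  induction L generalizing v with
  | nil => simp [tailText]
  | cons u L ih => simp [tailText, ih]

theorem text_eq (L : List Word) :
    text L = L.headD [] ++ (List.zipWith (fun a b => b.drop (ov a b)) L L.tail).flatten := by
  cases L with
  | nil => simp [text]
  | cons v L => simp [text, tailText_eq]

theorem ptf_glueParts {f g : γ → List Word} (hf : PTF f) (hg : PTF g) :
    PTF (fun c => (List.zipWith (fun a b => b.drop (ov a b)) (f c) (g c)).flatten) := by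
  refine PTF.flatten (PTF.zipWith (f := fun _ a b => b.drop (ov a b)) hf hg ?_)
  exact PTF.drop (ptu_ov (by fun_prop) (by fun_prop)) (by fun_prop)

theorem ptf_headD {α : Type} [PTCode α] {f : γ → List α} {d : γ → α} (hf : PTF f) (hd : PTF d) :
    PTF (fun c => (f c).headD (d c)) :=
  PTF.of_eq (PTF.optionGetD (PTF.head? hf) hd) (fun q => by cases f q <;> rfl)

theorem ptf_text {f : γ → List Word} (hf : PTF f) : PTF (fun c => text (f c)) := by
  refine PTF.of_eq (PTF.append (ptf_headD hf (PTF.const [])) (ptf_glueParts hf (PTF.tail hf)))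
    (fun c => (text_eq _).symm)

theorem cost_eq_length (L : List Word) :
    cost L = ((List.zipWith (fun a b => b.drop (ov a b)) L L.tail).flatten).length := by
  cases L with
  | nil => simp
  | cons v L =>
    rw [← length_tailText, tailText_eq]
    rfl

theorem ptu_cost {f : γ → List Word} (hf : PTF f) : PTU (fun c => cost (f c)) :=
  (PTU.length (ptf_glueParts hf (PTF.tail hf))).of_eq (fun c => (cost_eq_length _).symm)

theorem ccost_eq (C : List Word) : ccost C = cost (C ++ C.take 1) := by
  cases C with
  | nil => rfl
  | cons v C => simp [ccost]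

theorem ptu_ccost {f : γ → List Word} (hf : PTF f) : PTU (fun c => ccost (f c)) :=
  (ptu_cost (PTF.append hf (PTF.take (PTU.const 1) hf))).of_eq (fun c => (ccost_eq _).symm)

theorem splitAtWord_eq (v : Word) (L : List Word) :
    splitAtWord v L = (L.takeWhile (fun u => !decide (u = v)),
      (L.dropWhile (fun u => !decide (u = v))).tail) := by
  induction L with
  | nil => rfl
  | cons u L ih =>
    by_cases h : u = v
    · simp [splitAtWord, h]
    · simp [splitAtWord, h, ih]

theorem ptf_splitAtWord {v : γ → Word} {L : γ → List Word} (hv : PTF v) (hL : PTF L) :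
    PTF (fun c => splitAtWord (v c) (L c)) := by
  have hp : PTF (fun q : γ × Word => !decide (q.2 = v q.1)) :=
    PTF.not (PTF.beq (by fun_prop) (by fun_prop))
  refine PTF.of_eq (PTF.prodMk (PTF.takeWhile (p := fun c u => !decide (u = v c)) hL hp)
    (PTF.tail (PTF.dropWhile (p := fun c u => !decide (u = v c)) hL hp)))
    (fun c => (splitAtWord_eq _ _).symm)

theorem ptf_spliceAt {v : γ → Word} {L C : γ → List Word} (hv : PTF v) (hL : PTF L)
    (hC : PTF C) : PTF (fun c => spliceAt (v c) (L c) (C c)) := by
  have h1 := ptf_splitAtWord hv hL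
  have h2 := ptf_splitAtWord hv hC
  unfold spliceAt
  exact PTF.append (ptf_fst h1) (PTF.listCons hv (PTF.append
    (PTF.append (ptf_snd h2) (ptf_fst h2)) (PTF.listCons hv (ptf_snd h1))))

theorem ptf_common {L C : γ → List Word} (hL : PTF L) (hC : PTF C) :
    PTF (fun c => common (L c) (C c)) := by
  unfold common
  refine PTF.find? (p := fun c v => decide (v ∈ L c)) hC ?_
  exact (PTPred.mem (f := fun q : γ × Word => q.2) (l := fun q : γ × Word => L q.1)
    (by fun_prop) (by fun_prop)).toPTF

theorem ptf_passStep {s : γ → List Word × List (List Word)} {C : γ → List Word}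
    (hs : PTF s) (hC : PTF C) : PTF (fun c => passStep (s c) (C c)) := by
  have h1 := ptf_common (ptf_fst hs) hC
  refine PTF.of_eq (PTF.optionCasesOn (s := fun c => common (s c).1 (C c))
    (f := fun c => ((s c).1, C c :: (s c).2))
    (g := fun c v => (spliceAt v (s c).1 (C c), (s c).2)) h1 (by fun_prop) ?_) (fun c => ?_)
  · refine PTF.prodMk (ptf_spliceAt (by fun_prop) (by fun_prop) (by fun_prop)) (by fun_prop)
  · unfold passStep
    cases common (s c).1 (C c) <;> rfl

/-- potential of a state -/
def pot (s : List Word × List (List Word)) : ℕ := 2 * sz s.1 + 1 + sz s.2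

theorem sz_spliceAt {v : Word} {L C : List Word} (hL : v ∈ L) (hC : v ∈ C) :
    sz (spliceAt v L C) = sz L + sz C := by
  have h1 : sz L = sz (splitAtWord v L).1 + (2 * sz v + 1 + sz (splitAtWord v L).2) := by
    conv_lhs => rw [splitAtWord_spec hL]
    rw [sz_append, sz_cons]
  have h2 : sz C = sz (splitAtWord v C).1 + (2 * sz v + 1 + sz (splitAtWord v C).2) := by
    conv_lhs => rw [splitAtWord_spec hC]
    rw [sz_append, sz_cons]
  unfold spliceAt
  rw [sz_append, sz_cons, sz_append, sz_append, sz_cons]
  omega

theorem pot_passStep (s : List Word × List (List Word)) (C : List Word) :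
    pot (passStep s C) ≤ pot s + (2 * sz C + 1) := by
  unfold passStep
  rcases hc : common s.1 C with _ | v
  · simp only [pot, sz_cons]; omega
  · obtain ⟨h1, h2⟩ := common_some hc
    simp only [pot, sz_spliceAt h1 h2]; omega

theorem pot_fold (R : List (List Word)) (s : List Word × List (List Word)) :
    pot (R.foldl passStep s) ≤ pot s + sz R := by
  induction R generalizing s with
  | nil => simp
  | cons C R ih =>
    rw [List.foldl_cons, sz_cons]
    have h1 := ih (passStep s C)
    have h2 := pot_passStep s C
    omega

theorem pot_pass (s : List Word × List (List Word)) : pot (pass s) ≤ pot s := by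
  unfold pass
  have h := pot_fold s.2 (s.1, [])
  simp only [pot, sz_nil] at h ⊢
  omega

theorem sz_state (s : List Word × List (List Word)) : sz s = pot s := by
  simp [pot]

theorem ptf_pass {s : γ → List Word × List (List Word)} (hs : PTF s) :
    PTF (fun c => pass (s c)) := by
  unfold pass
  refine PTF.foldl (f := fun (_ : γ) t C => passStep t C) (ptf_snd hs)
    (ptf_passStep (by fun_prop) (by fun_prop)) (PTF.prodMk (ptf_fst hs) (PTF.const _))
    (B := fun c => sz (s c)) hs.sz ?_
  intro c i _
  rw [sz_state, sz_state]
  refine (pot_fold _ _).trans ?_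
  simp only [pot, sz_nil]
  have := sz_take_le (s c).2 i
  omega

theorem ptf_assembleState {Cs : γ → List (List Word)} (h : PTF Cs) :
    PTF (fun c => assembleState (Cs c)) := by
  unfold assembleState
  refine PTF.iterate' (f := fun (_ : γ) s => pass s) (a := fun c => ([[]], Cs c))
    (PTU.length h) (ptf_pass (by fun_prop)) (PTF.prodMk (PTF.const _) h)
    (B := fun c => sz (([[]], Cs c) : List Word × List (List Word)))
    (PTF.sz (PTF.prodMk (PTF.const _) h)) ?_
  intro c i _
  rw [sz_state, sz_state]
  induction i with
  | zero => exact le_rfl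
  | succ i ih =>
    rw [Function.iterate_succ_apply']
    exact (pot_pass _).trans (ih (by omega))

/-- **The output engine is polynomial time.** -/
theorem ptf_assemble {Cs : γ → List (List Word)} (h : PTF Cs) :
    PTF (fun c => assemble (Cs c)) :=
  ptf_text (ptf_fst (ptf_assembleState h))

end Crest.Agent.R287
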