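import Mathlib

/-!
# Row 287: output engine on visit sequences

A solution is described by a list of words (`visit sequence`); consecutive words are merged with
maximal overlap.  Closed lists can be spliced into a list at a common word, the cost is additive.
-/

set_option autoImplicit false

namespace Crest.Agent.R287

abbrev Word := List ℕ

/-- length of the longest suffix of `v` that is a prefix of `u` -/
def ov : Word → Word → ℕ
  | [], _ => 0
  | a :: v, u => if (a :: v).isPrefixOf u then v.length + 1 else ov v u

theorem ov_nil (u : Word) : ov [] u = 0 := rfl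

theorem ov_cons (a : ℕ) (v u : Word) :
    ov (a :: v) u = if (a :: v) <+: u then v.length + 1 else ov v u := by
  simp only [ov, List.isPrefixOf_iff_prefix]

theorem ov_le_left (v u : Word) : ov v u ≤ v.length := by
  induction v with
  | nil => simp [ov]
  | cons a v ih =>
    rw [ov_cons]; split_ifs <;> simp; omega

/-- the overlap is a suffix of the first word -/
theorem take_ov_suffix (v u : Word) : u.take (ov v u) <:+ v := by
  induction v with
  | nil => simp [ov]
  | cons a v ih =>
    rw [ov_cons]
    split_ifs with h
    · obtain ⟨t, rfl⟩ := h
      have : ((a :: v) ++ t).take (v.length + 1) = a :: v := by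
        rw [show v.length + 1 = (a :: v).length from rfl, List.take_left']
        rfl
      rw [this]
    · exact ih.trans (List.suffix_cons a v)

theorem ov_le_right (v u : Word) : ov v u ≤ u.length := by
  induction v with
  | nil => simp [ov]
  | cons a v ih =>
    rw [ov_cons]
    split_ifs with h
    · simpa using h.length_le
    · exact ih

/-- maximality of the overlap -/
theorem le_ov {v u w : Word} (h1 : w <:+ v) (h2 : w <+: u) : w.length ≤ ov v u := by
  induction v with
  | nil =>
    have := List.suffix_nil.1 h1
    simp [this]
  | cons a v ih =>
    rw [ov_cons]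
    split_ifs with h
    · simpa using h1.length_le
    · rcases List.suffix_cons_iff.1 h1 with h' | h'
      · exact absurd (h' ▸ h2) h
      · exact ih h'

/-- number of letters that have to be appended to go from `v` to `u` -/
def dist (v u : Word) : ℕ := u.length - ov v u

theorem dist_le {v u w : Word} (h1 : w <:+ v) (h2 : w <+: u) : dist v u ≤ u.length - w.length := by
  have := le_ov h1 h2
  unfold dist; omega

theorem dist_le_length (v u : Word) : dist v u ≤ u.length := by unfold dist; omega

theorem dist_self (v : Word) : dist v v = 0 := by
  have := dist_le (List.suffix_refl v) (List.prefix_refl v); omega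

theorem dist_tail (v : Word) : dist v v.tail = 0 := by
  have := dist_le (List.tail_suffix v) (List.prefix_refl v.tail); omega

theorem dist_append (v : Word) (a : ℕ) : dist v (v ++ [a]) ≤ 1 := by
  have := dist_le (List.suffix_refl v) (List.prefix_append v [a]); simp at this; omega

theorem dist_of_suffix {v u : Word} (h : u <:+ v) : dist v u = 0 := by
  have := dist_le h (List.prefix_refl u); omega

theorem dist_of_prefix {v u : Word} (h : v <+: u) : dist v u ≤ u.length - v.length :=
  dist_le (List.suffix_refl v) h

/-- cost of a visit sequence -/
def cost : List Word → ℕ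
  | [] => 0
  | [_] => 0
  | v :: u :: L => dist v u + cost (u :: L)

@[simp] theorem cost_nil : cost [] = 0 := rfl
@[simp] theorem cost_single (v : Word) : cost [v] = 0 := rfl
@[simp] theorem cost_cons_cons (v u : Word) (L : List Word) :
    cost (v :: u :: L) = dist v u + cost (u :: L) := rfl

theorem cost_append (A B : List Word) (v : Word) :
    cost (A ++ v :: B) = cost (A ++ [v]) + cost (v :: B) := by
  induction A with
  | nil => simp
  | cons a A ih =>
    cases A with
    | nil => simp
    | cons b A =>
      simp only [List.cons_append, cost_cons_cons] at ih ⊢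
      rw [ih, Nat.add_assoc]

/-- letters appended when visiting the list `L` starting from `v` -/
def tailText : Word → List Word → Word
  | _, [] => []
  | v, u :: L => u.drop (ov v u) ++ tailText u L

/-- the text of a visit sequence -/
def text : List Word → Word
  | [] => []
  | v :: L => v ++ tailText v L

theorem length_tailText (v : Word) (L : List Word) : (tailText v L).length = cost (v :: L) := by
  induction L generalizing v with
  | nil => simp [tailText]
  | cons u L ih => simp [tailText, ih, dist]

theorem length_text_cons (v : Word) (L : List Word) :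
    (text (v :: L)).length = v.length + cost (v :: L) := by
  simp [text, length_tailText]

theorem suffix_glue (v u : Word) : u <:+ v ++ u.drop (ov v u) := by
  obtain ⟨t, ht⟩ := take_ov_suffix v u
  refine ⟨t, ?_⟩
  calc t ++ u = t ++ (u.take (ov v u) ++ u.drop (ov v u)) := by rw [List.take_append_drop]
    _ = (t ++ u.take (ov v u)) ++ u.drop (ov v u) := by rw [List.append_assoc]
    _ = v ++ u.drop (ov v u) := by rw [ht]

theorem infix_tailText (v : Word) (L : List Word) (T : Word) (hT : v <:+ T) :
    ∀ u ∈ v :: L, u <:+: T ++ tailText v L := by
  induction L generalizing v T with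
  | nil =>
    intro u hu
    simp at hu
    subst hu
    simpa [tailText] using hT.isInfix
  | cons w L ih =>
    intro u hu
    simp only [tailText]
    rw [← List.append_assoc]
    have hw : w <:+ T ++ w.drop (ov v w) := by
      obtain ⟨t, rfl⟩ := hT
      rw [List.append_assoc]
      exact (suffix_glue v w).trans (List.suffix_append _ _)
    rcases List.mem_cons.1 hu with rfl | hu
    · obtain ⟨t, rfl⟩ := hT
      refine ⟨t, w.drop (ov u w) ++ tailText w L, ?_⟩
      simp
    · exact ih w _ hw u hu

/-- every visited word occurs in the text -/
theorem infix_text (L : List Word) : ∀ u ∈ L, u <:+: text L := by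
  cases L with
  | nil => simp
  | cons v L => exact infix_tailText v L v (List.suffix_refl v)

/-! ### closed lists -/

/-- cost of a closed list (returning to its first word) -/
def ccost : List Word → ℕ
  | [] => 0
  | v :: L => cost (v :: L ++ [v])

theorem ccost_eq_of_split (C1 C2 : List Word) (v : Word) :
    ccost (C1 ++ v :: C2) = cost (v :: (C2 ++ C1) ++ [v]) := by
  cases C1 with
  | nil => simp [ccost]
  | cons c C1 =>
    have h1 : ccost (c :: C1 ++ v :: C2) = cost ((c :: C1) ++ v :: (C2 ++ [c])) := by
      simp [ccost]
    have h2 : cost (v :: (C2 ++ c :: C1) ++ [v]) = cost ((v :: C2) ++ c :: (C1 ++ [v])) := by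
      simp
    rw [h1, h2, cost_append (c :: C1) (C2 ++ [c]) v, cost_append (v :: C2) (C1 ++ [v]) c]
    simp [Nat.add_comm]

/-- the part of the list before the first occurrence of `v` and the part behind it -/
def splitAtWord (v : Word) : List Word → List Word × List Word
  | [] => ([], [])
  | u :: L => if u = v then ([], L) else (u :: (splitAtWord v L).1, (splitAtWord v L).2)

theorem splitAtWord_spec {v : Word} {L : List Word} (h : v ∈ L) :
    L = (splitAtWord v L).1 ++ v :: (splitAtWord v L).2 := by
  induction L with
  | nil => simp at h
  | cons u L ih =>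
    by_cases huv : u = v
    · simp [splitAtWord, huv]
    · have : v ∈ L := by
        rcases List.mem_cons.1 h with h | h
        · exact absurd h.symm huv
        · exact h
      simp only [splitAtWord, huv, if_false]
      rw [List.cons_append, ← ih this]

/-- splice the closed list `C` into `L` at the common word `v` -/
def spliceAt (v : Word) (L C : List Word) : List Word :=
  (splitAtWord v L).1 ++ v :: ((splitAtWord v C).2 ++ (splitAtWord v C).1 ++
    v :: (splitAtWord v L).2)

theorem cost_spliceAt {v : Word} {L C : List Word} (hL : v ∈ L) (hC : v ∈ C) :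
    cost (spliceAt v L C) = cost L + ccost C := by
  have h1 := splitAtWord_spec hL
  have h2 := splitAtWord_spec hC
  set L1 := (splitAtWord v L).1
  set L2 := (splitAtWord v L).2
  set C1 := (splitAtWord v C).1
  set C2 := (splitAtWord v C).2
  have e1 : cost L = cost (L1 ++ [v]) + cost (v :: L2) := by
    rw [h1]; exact cost_append _ _ _
  have e2 : ccost C = cost (v :: (C2 ++ C1) ++ [v]) := by
    rw [h2]; exact ccost_eq_of_split _ _ _
  have e3 : cost (spliceAt v L C) = cost (L1 ++ [v]) + (cost (v :: (C2 ++ C1) ++ [v]) +
      cost (v :: L2)) := by
    unfold spliceAt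
    rw [cost_append]
    congr 1
    have := cost_append (v :: (C2 ++ C1)) L2 v
    simpa using this
  omega

theorem mem_spliceAt {v : Word} {L C : List Word} (hL : v ∈ L) (hC : v ∈ C) (u : Word) :
    u ∈ spliceAt v L C ↔ u ∈ L ∨ u ∈ C := by
  have h1 := splitAtWord_spec hL
  have h2 := splitAtWord_spec hC
  rw [h1, h2]
  rw [← h1, ← h2]
  unfold spliceAt
  constructor
  · intro h
    simp only [List.mem_append, List.mem_cons] at h
    rcases h with h | h | (h | h) | h | h
    · left; rw [h1]; simp [h]
    · left; rw [h]; exact hL
    · right; rw [h2]; simp [h]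
    · right; rw [h2]; simp [h]
    · left; rw [h]; exact hL
    · left; rw [h1]; simp [h]
  · intro h
    rcases h with h | h
    · rw [h1] at h
      simp only [List.mem_append, List.mem_cons] at h ⊢
      rcases h with h | h | h <;> simp [h]
    · rw [h2] at h
      simp only [List.mem_append, List.mem_cons] at h ⊢
      rcases h with h | h | h <;> simp [h]

theorem head?_spliceAt {v : Word} {L C : List Word} (hL : v ∈ L) :
    (spliceAt v L C).head? = L.head? := by
  have h1 := splitAtWord_spec hL
  conv_rhs => rw [h1]
  unfold spliceAt
  cases (splitAtWord v L).1 <;> simp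

/-- a word of `C` occurring in `L` (if any) -/
def common (L C : List Word) : Option Word := C.find? (fun v => decide (v ∈ L))

theorem common_some {L C : List Word} {v : Word} (h : common L C = some v) : v ∈ L ∧ v ∈ C := by
  refine ⟨?_, List.mem_of_find?_eq_some h⟩
  have := List.find?_some h
  simpa using this

theorem common_none {L C : List Word} (h : common L C = none) : ∀ v ∈ C, v ∉ L := by
  intro v hv
  have := List.find?_eq_none.1 h v hv
  simpa using this

/-- one pass over the closed lists: splice every list sharing a word with the current one -/
def passStep (s : List Word × List (List Word)) (C : List Word) :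
    List Word × List (List Word) :=
  match common s.1 C with
  | none => (s.1, C :: s.2)
  | some v => (spliceAt v s.1 C, s.2)

def pass (s : List Word × List (List Word)) : List Word × List (List Word) :=
  s.2.foldl passStep (s.1, [])

/-- the closure loop -/
def assembleState (Cs : List (List Word)) : List Word × List (List Word) :=
  pass^[Cs.length] ([[]], Cs)

/-- the output text -/
def assemble (Cs : List (List Word)) : Word := text (assembleState Cs).1

/-- the closed lists that are connected to the empty word -/
inductive Reach (Cs : List (List Word)) : List Word → Prop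
  | base {C : List Word} : C ∈ Cs → [] ∈ C → Reach Cs C
  | step {C C' : List Word} {v : Word} : Reach Cs C → C' ∈ Cs → v ∈ C → v ∈ C' → Reach Cs C'

theorem Reach.mem {Cs : List (List Word)} {C : List Word} (h : Reach Cs C) : C ∈ Cs := by
  cases h <;> assumption

/-- invariants of one fold -/
theorem fold_spec (R : List (List Word)) (s : List Word × List (List Word)) :
    let t := R.foldl passStep s
    cost t.1 + (t.2.map ccost).sum = cost s.1 + (s.2.map ccost).sum + (R.map ccost).sum ∧
    t.1.head? = s.1.head? ∧
    (∀ v ∈ s.1, v ∈ t.1) ∧
    (∀ C ∈ s.2, C ∈ t.2) ∧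
    (∀ C ∈ R, C ∈ t.2 ∨ ∀ v ∈ C, v ∈ t.1) ∧
    (∀ C ∈ t.2, C ∈ s.2 ∨ C ∈ R) ∧
    t.2.length ≤ s.2.length + R.length ∧
    (t.2.length = s.2.length + R.length → ∀ C ∈ R, common s.1 C = none) := by
  induction R generalizing s with
  | nil => simp
  | cons D R ih =>
    simp only [List.foldl_cons]
    have key := ih (passStep s D)
    simp only at key
    obtain ⟨h1, h2, h3, h4, h5, h6, h7, h8⟩ := key
    rcases hc : common s.1 D with _ | v
    · have hs : passStep s D = (s.1, D :: s.2) := by simp [passStep, hc]
      rw [hs] at h1 h2 h3 h4 h5 h6 h7 h8 ⊢
      simp only at h1 h2 h3 h4 h5 h6 h7 h8 ⊢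
      refine ⟨?_, h2, h3, ?_, ?_, ?_, ?_, ?_⟩
      · simp only [List.map_cons, List.sum_cons] at h1 ⊢; omega
      · intro C hC; exact h4 C (List.mem_cons_of_mem _ hC)
      · intro C hC
        rcases List.mem_cons.1 hC with rfl | hC
        · left; exact h4 C List.mem_cons_self
        · exact h5 C hC
      · intro C hC
        rcases h6 C hC with h | h
        · rcases List.mem_cons.1 h with rfl | h
          · right; exact List.mem_cons_self
          · left; exact h
        · right; exact List.mem_cons_of_mem _ h
      · simp only [List.length_cons] at h7 ⊢; omega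
      · intro hl C hC
        rcases List.mem_cons.1 hC with rfl | hC
        · exact hc
        · exact h8 (by simp only [List.length_cons] at hl ⊢; omega) C hC
    · obtain ⟨hv1, hv2⟩ := common_some hc
      have hs : passStep s D = (spliceAt v s.1 D, s.2) := by simp [passStep, hc]
      rw [hs] at h1 h2 h3 h4 h5 h6 h7 h8 ⊢
      simp only at h1 h2 h3 h4 h5 h6 h7 h8 ⊢
      refine ⟨?_, ?_, ?_, h4, ?_, ?_, ?_, ?_⟩
      · rw [cost_spliceAt hv1 hv2] at h1
        simp only [List.map_cons, List.sum_cons] at h1 ⊢; omega
      · rw [h2, head?_spliceAt hv1]
      · intro u hu; exact h3 u ((mem_spliceAt hv1 hv2 u).2 (Or.inl hu))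
      · intro C hC
        rcases List.mem_cons.1 hC with rfl | hC
        · right; intro u hu; exact h3 u ((mem_spliceAt hv1 hv2 u).2 (Or.inr hu))
        · exact h5 C hC
      · intro C hC
        rcases h6 C hC with h | h
        · left; exact h
        · right; exact List.mem_cons_of_mem _ h
      · simp only [List.length_cons] at h7 ⊢; omega
      · intro hl
        exfalso
        simp only [List.length_cons] at hl; omega

/-- the invariant of the closure loop -/
structure Inv (Cs : List (List Word)) (s : List Word × List (List Word)) : Prop where
  cost_eq : cost s.1 + (s.2.map ccost).sum = (Cs.map ccost).sum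
  head : s.1.head? = some []
  cover : ∀ C ∈ Cs, C ∈ s.2 ∨ ∀ v ∈ C, v ∈ s.1
  sub : ∀ C ∈ s.2, C ∈ Cs

theorem Inv.init (Cs : List (List Word)) : Inv Cs ([[]], Cs) where
  cost_eq := by simp
  head := rfl
  cover := fun C hC => Or.inl hC
  sub := fun C hC => hC

theorem Inv.pass {Cs : List (List Word)} {s : List Word × List (List Word)} (h : Inv Cs s) :
    Inv Cs (pass s) := by
  obtain ⟨h1, h2, h3, -, h5, h6, -, -⟩ := fold_spec s.2 (s.1, [])
  simp only at h1 h2 h3 h5 h6
  constructor
  · have := h.cost_eq
    unfold Crest.Agent.R287.pass
    simp only [List.map_nil, List.sum_nil] at h1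
    omega
  · unfold Crest.Agent.R287.pass; rw [h2, h.head]
  · intro C hC
    unfold Crest.Agent.R287.pass
    rcases h.cover C hC with h' | h'
    · exact h5 C h'
    · right; intro v hv; exact h3 v (h' v hv)
  · intro C hC
    unfold Crest.Agent.R287.pass at hC
    rcases h6 C hC with h' | h'
    · simp at h'
    · exact h.sub C h'

theorem pass_length_lt {Cs : List (List Word)} {s : List Word × List (List Word)} (h : Inv Cs s)
    (hr : ∀ C ∈ Cs, Reach Cs C) (hne : s.2 ≠ []) : (pass s).2.length < s.2.length := by
  obtain ⟨-, -, -, -, -, -, h7, h8⟩ := fold_spec s.2 (s.1, [])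
  simp only [List.length_nil, Nat.zero_add] at h7 h8
  unfold pass
  by_contra hlt
  have heq : (List.foldl passStep (s.1, []) s.2).2.length = s.2.length := by omega
  have hno := h8 heq
  -- no reachable list is in `s.2`
  have key : ∀ C, Reach Cs C → C ∉ s.2 := by
    intro C hC
    induction hC with
    | base hmem hnil =>
      intro hin
      have h1 := common_none (hno _ hin) _ hnil
      apply h1
      have := h.head
      cases hs : s.1 with
      | nil => rw [hs] at this; simp at this
      | cons a l => rw [hs] at this; simp at this; rw [this]; exact List.mem_cons_self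
    | step hC hmem hv hv' ih =>
      intro hin
      rcases h.cover _ hC.mem with h' | h'
      · exact ih h'
      · exact common_none (hno _ hin) _ hv' (h' _ hv)
  cases hs : s.2 with
  | nil => exact hne hs
  | cons C l =>
    have hC : C ∈ s.2 := by rw [hs]; exact List.mem_cons_self
    exact key C (hr C (h.sub C hC)) hC

theorem pass_nil {s : List Word × List (List Word)} (h : s.2 = []) : (pass s).2 = [] := by
  unfold pass; rw [h]; rfl

theorem assembleState_spec {Cs : List (List Word)} (hr : ∀ C ∈ Cs, Reach Cs C) :
    Inv Cs (assembleState Cs) ∧ (assembleState Cs).2 = [] := by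
  have key : ∀ n, Inv Cs (pass^[n] ([[]], Cs)) ∧
      ((pass^[n] ([[]], Cs)).2 = [] ∨ (pass^[n] ([[]], Cs)).2.length + n ≤ Cs.length) := by
    intro n
    induction n with
    | zero => exact ⟨Inv.init Cs, Or.inr (by simp)⟩
    | succ n ih =>
      obtain ⟨hI, hl⟩ := ih
      rw [Function.iterate_succ_apply']
      refine ⟨hI.pass, ?_⟩
      by_cases hnil : (pass^[n] ([[]], Cs)).2 = []
      · left; exact pass_nil hnil
      · right
        have := pass_length_lt hI hr hnil
        rcases hl with hl | hl
        · exact absurd hl hnil
        · omega
  obtain ⟨h1, h2⟩ := key Cs.length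
  refine ⟨h1, ?_⟩
  rcases h2 with h2 | h2
  · exact h2
  · apply List.length_eq_zero_iff.1
    unfold assembleState
    omega

/-- **Output engine.** If all closed lists are connected to the empty word then the output text
contains all visited words and its length is the sum of the costs. -/
theorem assemble_spec {Cs : List (List Word)} (hr : ∀ C ∈ Cs, Reach Cs C) :
    (∀ C ∈ Cs, ∀ v ∈ C, v <:+: assemble Cs) ∧
    (assemble Cs).length = (Cs.map ccost).sum := by
  obtain ⟨hI, hnil⟩ := assembleState_spec hr
  constructor
  · intro C hC v hv
    rcases hI.cover C hC with h | h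
    · rw [hnil] at h; simp at h
    · exact infix_text _ v (h v hv)
  · unfold assemble
    have h1 := hI.cost_eq
    rw [hnil] at h1
    simp only [List.map_nil, List.sum_nil, Nat.add_zero] at h1
    have h2 := hI.head
    cases hs : (assembleState Cs).1 with
    | nil => rw [hs] at h2; simp at h2
    | cons a l =>
      rw [hs] at h2 h1
      simp at h2
      subst h2
      rw [length_text_cons, ← h1]
      simp

end Crest.Agent.R287
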