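import Crest.Agent.R287.Ring
import Crest.Agent.R287.Visit
import Crest.Agent.R287.Star

/-!
Row 287: word level layer of the cost side: distances between windows of a common text, monotone routes
through the empty word, near connectors.
-/

set_option autoImplicit false

namespace Crest.Agent.R287

theorem win_prefix_win (κ : ℤ → ℕ) {i j k : ℤ} (h : j ≤ k) : win κ i j <+: win κ i k := by
  by_cases hij : i ≤ j
  · rw [win_append κ hij h]; exact List.prefix_append _ _
  · rw [win_eq_nil κ (by omega)]; exact List.nil_prefix

theorem win_suffix_win (κ : ℤ → ℕ) {i j k : ℤ} (h : i ≤ j) : win κ j k <:+ win κ i k := by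
  by_cases hjk : j ≤ k
  · rw [win_append κ h hjk]; exact List.suffix_append _ _
  · rw [win_eq_nil κ (show k ≤ j by omega)]; exact List.nil_suffix

/-- the distance of two windows of one text in monotone position -/
theorem dist_win_le (κ : ℤ → ℕ) {a b a' b' : ℤ} (ha : a ≤ a') (hb : b ≤ b') (hab' : a' ≤ b') :
    (dist (win κ a b) (win κ a' b') : ℤ) ≤ b' - b ∨
      (b < a' ∧ (dist (win κ a b) (win κ a' b') : ℤ) ≤ b' - a') := by
  by_cases h : a' ≤ b
  · left
    have := dist_le (win_suffix_win κ (k := b) ha) (win_prefix_win κ (i := a') hb)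
    rw [length_win, length_win] at this
    omega
  · right
    have := dist_le_length (win κ a b) (win κ a' b')
    rw [length_win] at this
    constructor <;> omega

theorem dist_win_le' (κ : ℤ → ℕ) {a b a' b' : ℤ} (ha : a ≤ a') (hb : b ≤ b') (hab' : a' ≤ b') :
    (dist (win κ a b) (win κ a' b') : ℤ) ≤ b' - b := by
  rcases dist_win_le κ ha hb hab' with h | ⟨h, h'⟩
  · exact h
  · omega

theorem dist_nil_right (v : Word) : dist v [] = 0 := by
  have := dist_le_length v []
  simpa using this

theorem dist_nil_left (v : Word) : dist [] v = v.length := by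
  unfold dist
  rw [ov_nil]; rfl

/-- cost of a monotone list of windows of one text -/
theorem cost_win_chain (κ : ℤ → ℕ) (L : List (ℤ × ℤ)) (p : ℤ × ℤ)
    (hc : List.IsChain (fun q r : ℤ × ℤ => q.1 ≤ r.1 ∧ q.2 ≤ r.2) (p :: L))
    (hle : ∀ q ∈ p :: L, q.1 ≤ q.2) :
    (cost ((p :: L).map fun q => win κ q.1 q.2) : ℤ) ≤ ((p :: L).getLast (by simp)).2 - p.2 := by
  induction L generalizing p with
  | nil => simp
  | cons q L ih =>
    rw [List.isChain_cons_cons] at hc
    have h1 := ih q hc.2 (fun r hr => hle r (List.mem_cons_of_mem _ hr))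
    have h2 := dist_win_le' κ hc.1.1 hc.1.2 (hle q (by simp))
    simp only [List.map_cons, cost_cons_cons, Nat.cast_add] at h1 ⊢
    rw [List.getLast_cons (by simp)]
    linarith

/-- closed route through the empty word along a monotone list of windows of one text -/
theorem ccost_route (κ : ℤ → ℕ) (L : List (ℤ × ℤ)) (p : ℤ × ℤ)
    (hc : List.IsChain (fun q r : ℤ × ℤ => q.1 ≤ r.1 ∧ q.2 ≤ r.2) (p :: L))
    (hle : ∀ q ∈ p :: L, q.1 ≤ q.2) :
    (ccost ([] :: (p :: L).map fun q => win κ q.1 q.2) : ℤ) ≤
      ((p :: L).getLast (by simp)).2 - p.1 := by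
  have h1 := cost_win_chain κ L p hc hle
  have hlast : ∀ (M : List Word), M ≠ [] → cost (M ++ [[]]) = cost M := by
    intro M hM
    obtain ⟨M', v, rfl⟩ : ∃ M' v, M = M' ++ [v] :=
      ⟨M.dropLast, M.getLast hM, (List.dropLast_append_getLast hM).symm⟩
    rw [List.append_assoc, List.singleton_append, cost_append]
    simp [dist_nil_right]
  have h2 : ccost ([] :: (p :: L).map fun q => win κ q.1 q.2) =
      (win κ p.1 p.2).length + cost ((p :: L).map fun q => win κ q.1 q.2) := by
    show cost (([] :: (p :: L).map fun q => win κ q.1 q.2) ++ [[]]) = _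
    rw [hlast _ (by simp)]
    simp [dist_nil_left]
  rw [h2, length_win]
  have := hle p (by simp)
  push_cast
  omega

/-- near connector: `y` is a prefix of `v`, `v` has period `w`, and `v` is at most `w` longer than `y` -/
theorem near_connector {y v : Word} {w : ℕ} (hy : y <+: v) (hw : v.drop w <+: v)
    (hle : v.length ≤ y.length + w) : dist v y + dist y v ≤ w := by
  have h1 : dist y v ≤ v.length - y.length := dist_of_prefix hy
  -- the suffix v.drop w (or the whole y if y is short) is a prefix of y
  have h2 : v.drop w <+: y := by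
    rw [List.prefix_iff_eq_take] at hw hy
    have hlen : (v.drop w).length ≤ y.length := by rw [List.length_drop]; omega
    rw [List.prefix_iff_eq_take]
    conv_rhs => rw [hy, List.take_take]
    conv_lhs => rw [hw]
    rw [min_eq_left hlen]
  have h3 : dist v y ≤ y.length - (v.drop w).length := dist_le (List.drop_suffix w v) h2
  have h4 := hy.length_le
  rw [List.length_drop] at h3
  omega

end Crest.Agent.R287
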