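import Crest.Agent.R287.AsmDefs
import Crest.Agent.R287.RouteW
import Crest.Agent.R287.AsmMix

/-!
Row 287: the routes `v.inits` (from the empty word up to `v` and back) are good for hubs all of whose
leaves have a visited word that is a prefix of `v` (same text case; single linked leaf).
-/

set_option autoImplicit false

namespace Crest.Agent.R287.Asm

theorem cost_map_inits (v p : Word) : cost (v.inits.map (fun t => p ++ t)) ≤ v.length := by
  induction v generalizing p with
  | nil => simp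
  | cons a v ih =>
    have h1 := ih (p ++ [a])
    rw [List.inits_cons, List.map_cons, List.map_map]
    have e : ((fun t => p ++ t) ∘ fun t => a :: t) = fun t => (p ++ [a]) ++ t := by
      funext t; simp
    rw [e]
    obtain ⟨L, hL⟩ : ∃ L, v.inits.map (fun t => (p ++ [a]) ++ t) = (p ++ [a]) :: L := by
      cases v with
      | nil => exact ⟨[], by simp⟩
      | cons b v => exact ⟨_, by rw [List.inits_cons, List.map_cons, List.append_nil]⟩
    rw [hL] at h1 ⊢
    rw [List.append_nil, cost_cons_cons, List.length_cons]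
    have := dist_append p a
    omega

theorem cost_append_nil {M : List Word} (hM : M ≠ []) : cost (M ++ [[]]) = cost M := by
  obtain ⟨M', v, rfl⟩ : ∃ M' v, M = M' ++ [v] :=
    ⟨M.dropLast, M.getLast hM, (List.dropLast_append_getLast hM).symm⟩
  rw [List.append_assoc, List.singleton_append, cost_append]
  simp [dist_nil_right]

theorem ccost_inits (v : Word) : ccost v.inits ≤ v.length := by
  have h1 := cost_map_inits v []
  simp only [List.nil_append, List.map_id'] at h1
  obtain ⟨L, hL⟩ : ∃ L, v.inits = [] :: L := by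
    cases v with
    | nil => exact ⟨[], by simp⟩
    | cons b v => exact ⟨_, List.inits_cons b v⟩
  rw [hL] at h1 ⊢
  show cost ([] :: L ++ [[]]) ≤ _
  rw [cost_append_nil (by simp)]
  exact h1

/-- the route `v.inits` is good -/
theorem inits_good {A : WC} {L : List WC} {v : Word} (hlen : v.length ≤ wtSum (A :: L))
    (hA : ∃ y ∈ A.tour, y <+: v) (hK : ∀ K ∈ L, ∃ y ∈ K.tour, y <+: v) :
    good A L v.inits = true := by
  have htouch : ∀ K : WC, (∃ y ∈ K.tour, y <+: v) → touches v.inits K = true := by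
    rintro K ⟨y, hy, hyv⟩
    unfold touches
    rw [List.any_eq_true]
    exact ⟨y, List.mem_inits y v |>.2 hyv, by simpa using hy⟩
  unfold good
  simp only [Bool.and_eq_true, decide_eq_true_eq, List.all_eq_true]
  refine ⟨⟨List.mem_inits [] v |>.2 List.nil_prefix, (ccost_inits v).trans hlen⟩, ?_⟩
  intro K hKm
  rcases List.mem_cons.1 hKm with rfl | hKm
  · exact htouch _ hA
  · exact htouch _ (hK K hKm)

theorem inits_mem_cands {A : WC} {L : List WC} {v : Word} {K : WC} (hK : K ∈ A :: L)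
    (hv : v ∈ K.tour) : v.inits ∈ cands A L := by
  unfold cands
  rw [List.mem_append]
  left
  rw [List.mem_map]
  exact ⟨v, List.mem_flatMap.2 ⟨K, hK, hv⟩, rfl⟩

/-- existence of a good candidate of the form `v.inits` -/
theorem exists_good_inits {A : WC} {L : List WC} {v : Word} (hv : v ∈ A.tour)
    (hlen : v.length ≤ wtSum (A :: L)) (hK : ∀ K ∈ L, ∃ y ∈ K.tour, y <+: v) :
    ∃ r ∈ cands A L, good A L r = true :=
  ⟨v.inits, inits_mem_cands (List.mem_cons_self) hv, inits_good hlen ⟨v, hv, List.prefix_refl v⟩ hK⟩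

theorem wt_le_wtSum (A : WC) (L : List WC) : A.wt ≤ wtSum (A :: L) := by
  simp [wtSum]

/-! ### ring level: the same text case -/

open Crest.Agent.R287.Star

/-- the route up to the bottom of a non-wrapping component touches all components of the same text
below it -/
theorem same_good {V : WC} {RV : Ring} (hwV : V.wt = RV.w) (hlV : (V.lv : ℤ) = RV.lev)
    (htV : ∀ v, v ∈ V.tour ↔ ∃ i j, RV.Vis i j ∧ v = win RV.κ i j) (hnw : V.wrap = false)
    {L : List WC}
    (hL : ∀ K ∈ L, ∃ R : Ring, (∀ v, v ∈ K.tour ↔ ∃ i j, R.Vis i j ∧ v = win R.κ i j) ∧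
      ∃ c, (∀ x, RV.κ x = R.κ (x + c)) ∧ ∀ a b, RV.Vis a b → Over RV R a b c) :
    ∃ r ∈ cands V L, good V L r = true := by
  obtain ⟨i, _, _, hi⟩ := RV.exists_lev
  have hv : RV.Vis i (RV.F (i - 1)) := ⟨le_refl _, RV.mono (by omega)⟩
  have hF := RV.Fgt (i - 1)
  have hlen : (win RV.κ i (RV.F (i - 1))).length = V.lv := by
    rw [length_win]; omega
  have hle : V.lv ≤ V.wt := by
    unfold WC.wrap at hnw
    rw [decide_eq_false_iff_not] at hnw
    omega
  refine exists_good_inits (v := win RV.κ i (RV.F (i - 1))) ((htV _).2 ⟨i, _, hv, rfl⟩)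
    (by rw [hlen]; exact hle.trans (wt_le_wtSum V L)) ?_
  intro K hK
  obtain ⟨R, ht, c, hc, hall⟩ := hL K hK
  have ho := hall i _ hv
  refine ⟨win R.κ (i + c) (R.F (i + c - 1)), (ht _).2 ⟨i + c, _, ⟨le_refl _, R.mono (by omega)⟩, rfl⟩,
    ?_⟩
  have e : win R.κ (i + c) (R.F (i + c - 1)) = win RV.κ i (R.F (i + c - 1) - c) := by
    rw [win_eq_iff _ _ (by ring)]
    intro n _ _
    rw [hc]; congr 1; ring
  rw [e]
  apply win_prefix_win
  have := ho.2.2
  rw [show i - 1 + c = i + c - 1 by ring] at this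
  exact this

/-- a common visited word makes near -/
theorem near_of_common {K A : WC} {v : Word} (hK : v ∈ K.tour) (hA : v ∈ A.tour) :
    near K A = true := by
  rw [near, Option.isSome_iff_ne_none]
  unfold nearPair
  rw [Ne, List.find?_eq_none]
  push Not
  refine ⟨(v, v), ?_, ?_⟩
  · rw [List.mem_flatMap]
    exact ⟨v, hK, List.mem_map.2 ⟨v, hA, rfl⟩⟩
  · simp [dist_self]

/-- **field `h3` of the assembly hypotheses**, from the star theorem `hstar` -/
theorem h3_of_rings (Cs : List WC) (nodup : (Cs.map WC.num).Nodup) (R : WC → Ring)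
    (hw : ∀ K ∈ Cs, K.wt = (R K).w) (hl : ∀ K ∈ Cs, (K.lv : ℤ) = (R K).lev)
    (ht : ∀ K ∈ Cs, ∀ v, v ∈ K.tour ↔ ∃ i j, (R K).Vis i j ∧ v = win (R K).κ i j)
    (hstar : ∀ V ∈ Cs, ∀ L : List WC, L ≠ [] → (∀ K ∈ L, K ∈ Cs) → L.Nodup →
      (∀ K ∈ L, K.wrap = true ∧ overC V K = true ∧ near K V = false ∧
        ∀ c, ¬ ∀ x, (R V).κ x = (R K).κ (x + c)) → ∃ r ∈ cands V L, good V L r = true) :
    ∀ V ∈ Cs, V.wrap = false → ∀ L : List WC, (∀ K ∈ L, K ∈ Cs) → L.Nodup →
    (∀ K ∈ L, K.wrap = true ∧ isolated Cs K = true ∧ overC V K = true ∧ near K V = false) →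
    ∃ r ∈ cands V L, good V L r = true := by
  intro V hV hnw L hLC hLn hL
  by_cases hL0 : L = []
  · subst hL0
    exact same_good (hw V hV) (hl V hV) (ht V hV) hnw (by simp)
  have hwrap : ∀ K ∈ L, (R K).Wrap := by
    intro K hK
    have h1 := (hL K hK).1
    unfold WC.wrap at h1
    rw [decide_eq_true_iff] at h1
    have h2 := hw K (hLC K hK)
    have h3 := hl K (hLC K hK)
    show ((R K).w : ℤ) < (R K).lev
    omega
  have hover : ∀ K : {K // K ∈ L}, ∃ a b c, Over (R V) (R K.1) a b c := by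
    rintro ⟨K, hK⟩
    have h1 := (hL K hK).2.2.1
    unfold overC at h1
    rw [List.any_eq_true] at h1
    obtain ⟨v, hv, hov⟩ := h1
    obtain ⟨a, b, hvis, rfl⟩ := (ht V hV v).1 hv
    obtain ⟨c, hc⟩ := Mix.over_of_overW (hw K (hLC K hK)) (hwrap K hK) (ht K (hLC K hK)) hvis hov
    exact ⟨a, b, c, hc⟩
  have hno : ∀ (K : {K // K ∈ L}) a b c, Over (R V) (R K.1) a b c → ¬ (R K.1).Vis (a + c) (b + c) := by
    rintro ⟨K, hK⟩ a b c ho hvis
    have h1 : near K V = true := by
      apply near_of_common (v := win (R V).κ a b)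
      · rw [ht K (hLC K hK)]
        refine ⟨a + c, b + c, hvis, ?_⟩
        rw [win_eq_iff _ _ (by ring)]
        intro n h0 h1
        rw [ho.2.1 (a + n) (by omega) (by omega)]
        congr 1; ring
      · rw [ht V hV]
        exact ⟨a, b, ho.1, rfl⟩
    rw [(hL K hK).2.2.2] at h1
    exact absurd h1 (by simp)
  have hns : ∀ K K' : {K // K ∈ L}, K ≠ K' → ¬ Mix.Short (R K.1) (R K'.1) := by
    rintro ⟨K, hK⟩ ⟨K', hK'⟩ hne hs
    have hne' : K.num ≠ K'.num := by
      intro e
      apply hne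
      have := List.inj_on_of_nodup_map nodup (hLC K hK) (hLC K' hK') e
      simp [this]
    have h1 : overS K' K = true :=
      (Mix.overS_iff (hw K' (hLC K' hK')) (hw K (hLC K hK)) (hwrap K hK) (ht K' (hLC K' hK'))
        (ht K (hLC K hK))).2 hs
    have h2 : linked K K' = true := by
      unfold linked
      rw [(hL K hK).1, (hL K' hK').1, h1]
      simp [hne']
    have h3 := (hL K hK).2.1
    unfold isolated partners at h3
    rw [List.isEmpty_iff, List.filter_eq_nil_iff] at h3
    exact h3 K' (hLC K' hK') h2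
  rcases Mix.mixed (R V) (fun K : {K // K ∈ L} => R K.1) (fun K => hwrap K.1 K.2) hover hno hns with
    h | h
  · apply hstar V hV L hL0 hLC hLn
    intro K hK
    exact ⟨(hL K hK).1, (hL K hK).2.2.1, (hL K hK).2.2.2, fun c => h ⟨K, hK⟩ c⟩
  · apply same_good (hw V hV) (hl V hV) (ht V hV) hnw
    intro K hK
    obtain ⟨c, h1, h2⟩ := h ⟨K, hK⟩
    exact ⟨R K, ht K (hLC K hK), c, h1, fun a b hv => (h2 a b hv).1⟩

end Crest.Agent.R287.Asm
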