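import Mathlib

/-!
# Row 287 (S0432): counting occurrences of a word in a peak

`pcnt v d n`  : occurrences of `v` in `d` starting at a position `< |d| - n`.
-/

set_option autoImplicit false

namespace Crest.Agent.R287

/-- number of positions `r < |d| - n` at which `v` occurs in `d` -/
def pcnt (v d : List ℕ) (n : ℕ) : ℕ :=
  (List.range (d.length - n)).countP (fun r => decide (v <+: d.drop r))

theorem countP_range_eq_sum (p : ℕ → Bool) (n : ℕ) :
    (List.range n).countP p = ∑ r ∈ Finset.range n, (if p r then 1 else 0) := by
  induction n with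
  | zero => simp
  | succ n ih =>
    rw [List.range_succ, List.countP_append, ih, Finset.sum_range_succ]
    simp [List.countP_cons]

theorem pcnt_eq_sum (v d : List ℕ) (n : ℕ) :
    pcnt v d n = ∑ r ∈ Finset.range (d.length - n), (if v <+: d.drop r then 1 else 0) := by
  rw [pcnt, countP_range_eq_sum]
  simp

theorem cons_prefix_drop_iff (a : ℕ) (v d : List ℕ) (r : ℕ) :
    (a :: v) <+: d.drop r ↔ d[r]? = some a ∧ v <+: d.drop (r + 1) := by
  rcases lt_or_ge r d.length with h | h
  · rw [List.drop_eq_getElem_cons h, List.cons_prefix_cons, List.getElem?_eq_getElem h]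
    simp [eq_comm]
  · rw [List.drop_eq_nil_of_le h, List.getElem?_eq_none h]
    simp

/-- sum over the left letters -/
theorem sum_pcnt_cons (A : Finset ℕ) (v d : List ℕ) (n : ℕ) (hn : n ≤ d.length)
    (hA : ∀ a ∈ d, a ∈ A) :
    (∑ a ∈ A, pcnt (a :: v) d n) + (if v <+: d then 1 else 0)
      = pcnt v d n + (if v <+: d.drop (d.length - n) then 1 else 0) := by
  have h1 : (∑ a ∈ A, pcnt (a :: v) d n)
      = ∑ r ∈ Finset.range (d.length - n), (if v <+: d.drop (r + 1) then 1 else 0) := by
    simp_rw [pcnt_eq_sum]
    rw [Finset.sum_comm]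
    refine Finset.sum_congr rfl fun r hr => ?_
    have hr' : r < d.length := by
      have := Finset.mem_range.1 hr
      omega
    simp_rw [cons_prefix_drop_iff, List.getElem?_eq_getElem hr']
    by_cases hv : v <+: d.drop (r + 1)
    · simp only [hv, and_true, Option.some.injEq, if_true]
      rw [Finset.sum_ite_eq]
      simp [hA _ (List.getElem_mem hr')]
    · simp [hv]
  rw [h1, pcnt_eq_sum]
  have h2 := Finset.sum_range_succ' (fun r => if v <+: d.drop r then 1 else 0) (d.length - n)
  have h3 := Finset.sum_range_succ (fun r => if v <+: d.drop r then 1 else 0) (d.length - n)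
  simp only [List.drop_zero] at h2
  omega

theorem append_singleton_prefix_iff (b : ℕ) (v e : List ℕ) :
    (v ++ [b]) <+: e ↔ v <+: e ∧ e[v.length]? = some b := by
  constructor
  · rintro ⟨t, rfl⟩
    refine ⟨⟨[b] ++ t, by simp⟩, by simp⟩
  · rintro ⟨⟨t, rfl⟩, h⟩
    cases t with
    | nil => simp at h
    | cons c t =>
      simp at h
      subst h
      exact ⟨t, by simp⟩

/-- sum over the right letters -/
theorem sum_pcnt_append (A : Finset ℕ) (v d : List ℕ) (n : ℕ)
    (hA : ∀ a ∈ d, a ∈ A) :
    (∑ b ∈ A, pcnt (v ++ [b]) d n) + (if v <:+ d ∧ n < v.length then 1 else 0) = pcnt v d n := by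
  simp_rw [pcnt_eq_sum]
  rw [Finset.sum_comm]
  have key : ∀ r ∈ Finset.range (d.length - n),
      (∑ b ∈ A, if (v ++ [b]) <+: d.drop r then 1 else 0)
        + (if v <+: d.drop r ∧ r + v.length = d.length then 1 else 0)
        = (if v <+: d.drop r then 1 else 0) := by
    intro r hr
    have hr' : r < d.length - n := Finset.mem_range.1 hr
    by_cases hv : v <+: d.drop r
    · have hle : v.length ≤ d.length - r := by
        have := hv.length_le
        simpa using this
      rcases Nat.lt_or_ge (r + v.length) d.length with hlt | hge
      · have e : ∀ b, ((v ++ [b]) <+: d.drop r) ↔ d[r + v.length] = b := by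
          intro b
          rw [append_singleton_prefix_iff, List.getElem?_drop, List.getElem?_eq_getElem hlt]
          simp [hv]
        simp_rw [e]
        rw [Finset.sum_ite_eq]
        simp only [hA _ (List.getElem_mem hlt), if_true, hv, true_and]
        rw [if_neg (by omega)]
      · have e : ∀ b, ¬ ((v ++ [b]) <+: d.drop r) := by
          intro b hb
          have := hb.length_le
          simp at this
          omega
        simp only [e, if_false, Finset.sum_const_zero, hv, true_and, if_true]
        rw [if_pos (by omega)]
    · have e : ∀ b, ¬ ((v ++ [b]) <+: d.drop r) := by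
        intro b hb
        exact hv ((List.prefix_append v [b]).trans hb)
      simp [e, hv]
  have h2 : (∑ r ∈ Finset.range (d.length - n),
      (if v <+: d.drop r ∧ r + v.length = d.length then 1 else 0))
      = (if v <:+ d ∧ n < v.length then 1 else 0) := by
    by_cases hc : v <:+ d ∧ n < v.length
    · rw [if_pos hc]
      obtain ⟨hs, hn⟩ := hc
      have hl := hs.length_le
      have hmem : d.length - v.length ∈ Finset.range (d.length - n) := by
        rw [Finset.mem_range]; omega
      rw [Finset.sum_eq_single_of_mem (d.length - v.length) hmem]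
      · rw [if_pos]
        refine ⟨?_, by omega⟩
        rw [← List.suffix_iff_eq_drop.1 hs]
      · intro r _ hr
        rw [if_neg]
        rintro ⟨_, h⟩
        omega
    · rw [if_neg hc]
      refine Finset.sum_eq_zero fun r hr => ?_
      rw [if_neg]
      rintro ⟨h1, h2⟩
      apply hc
      have hr' : r < d.length - n := Finset.mem_range.1 hr
      refine ⟨?_, by omega⟩
      have h3 : v = d.drop r := by
        apply h1.eq_of_length
        simp
        omega
      rw [h3]
      exact List.drop_suffix _ _
  rw [← h2, ← Finset.sum_add_distrib]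
  exact Finset.sum_congr rfl key


theorem pcnt_zero_of_length_lt {v d : List ℕ} {n : ℕ} (h : d.length < v.length) : pcnt v d n = 0 := by
  rw [pcnt, List.countP_eq_zero]
  intro r _
  simp only [decide_eq_true_eq]
  intro hp
  have := hp.length_le
  simp at this
  omega

/-- positions `≥ |d| - n` are irrelevant when `n < |v|` -/
theorem pcnt_eq_of_lt {v d : List ℕ} {n : ℕ} (h : n < v.length) : pcnt v d n = pcnt v d 0 := by
  rw [pcnt_eq_sum, pcnt_eq_sum]
  apply Finset.sum_subset
  · intro r hr
    rw [Finset.mem_range] at hr ⊢
    omega
  · intro r _ hr2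
    rw [if_neg]
    intro hp
    have := hp.length_le
    simp at this
    rw [Finset.mem_range] at hr2
    omega

theorem pcnt_le_zero (v d : List ℕ) (n : ℕ) : pcnt v d n ≤ pcnt v d 0 := by
  rw [pcnt_eq_sum, pcnt_eq_sum]
  apply Finset.sum_le_sum_of_subset
  intro r hr
  rw [Finset.mem_range] at hr ⊢
  omega

theorem pcnt_self_of_length_le {v x : List ℕ} (hv : x.length ≤ v.length) (hx : x ≠ []) :
    pcnt v x 0 = if v = x then 1 else 0 := by
  rw [pcnt_eq_sum]
  have hx' : 0 < x.length := List.length_pos_of_ne_nil hx
  by_cases hvx : v = x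
  · subst hvx
    rw [if_pos rfl]
    rw [Finset.sum_eq_single_of_mem 0 (by simpa using hx')]
    · simp
    · intro r _ hr
      rw [if_neg]
      intro hp
      have := hp.length_le
      simp at this
      omega
  · rw [if_neg hvx]
    refine Finset.sum_eq_zero fun r _ => ?_
    rw [if_neg]
    intro hp
    have h1 := hp.length_le
    simp at h1
    have h2 : r = 0 := by omega
    subst h2
    simp only [List.drop_zero] at hp
    exact hvx (hp.eq_of_length (by omega))

end Crest.Agent.R287
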