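import Crest.Agent.Lib.PT.ListFns2
import Crest.Agent.Lib.PT.Alphabet
import Crest.Prelude.Def_BitEnc
import Crest.Prelude.Def_Complexity

/-!
# Row 287 (S0432): input and output codes

`result_of_alg`: a typed poly-time function `A : List (List ℕ) → List ℕ` with the approximation
property gives the statement S0432.
-/

set_option autoImplicit false

namespace Crest.Agent.R287

open Crest.Agent.Lib.PT Crest.Enc

/-- binary value of a list of bits (least significant first) -/
def ofB (l : List Bool) : ℕ := l.foldr (fun b n => Nat.bit b n) 0

theorem ofB_bits (n : ℕ) : ofB n.bits = n := by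
  unfold ofB
  induction n using Nat.binaryRec' with
  | zero => simp
  | bit b n h ih =>
    rw [Nat.bits_append_bit n b h]
    simp [ih]

/-- state: (digits read, reversed), rest, finished -/
abbrev RdS := List Bool × List Bool × Bool

/-- one step of reading a natural number -/
def rdStep (s : RdS) : RdS :=
  bif s.2.2 then s else
    match s.2.1 with
    | [] => (s.1, [], true)
    | a :: t => match t with
      | [] => (s.1, [], true)
      | b :: r => bif a then (b :: s.1, r, false) else (s.1, r, true)

/-- read a natural number -/
def readNat (l : List Bool) : ℕ × List Bool :=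
  (ofB (rdStep^[l.length] ([], l, false)).1.reverse, (rdStep^[l.length] ([], l, false)).2.1)

theorem rdStep_done (k : ℕ) (a r : List Bool) : rdStep^[k] (a, r, true) = (a, r, true) := by
  induction k with
  | zero => rfl
  | succ k ih => rw [Function.iterate_succ_apply', ih]; rfl

theorem rdStep_digits (ds acc r : List Bool) :
    rdStep^[ds.length] (acc, (ds.map fun b => [true, b]).flatten ++ r, false)
      = (ds.reverse ++ acc, r, false) := by
  induction ds generalizing acc with
  | nil => simp
  | cons d ds ih =>
    rw [List.length_cons, Function.iterate_succ_apply]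
    have h : rdStep (acc, ((d :: ds).map fun b => [true, b]).flatten ++ r, false)
        = (d :: acc, (ds.map fun b => [true, b]).flatten ++ r, false) := by
      simp [rdStep]
    rw [h, ih]
    simp

theorem readNat_natCode (n : ℕ) (r : List Bool) : readNat (natCode n ++ r) = (n, r) := by
  unfold readNat natCode
  have hlen : ((n.bits.map fun b => [true, b]).flatten ++ [false, false] ++ r).length
      = (2 * n.bits.length - n.bits.length + 1 + r.length) + 1 + n.bits.length := by
    simp only [List.length_append, List.length_flatten, List.map_map, List.length_cons,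
      List.length_nil]
    have : (n.bits.map (List.length ∘ fun b => [true, b])).sum = 2 * n.bits.length := by
      induction n.bits with
      | nil => simp
      | cons a l ih => simp [ih]; omega
    omega
  have key : rdStep^[((n.bits.map fun b => [true, b]).flatten ++ [false, false] ++ r).length]
      ([], (n.bits.map fun b => [true, b]).flatten ++ [false, false] ++ r, false)
      = (n.bits.reverse, r, true) := by
    rw [hlen, Function.iterate_add_apply, List.append_assoc, rdStep_digits,
      Function.iterate_add_apply]
    simp only [List.append_nil, Function.iterate_one]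
    have h : rdStep (n.bits.reverse, [false, false] ++ r, false) = (n.bits.reverse, r, true) := by
      simp [rdStep]
    rw [h, rdStep_done]
  rw [key]
  simp [ofB_bits]

theorem rdStep_inv (s : RdS) : 2 * (rdStep s).1.length + (rdStep s).2.1.length
    ≤ 2 * s.1.length + s.2.1.length := by
  unfold rdStep
  rcases s with ⟨a, l, b⟩
  cases b
  · cases l with
    | nil => simp
    | cons x t =>
      cases t with
      | nil => simp
      | cons y r => cases x <;> simp <;> omega
  · simp

theorem rdStep_iter_inv (k : ℕ) (s : RdS) : 2 * (rdStep^[k] s).1.length + (rdStep^[k] s).2.1.length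
    ≤ 2 * s.1.length + s.2.1.length := by
  induction k with
  | zero => simp
  | succ k ih =>
    rw [Function.iterate_succ_apply']
    have := rdStep_inv (rdStep^[k] s)
    omega

theorem ofB_size (l : List Bool) : sz (ofB l) ≤ l.length := by
  unfold ofB
  rw [sz_nat]
  induction l with
  | nil => simp
  | cons b l ih =>
    simp only [List.foldr_cons, List.length_cons]
    exact (Arith.size_bit_le _ _).trans (by omega)

theorem readNat_size (l : List Bool) : 2 * sz (readNat l).1 + (readNat l).2.length ≤ l.length := by
  have h := rdStep_iter_inv l.length ([], l, false)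
  have h2 := ofB_size (rdStep^[l.length] ([], l, false)).1.reverse
  rw [List.length_reverse] at h2
  simp only [List.length_nil, Nat.mul_zero, Nat.zero_add] at h
  unfold readNat
  dsimp only
  omega

/-! ### tokens -/

/-- read one number if there is input left -/
def tokStep (s : List ℕ × List Bool) : List ℕ × List Bool :=
  bif s.2.isEmpty then s else ((readNat s.2).1 :: s.1, (readNat s.2).2)

/-- all numbers of the input -/
def tokens (l : List Bool) : List ℕ := (tokStep^[l.length] ([], l)).1.reverse

theorem tokStep_done (k : ℕ) (a : List ℕ) : tokStep^[k] (a, []) = (a, []) := by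
  induction k with
  | zero => rfl
  | succ k ih => rw [Function.iterate_succ_apply', ih]; rfl

theorem natCode_ne_nil (n : ℕ) : natCode n ≠ [] := by
  unfold natCode
  simp

theorem tokStep_natCode (n : ℕ) (a : List ℕ) (r : List Bool) :
    tokStep (a, natCode n ++ r) = (n :: a, r) := by
  unfold tokStep
  have h : (natCode n ++ r).isEmpty = false := by
    have := natCode_ne_nil n
    cases hc : natCode n with
    | nil => exact absurd hc this
    | cons b l => rfl
  simp only [h, cond_false, readNat_natCode]

theorem tokStep_iter (ns acc : List ℕ) :
    tokStep^[ns.length] (acc, (ns.map natCode).flatten) = (ns.reverse ++ acc, []) := by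
  induction ns generalizing acc with
  | nil => simp
  | cons n ns ih =>
    rw [List.length_cons, Function.iterate_succ_apply, List.map_cons, List.flatten_cons,
      tokStep_natCode, ih]
    simp

theorem length_le_natCodes (ns : List ℕ) : ns.length ≤ ((ns.map natCode).flatten).length := by
  induction ns with
  | nil => simp
  | cons n ns ih =>
    rw [List.map_cons, List.flatten_cons, List.length_append, List.length_cons]
    have : 1 ≤ (natCode n).length := List.length_pos_of_ne_nil (natCode_ne_nil n)
    omega

theorem tokens_natCodes (ns : List ℕ) : tokens ((ns.map natCode).flatten) = ns := by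
  unfold tokens
  obtain ⟨k, hk⟩ := Nat.exists_eq_add_of_le (length_le_natCodes ns)
  rw [hk, Nat.add_comm, Function.iterate_add_apply, tokStep_iter, tokStep_done]
  simp

/-! ### words -/

/-- cut one word off the list of numbers -/
def wordStep (s : List (List ℕ) × List ℕ) : List (List ℕ) × List ℕ :=
  match s.2 with
  | [] => s
  | k :: r => (r.take k :: s.1, r.drop k)

/-- cut a list of numbers into words -/
def words (l : List ℕ) : List (List ℕ) := (wordStep^[l.length] ([], l)).1.reverse

theorem wordStep_done (k : ℕ) (a : List (List ℕ)) : wordStep^[k] (a, []) = (a, []) := by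
  induction k with
  | zero => rfl
  | succ k ih => rw [Function.iterate_succ_apply', ih]; rfl

theorem wordStep_iter (S acc : List (List ℕ)) :
    wordStep^[S.length] (acc, (S.map fun s => s.length :: s).flatten) = (S.reverse ++ acc, []) := by
  induction S generalizing acc with
  | nil => simp
  | cons s S ih =>
    rw [List.length_cons, Function.iterate_succ_apply, List.map_cons, List.flatten_cons]
    have h : wordStep (acc, (s.length :: s) ++ (S.map fun s => s.length :: s).flatten)
        = (s :: acc, (S.map fun s => s.length :: s).flatten) := by
      unfold wordStep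
      simp
    rw [h, ih]
    simp

theorem words_flatten (S : List (List ℕ)) : words ((S.map fun s => s.length :: s).flatten) = S := by
  unfold words
  have hle : S.length ≤ ((S.map fun s => s.length :: s).flatten).length := by
    induction S with
    | nil => simp
    | cons s S ih =>
      rw [List.map_cons, List.flatten_cons, List.length_append, List.length_cons, List.length_cons]
      omega
  obtain ⟨k, hk⟩ := Nat.exists_eq_add_of_le hle
  rw [hk, Nat.add_comm, Function.iterate_add_apply, wordStep_iter, wordStep_done]
  simp

/-- parse the input -/
def parse (l : List Bool) : List (List ℕ) := words (tokens l).tail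

theorem parse_code (S : List (List ℕ)) :
    parse (natCode S.length ++ (S.map listCode).flatten) = S := by
  have h : natCode S.length ++ (S.map listCode).flatten
      = ((S.length :: (S.map fun s => s.length :: s).flatten).map natCode).flatten := by
    rw [List.map_cons, List.flatten_cons]
    congr 1
    induction S with
    | nil => simp
    | cons s S ih =>
      rw [List.map_cons, List.flatten_cons, ih, List.map_cons, List.flatten_cons, List.map_append,
        List.flatten_append]
      rfl
  rw [h]
  unfold parse
  rw [tokens_natCodes, List.tail_cons, words_flatten]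

/-! ### polynomial time -/

section pt

variable {γ : Type} [PTCode γ]

theorem ptf_rdStep {s : γ → RdS} (hs : PTF s) : PTF (fun c => rdStep (s c)) := by
  have h1 : PTF (fun s : RdS => match s.2.1 with
      | [] => ((s.1, [], true) : RdS)
      | a :: t => match t with
        | [] => (s.1, [], true)
        | b :: r => bif a then (b :: s.1, r, false) else (s.1, r, true)) := by
    have h0 := PTF.listCasesOn (s := fun p : RdS × Bool × List Bool => p.2.2)
      (f := fun p => ((p.1.1, [], true) : RdS))
      (g := fun p b r => bif p.2.1 then ((b :: p.1.1, r, false) : RdS) else (p.1.1, r, true))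
      (by fun_prop) (by fun_prop) (PTF.cond (by fun_prop) (by fun_prop) (by fun_prop))
    have h := PTF.listCasesOn (s := fun s : RdS => s.2.1) (f := fun s => ((s.1, [], true) : RdS))
      (g := fun s a t => match t with
        | [] => ((s.1, [], true) : RdS)
        | b :: r => bif a then (b :: s.1, r, false) else (s.1, r, true)) (by fun_prop)
      (by fun_prop) (PTF.of_eq h0 (fun p => by rcases p.2.2 with _ | ⟨b, r⟩ <;> rfl))
    refine PTF.of_eq h (fun s => ?_)
    rcases s.2.1 with _ | ⟨a, _ | ⟨b, r⟩⟩ <;> rfl
  have h2 : PTF rdStep := by
    unfold rdStep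
    exact PTF.cond (by fun_prop) (by fun_prop) h1
  exact PTF.comp h2 hs

theorem ptf_rdIter {l : γ → List Bool} (hl : PTF l) :
    PTF (fun c => rdStep^[(l c).length] ([], l c, false)) := by
  refine PTF.iterate' (f := fun (_ : γ) s => rdStep s) (a := fun c => (([], l c, false) : RdS))
    (PTU.length hl) (ptf_rdStep PTF.snd) (by fun_prop)
    (B := fun c => 2 * (3 * (l c).length) + 1 + (2 * (3 * (l c).length) + 1 + 1)) ?_ ?_
  · have h1 := (PTU.length hl).pb
    fun_prop
  · intro c i hi
    have h := rdStep_iter_inv i ([], l c, false)
    simp only [List.length_nil, Nat.mul_zero, Nat.zero_add] at h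
    change sz (rdStep^[i] ([], l c, false)) ≤ _
    rw [sz_prod, sz_prod, sz_listBool, sz_listBool, sz_bool]
    omega

theorem ptf_readNat {l : γ → List Bool} (hl : PTF l) : PTF (fun c => readNat (l c)) := by
  unfold readNat ofB
  have h := ptf_rdIter hl
  exact PTF.prodMk (PTF.ofBits (PTF.reverse (PTF.comp (g := fun s : RdS => s.1) (by fun_prop) h)))
    (PTF.comp (g := fun s : RdS => s.2.1) (by fun_prop) h)

theorem ptf_tokStep {s : γ → List ℕ × List Bool} (hs : PTF s) : PTF (fun c => tokStep (s c)) := by
  unfold tokStep
  have h2 := PTF.comp (g := fun p : List ℕ × List Bool => p.2) (by fun_prop) hs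
  have h := ptf_readNat h2
  refine PTF.cond (PTF.isEmpty h2) hs (PTF.prodMk (PTF.listCons
    (PTF.comp (g := fun p : ℕ × List Bool => p.1) (by fun_prop) h)
    (PTF.comp (g := fun p : List ℕ × List Bool => p.1) (by fun_prop) hs))
    (PTF.comp (g := fun p : ℕ × List Bool => p.2) (by fun_prop) h))

theorem tokStep_size (s : List ℕ × List Bool) :
    sz (tokStep s).1 + (tokStep s).2.length ≤ sz s.1 + s.2.length + 1 := by
  unfold tokStep
  cases h : s.2.isEmpty with
  | true => simp
  | false =>
    simp only [cond_false, sz_cons]
    have := readNat_size s.2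
    omega

theorem tokStep_iter_size (k : ℕ) (s : List ℕ × List Bool) :
    sz (tokStep^[k] s).1 + (tokStep^[k] s).2.length ≤ sz s.1 + s.2.length + k := by
  induction k with
  | zero => simp
  | succ k ih =>
    rw [Function.iterate_succ_apply']
    have := tokStep_size (tokStep^[k] s)
    omega

theorem ptf_tokens {l : γ → List Bool} (hl : PTF l) : PTF (fun c => tokens (l c)) := by
  unfold tokens
  have h : PTF (fun c => tokStep^[(l c).length] ([], l c)) := by
    refine PTF.iterate' (f := fun (_ : γ) s => tokStep s)
      (a := fun c => (([], l c) : List ℕ × List Bool))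
      (PTU.length hl) (ptf_tokStep PTF.snd) (by fun_prop)
      (B := fun c => 2 * (2 * (l c).length) + 1 + 3 * (2 * (l c).length)) ?_ ?_
    · have h1 := (PTU.length hl).pb
      fun_prop
    · intro c i hi
      have h := tokStep_iter_size i ([], l c)
      simp only [sz_nil, Nat.zero_add] at h
      change sz (tokStep^[i] ([], l c)) ≤ _
      rw [sz_prod, sz_listBool]
      omega
  exact PTF.reverse (PTF.comp (g := fun s : List ℕ × List Bool => s.1) (by fun_prop) h)

/-- `take` with a binary index -/
theorem ptf_takeB {α : Type} [PTCode α] {n : γ → ℕ} {l : γ → List α} (hn : PTF n) (hl : PTF l) :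
    PTF (fun c => (l c).take (n c)) := by
  refine PTF.of_eq (PTF.take (PTF.natMinUn hn (PTU.length hl)) hl) (fun c => ?_)
  rcases le_total (n c) (l c).length with h | h
  · rw [min_eq_left h]
  · rw [min_eq_right h, List.take_of_length_le h, List.take_of_length_le le_rfl]

/-- `drop` with a binary index -/
theorem ptf_dropB {α : Type} [PTCode α] {n : γ → ℕ} {l : γ → List α} (hn : PTF n) (hl : PTF l) :
    PTF (fun c => (l c).drop (n c)) := by
  refine PTF.of_eq (PTF.drop (PTF.natMinUn hn (PTU.length hl)) hl) (fun c => ?_)
  rcases le_total (n c) (l c).length with h | h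
  · rw [min_eq_left h]
  · rw [min_eq_right h, List.drop_of_length_le h, List.drop_of_length_le le_rfl]

theorem ptf_wordStep {s : γ → List (List ℕ) × List ℕ} (hs : PTF s) :
    PTF (fun c => wordStep (s c)) := by
  have h : PTF wordStep := by
    have h0 := PTF.listCasesOn (s := fun s : List (List ℕ) × List ℕ => s.2) (f := fun s => s)
      (g := fun s k r => ((r.take k :: s.1, r.drop k) : List (List ℕ) × List ℕ))
      (by fun_prop) (by fun_prop)
      (PTF.prodMk (PTF.listCons (ptf_takeB (by fun_prop) (by fun_prop)) (by fun_prop))
        (ptf_dropB (by fun_prop) (by fun_prop)))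
    refine PTF.of_eq h0 (fun s => ?_)
    unfold wordStep
    rcases s.2 with _ | ⟨k, r⟩ <;> rfl
  exact PTF.comp h hs

theorem wordStep_size (s : List (List ℕ) × List ℕ) :
    sz (wordStep s).1 + 2 * sz (wordStep s).2 ≤ sz s.1 + 2 * sz s.2 := by
  unfold wordStep
  rcases s with ⟨a, _ | ⟨k, r⟩⟩
  · simp
  · simp only [sz_cons]
    have h : sz (r.take k) + sz (r.drop k) = sz r := by
      rw [← sz_append, List.take_append_drop]
    omega

theorem wordStep_iter_size (k : ℕ) (s : List (List ℕ) × List ℕ) :
    sz (wordStep^[k] s).1 + 2 * sz (wordStep^[k] s).2 ≤ sz s.1 + 2 * sz s.2 := by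
  induction k with
  | zero => simp
  | succ k ih =>
    rw [Function.iterate_succ_apply']
    have := wordStep_size (wordStep^[k] s)
    omega

theorem ptf_words {l : γ → List ℕ} (hl : PTF l) : PTF (fun c => words (l c)) := by
  unfold words
  have h : PTF (fun c => wordStep^[(l c).length] ([], l c)) := by
    refine PTF.iterate' (f := fun (_ : γ) s => wordStep s)
      (a := fun c => (([], l c) : List (List ℕ) × List ℕ))
      (PTU.length hl) (ptf_wordStep PTF.snd) (by fun_prop)
      (B := fun c => 2 * (2 * sz (l c)) + 1 + 2 * sz (l c)) ?_ ?_
    · have h1 := hl.sz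
      fun_prop
    · intro c i hi
      have h := wordStep_iter_size i ([], l c)
      simp only [sz_nil, Nat.zero_add] at h
      change sz (wordStep^[i] ([], l c)) ≤ _
      rw [sz_prod]
      omega
  exact PTF.reverse (PTF.comp (g := fun s : List (List ℕ) × List ℕ => s.1) (by fun_prop) h)

theorem ptf_parse : PTF parse := by
  unfold parse
  exact ptf_words (PTF.tail (ptf_tokens PTF.id))

theorem ptf_natCode {n : γ → ℕ} (hn : PTF n) : PTF (fun c => natCode (n c)) := by
  unfold natCode
  exact PTF.append (PTF.flatten (PTF.map (f := fun _ b => [true, b]) (PTF.natBits hn)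
    (by pt_prop))) (PTF.const _)

theorem ptf_listCode {l : γ → List ℕ} (hl : PTF l) : PTF (fun c => listCode (l c)) := by
  unfold listCode
  refine PTF.append (ptf_natCode (PTU.toPTF (PTU.length hl))) (PTF.flatten (PTF.map
    (f := fun _ n => natCode n) hl (ptf_natCode PTF.snd)))

end pt

/-- **Reduction of S0432 to a typed algorithm.** -/
theorem result_of_alg (A : List (List ℕ) → List ℕ) (hA : PTF A)
    (hsup : ∀ S : List (List ℕ), ∀ s ∈ S, s <:+: A S)
    (hopt : ∀ (S : List (List ℕ)) (T' : List ℕ), (∀ s ∈ S, s <:+: T') →
      (A S).length ≤ 2 * T'.length) :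
    ∃ f : List Bool → List Bool, Crest.Complexity.PolyTime f ∧
      ∀ S : List (List ℕ), ∃ T : List ℕ,
        f (natCode S.length ++ (S.map listCode).flatten) = listCode T ∧
        (∀ s ∈ S, s <:+: T) ∧
        ∀ T' : List ℕ, (∀ s ∈ S, s <:+: T') → T.length ≤ 2 * T'.length := by
  refine ⟨fun l => listCode (A (parse l)), ?_, fun S => ⟨A S, ?_, hsup S, hopt S⟩⟩
  · exact (PTF.toPT_list (ptf_listCode (PTF.comp hA ptf_parse))).polyTime
  · simp only [parse_code]

end Crest.Agent.R287
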