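import Crest.Agent.R287.Core

/-!
# Row 287: `mergeAll` (specification)

`mergeAll l` groups the open chains of `l` into blocks (chains of linked chains), and no two
different members of the result are linked.
-/

set_option autoImplicit false

namespace Crest.Agent.R287

open List

/-! ### heads and lasts -/

theorem headW_append {X : PL} (hX : X ≠ []) (Y : PL) : headW (X ++ Y) = headW X := by
  cases X with
  | nil => exact absurd rfl hX
  | cons a X => rfl

theorem lastW_append {Y : PL} (X : PL) (hY : Y ≠ []) : lastW (X ++ Y) = lastW Y := by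
  simp only [lastW, List.getLastD_eq_getLast?, List.getLast?_append]
  obtain ⟨a, ha⟩ : ∃ a, Y.getLast? = some a := by
    cases h : Y.getLast? with
    | none => exact absurd (List.getLast?_eq_none_iff.1 h) hY
    | some a => exact ⟨a, rfl⟩
  simp [ha]

theorem lastW_concat (X : PL) (a : Word) : lastW (X ++ [a]) = a := by
  simp [lastW]

theorem headW_flatten {b : List PL} {X : PL} (hX : X ≠ []) :
    headW (X :: b).flatten = headW X := by
  rw [List.flatten_cons, headW_append hX]

theorem lastW_flatten {b : List PL} {X : PL} (hX : X ≠ []) :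
    lastW (b ++ [X]).flatten = lastW X := by
  rw [List.flatten_append, List.flatten_singleton, lastW_append _ hX]

theorem linkB_congr {X X' Y Y' : PL} (h1 : lastW X = lastW X') (h2 : headW Y = headW Y') :
    linkB X Y = linkB X' Y' := by rw [linkB, linkB, h1, h2]

theorem linkB_iff {X Y : PL} : linkB X Y = true ↔ (lastW X).tail <+: headW Y := by
  rw [linkB, List.isPrefixOf_iff_prefix]

theorem linkB_false_iff {X Y : PL} : linkB X Y = false ↔ ¬ (lastW X).tail <+: headW Y := by
  rw [← linkB_iff, Bool.not_eq_true]

/-! ### pick -/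

theorem pick_spec (p : PL → Bool) (acc : List PL) :
    (pick p acc = ([], acc) ∧ ∀ Y ∈ acc, p Y = false) ∨
    ∃ Y l1 l2, p Y = true ∧ acc = l1 ++ Y :: l2 ∧ pick p acc = (Y, l1 ++ l2) := by
  induction acc with
  | nil => left; simp [pick]
  | cons A acc ih =>
    by_cases hA : p A = true
    · right
      exact ⟨A, [], acc, hA, rfl, by simp [pick, hA]⟩
    · have hA' : p A = false := by simpa using hA
      rcases ih with ⟨h1, h2⟩ | ⟨Y, l1, l2, h1, h2, h3⟩
      · left
        refine ⟨?_, ?_⟩
        · simp only [pick, Prod.mk.injEq] at h1 ⊢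
          simp [hA', h1.1, h1.2]
        · intro Y hY
          rcases List.mem_cons.1 hY with rfl | hY
          · exact hA'
          · exact h2 Y hY
      · right
        refine ⟨Y, A :: l1, l2, h1, by rw [h2]; rfl, ?_⟩
        simp only [pick, Prod.mk.injEq] at h3 ⊢
        simp [hA', h3.1, h3.2]

/-! ### one insertion -/

/-- full specification of `insertOpen` -/
theorem insertOpen_spec (X : PL) (acc : List PL) :
    ∃ pres posts rest : List PL, pres.length ≤ 1 ∧ posts.length ≤ 1 ∧
      acc ~ pres ++ (posts ++ rest) ∧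
      insertOpen X acc = (pres.flatten ++ (X ++ posts.flatten)) :: rest ∧
      (∀ Y ∈ posts, linkB X Y = true) ∧ (∀ Z ∈ pres, linkB Z (X ++ posts.flatten) = true) ∧
      (posts = [] → ∀ Y ∈ acc, linkB X Y = false) ∧
      (pres = [] → ∀ Z ∈ rest, linkB Z (X ++ posts.flatten) = false) := by
  rcases pick_spec (fun Y => linkB X Y) acc with ⟨h1, h2⟩ | ⟨Y, l1, l2, h1, h2, h3⟩
  · rcases pick_spec (fun Z => linkB Z (X ++ [])) acc with ⟨g1, g2⟩ | ⟨Z, m1, m2, g1, g2, g3⟩
    · refine ⟨[], [], acc, by simp, by simp, by simp, ?_, by simp, by simp, fun _ => h2, fun _ => ?_⟩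
      · simp only [insertOpen, h1, g1]; simp
      · simpa using g2
    · refine ⟨[Z], [], m1 ++ m2, by simp, by simp, ?_, ?_, by simp, ?_, fun _ => h2, by simp⟩
      · rw [g2]; simp
      · simp only [insertOpen, h1, g3]; simp
      · simpa using g1
  · rcases pick_spec (fun Z => linkB Z (X ++ Y)) (l1 ++ l2) with ⟨g1, g2⟩ | ⟨Z, m1, m2, g1, g2, g3⟩
    · refine ⟨[], [Y], l1 ++ l2, by simp, by simp, ?_, ?_, by simpa using h1, by simp, by simp,
        fun _ => ?_⟩
      · rw [h2]; simp
      · simp only [insertOpen, h3, g1]; simp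
      · simpa using g2
    · refine ⟨[Z], [Y], m1 ++ m2, by simp, by simp, ?_, ?_, by simpa using h1, ?_, by simp, by simp⟩
      · rw [h2]
        refine Perm.trans List.perm_middle ?_
        rw [g2]
        refine Perm.trans (Perm.cons Y List.perm_middle) ?_
        simp only [List.singleton_append]
        exact Perm.swap Z Y _
      · simp only [insertOpen, h3, g3]; simp
      · simpa using g1

/-- no two members are linked -/
def Unl (l : List PL) : Prop := l.Pairwise (fun X Y => linkB X Y = false ∧ linkB Y X = false)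

theorem Unl.perm {l l' : List PL} (h : Unl l) (hp : l ~ l') : Unl l' :=
  hp.pairwise h (fun hxy => ⟨hxy.2, hxy.1⟩)

theorem Unl.insertOpen {X : PL} {acc : List PL} (hX : X ≠ []) (hne : ∀ Y ∈ acc, Y ≠ [])
    (h : Unl acc) : Unl (insertOpen X acc) := by
  obtain ⟨pres, posts, rest, h1, h2, h3, h4, h5, h6, h7, h8⟩ := insertOpen_spec X acc
  have hu : Unl (pres ++ (posts ++ rest)) := h.perm h3
  have hne' : ∀ Y ∈ pres ++ (posts ++ rest), Y ≠ [] := fun Y hY => hne Y (h3.mem_iff.2 hY)
  rw [h4, Unl, List.pairwise_cons]
  rw [Unl, List.pairwise_append, List.pairwise_append] at hu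
  obtain ⟨_, ⟨_, hr, hpr⟩, hpa⟩ := hu
  refine ⟨?_, hr⟩
  intro W hW
  have hlast : linkB (pres.flatten ++ (X ++ posts.flatten)) W = false := by
    rcases posts with _ | ⟨Y, posts⟩
    · have : lastW (pres.flatten ++ (X ++ List.flatten [])) = lastW X := by
        rw [List.flatten_nil, List.append_nil, lastW_append _ hX]
      rw [linkB_congr this rfl]
      exact h7 rfl W (h3.mem_iff.2 (by simp [hW]))
    · have hp : posts = [] := by
        simp only [List.length_cons] at h2
        exact List.eq_nil_of_length_eq_zero (by omega)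
      subst hp
      have hY : Y ≠ [] := hne' Y (by simp)
      have : lastW (pres.flatten ++ (X ++ List.flatten [Y])) = lastW Y := by
        rw [List.flatten_singleton, ← List.append_assoc, lastW_append _ hY]
      rw [linkB_congr this rfl]
      exact (hpr Y (by simp) W hW).1
  have hhead : linkB W (pres.flatten ++ (X ++ posts.flatten)) = false := by
    rcases pres with _ | ⟨Z, pres⟩
    · rw [List.flatten_nil, List.nil_append]
      exact h8 rfl W hW
    · have hp : pres = [] := by
        simp only [List.length_cons] at h1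
        exact List.eq_nil_of_length_eq_zero (by omega)
      subst hp
      have hZ : Z ≠ [] := hne' Z (by simp)
      have : headW (List.flatten [Z] ++ (X ++ posts.flatten)) = headW Z := by
        rw [List.flatten_singleton, headW_append hZ]
      rw [linkB_congr rfl this]
      exact (hpa Z (by simp) W (by simp [hW])).2
  exact ⟨hlast, hhead⟩

theorem insertOpen_ne_nil {X : PL} {acc : List PL} (hX : X ≠ []) (hne : ∀ Y ∈ acc, Y ≠ []) :
    ∀ Y ∈ insertOpen X acc, Y ≠ [] := by
  obtain ⟨pres, posts, rest, h1, h2, h3, h4, h5, h6, h7, h8⟩ := insertOpen_spec X acc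
  rw [h4]
  intro Y hY
  rcases List.mem_cons.1 hY with rfl | hY
  · simp [hX]
  · exact hne Y (h3.mem_iff.2 (by simp [hY]))

theorem mergeAll_ne_nil {l : List PL} (hne : ∀ Y ∈ l, Y ≠ []) : ∀ Y ∈ mergeAll l, Y ≠ [] := by
  induction l with
  | nil => simp [mergeAll]
  | cons X l ih =>
    exact insertOpen_ne_nil (hne X (by simp)) (ih (fun Y hY => hne Y (by simp [hY])))

/-- (c): different members of `mergeAll l` are not linked -/
theorem mergeAll_unl {l : List PL} (hne : ∀ Y ∈ l, Y ≠ []) : Unl (mergeAll l) := by
  induction l with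
  | nil => exact List.Pairwise.nil
  | cons X l ih =>
    have h1 : ∀ Y ∈ l, Y ≠ [] := fun Y hY => hne Y (by simp [hY])
    exact (ih h1).insertOpen (hne X (by simp)) (mergeAll_ne_nil h1)

theorem insertOpen_flatten (X : PL) (acc : List PL) :
    (insertOpen X acc).flatten ~ X ++ acc.flatten := by
  obtain ⟨pres, posts, rest, h1, h2, h3, h4, h5, h6, h7, h8⟩ := insertOpen_spec X acc
  rw [h4, List.flatten_cons]
  have h9 : acc.flatten ~ pres.flatten ++ (posts.flatten ++ rest.flatten) := by
    have := h3.flatten
    rwa [List.flatten_append, List.flatten_append] at this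
  refine Perm.trans ?_ (h9.symm.append_left X)
  simp only [← List.append_assoc]
  refine ((List.perm_append_comm.append_right _).append_right _).trans ?_
  exact Perm.refl _

/-- (a): the words are only rearranged -/
theorem mergeAll_flatten (l : List PL) : (mergeAll l).flatten ~ l.flatten := by
  induction l with
  | nil => exact Perm.refl _
  | cons X l ih =>
    rw [List.flatten_cons]
    exact (insertOpen_flatten X (mergeAll l)).trans (ih.append_left X)

/-! ### block structure -/

/-- `m` is obtained from `l` by concatenating blocks of linked chains -/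
def Blocks (l m : List PL) (B : List (List PL)) : Prop :=
  m = B.map List.flatten ∧ B.flatten ~ l ∧
    ∀ b ∈ B, b ≠ [] ∧ b.IsChain (fun X Y => linkB X Y = true)

theorem headW_block {b : List PL} (hb : b ≠ []) (hne : ∀ Y ∈ b, Y ≠ []) :
    headW b.flatten = headW (b.head hb) := by
  cases b with
  | nil => exact absurd rfl hb
  | cons X b => exact headW_flatten (hne X (by simp))

theorem lastW_block {b : List PL} (hb : b ≠ []) (hne : ∀ Y ∈ b, Y ≠ []) :
    lastW b.flatten = lastW (b.getLast hb) := by
  have h := List.dropLast_append_getLast hb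
  have h1 : b.getLast hb ≠ [] := hne _ (List.getLast_mem hb)
  have h2 := lastW_flatten (b := b.dropLast) h1
  rwa [h] at h2

theorem Blocks.perm_split {l m : List PL} {B : List (List PL)} (h : Blocks l m B)
    {m' : List PL} (hp : m ~ m') : ∃ B', Blocks l m' B' := by
  obtain ⟨h1, h2, h3⟩ := h
  have h4 : m' ~ B.map List.flatten := by rw [← h1]; exact hp.symm
  -- lift the permutation through the map
  have key : ∀ {m' : List PL} {B : List (List PL)}, m' ~ B.map List.flatten →
      ∃ B', m' = B'.map List.flatten ∧ B' ~ B := by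
    intro m'
    induction m' with
    | nil =>
      intro B h
      have := h.length_eq
      simp only [List.length_nil, List.length_map] at this
      have hB : B = [] := List.eq_nil_of_length_eq_zero this.symm
      exact ⟨[], rfl, by rw [hB]⟩
    | cons a m' ih =>
      intro B h
      have ha : a ∈ B.map List.flatten := h.mem_iff.1 (by simp)
      obtain ⟨l1, l2, hl⟩ := List.append_of_mem ha
      obtain ⟨B1, B2, hB, hB1, hB2⟩ := List.map_eq_append_iff.1 hl
      obtain ⟨b, B3, hB3, hb, hB4⟩ := List.map_eq_cons_iff.1 hB2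
      have h5 : m' ~ (B1 ++ B3).map List.flatten := by
        rw [List.map_append, hB1, hB4]
        rw [hl] at h
        exact (h.trans List.perm_middle).cons_inv
      obtain ⟨B', hB', hp'⟩ := ih h5
      refine ⟨b :: B', by rw [hB', List.map_cons, hb], ?_⟩
      rw [hB, hB3]
      exact (hp'.cons b).trans List.perm_middle.symm
  obtain ⟨B', hB', hp'⟩ := key h4
  exact ⟨B', hB', hp'.flatten.trans h2, fun b hb => h3 b (hp'.mem_iff.1 hb)⟩

theorem Blocks.insertOpen {X : PL} {l m : List PL} {B : List (List PL)} (hX : X ≠ [])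
    (hne : ∀ Y ∈ l, Y ≠ []) (h : Blocks l m B) : ∃ B', Blocks (X :: l) (insertOpen X m) B' := by
  obtain ⟨pres, posts, rest, h1, h2, h3, h4, h5, h6, h7, h8⟩ := insertOpen_spec X m
  obtain ⟨B1, g1, g2, g3⟩ := h.perm_split h3
  obtain ⟨Bp, B2, hB1, hBp, hB2⟩ := List.map_eq_append_iff.1 g1.symm
  obtain ⟨Bq, Br, hB2', hBq, hBr⟩ := List.map_eq_append_iff.1 hB2
  subst hB1
  subst hB2'
  refine ⟨(Bp.flatten ++ (X :: Bq.flatten)) :: Br, ?_, ?_, ?_⟩
  · rw [h4, List.map_cons, hBr, List.flatten_append, List.flatten_cons, ← hBp, ← hBq,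
      List.flatten_flatten, List.flatten_flatten]
  · rw [List.flatten_cons]
    refine Perm.trans ?_ (Perm.cons X g2)
    rw [List.flatten_append, List.flatten_append, List.append_assoc, List.cons_append]
    exact List.perm_middle
  · have hneB : ∀ b ∈ Bp ++ (Bq ++ Br), ∀ Y ∈ b, Y ≠ [] := by
      intro b hb Y hY
      exact hne Y (g2.mem_iff.1 (List.mem_flatten.2 ⟨b, hb, hY⟩))
    intro b hb
    rcases List.mem_cons.1 hb with rfl | hb
    · refine ⟨by simp, ?_⟩
      -- the chain
      have hq : (X :: Bq.flatten).IsChain (fun X Y => linkB X Y = true) := by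
        rcases Bq with _ | ⟨b, Bq⟩
        · simp
        · have hl : Bq = [] := by
            have : posts.length = (b :: Bq).length := by rw [← hBq, List.length_map]
            simp only [List.length_cons] at this
            exact List.eq_nil_of_length_eq_zero (by omega)
          subst hl
          rw [List.flatten_singleton]
          obtain ⟨hbne, hbch⟩ := g3 b (by simp)
          have hlk : linkB X b.flatten = true := h5 b.flatten (by rw [← hBq]; simp)
          cases b with
          | nil => exact absurd rfl hbne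
          | cons Y b =>
            rw [List.isChain_cons_cons]
            refine ⟨?_, hbch⟩
            rw [linkB_congr rfl (headW_flatten (hneB (Y :: b) (by simp) Y (by simp)))] at hlk
            exact hlk
      rcases Bp with _ | ⟨b, Bp⟩
      · simpa using hq
      · have hl : Bp = [] := by
          have : pres.length = (b :: Bp).length := by rw [← hBp, List.length_map]
          simp only [List.length_cons] at this
          exact List.eq_nil_of_length_eq_zero (by omega)
        subst hl
        rw [List.flatten_singleton]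
        obtain ⟨hbne, hbch⟩ := g3 b (by simp)
        have hlk := h6 b.flatten (by rw [← hBp]; simp)
        rw [List.isChain_append]
        refine ⟨hbch, hq, ?_⟩
        intro x hx y hy
        simp only [List.head?_cons, Option.mem_some_iff] at hy
        subst hy
        have hx' : x = b.getLast hbne := by
          rw [List.getLast?_eq_some_getLast hbne] at hx
          simpa using hx.symm
        rw [linkB_congr (lastW_block hbne (hneB b (by simp))) (headW_append hX _)] at hlk
        rw [hx']
        exact hlk
    · exact g3 b (by simp [hb])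

/-- the block structure of `mergeAll l` -/
theorem mergeAll_blocks {l : List PL} (hne : ∀ Y ∈ l, Y ≠ []) : ∃ B, Blocks l (mergeAll l) B := by
  induction l with
  | nil => exact ⟨[], rfl, Perm.refl _, by simp⟩
  | cons X l ih =>
    have h1 : ∀ Y ∈ l, Y ≠ [] := fun Y hY => hne Y (by simp [hY])
    obtain ⟨B, hB⟩ := ih h1
    exact hB.insertOpen (hne X (by simp)) h1


/-! ### consequences -/

/-- the chain condition of P-lists -/
def TP (p q : Word) : Prop := p.tail <+: q

theorem linkB_block {b : List PL} (hb : b ≠ []) (hne : ∀ Y ∈ b, Y ≠ []) (Y : PL) :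
    linkB b.flatten Y = linkB (b.getLast hb) Y :=
  linkB_congr (lastW_block hb hne) rfl

theorem isChain_block {b : List PL} (hne : ∀ Y ∈ b, Y ≠ []) (hch : ∀ Y ∈ b, Y.IsChain TP)
    (hb : b.IsChain (fun X Y => linkB X Y = true)) : b.flatten.IsChain TP := by
  have hnil : ([] : PL) ∉ b := fun h => hne [] h rfl
  rw [List.isChain_flatten hnil]
  refine ⟨hch, hb.imp_of_mem_imp ?_⟩
  intro X Y hX hY h x hx y hy
  have h1 : (lastW X).tail <+: headW Y := linkB_iff.1 h
  have h2 : lastW X = x := by
    simp only [lastW, List.getLastD_eq_getLast?]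
    rw [Option.mem_def.1 hx]; rfl
  have h3 : headW Y = y := by
    simp only [headW, List.headD_eq_head?_getD]
    rw [Option.mem_def.1 hy]; rfl
  rw [h2, h3] at h1
  exact h1

/-- (b), (d): description of the members of `mergeAll l` -/
theorem mem_mergeAll {l : List PL} (hne : ∀ Y ∈ l, Y ≠ []) (hch : ∀ Y ∈ l, Y.IsChain TP) {Z : PL}
    (hZ : Z ∈ mergeAll l) : ∃ (b : List PL) (hb : b ≠ []), Z = b.flatten ∧ (∀ X ∈ b, X ∈ l) ∧
      b.IsChain (fun X Y => linkB X Y = true) ∧ Z ≠ [] ∧ Z.IsChain TP ∧
      headW Z = headW (b.head hb) ∧ lastW Z = lastW (b.getLast hb) := by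
  obtain ⟨B, h1, h2, h3⟩ := mergeAll_blocks hne
  rw [h1] at hZ
  obtain ⟨b, hbB, rfl⟩ := List.mem_map.1 hZ
  obtain ⟨hb, hbch⟩ := h3 b hbB
  have hmem : ∀ X ∈ b, X ∈ l := fun X hX => h2.mem_iff.1 (List.mem_flatten.2 ⟨b, hbB, hX⟩)
  have hneb : ∀ X ∈ b, X ≠ [] := fun X hX => hne X (hmem X hX)
  refine ⟨b, hb, rfl, hmem, hbch, ?_, ?_, headW_block hb hneb, lastW_block hb hneb⟩
  · cases b with
    | nil => exact absurd rfl hb
    | cons X b =>
      rw [List.flatten_cons]
      exact List.append_ne_nil_of_left_ne_nil (hneb X (by simp)) _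
  · exact isChain_block hneb (fun X hX => hch X (hmem X hX)) hbch

/-- (d): every member of `l` is a block of a member of `mergeAll l` -/
theorem mergeAll_contains {l : List PL} (hne : ∀ Y ∈ l, Y ≠ []) {X : PL} (hX : X ∈ l) :
    ∃ Z ∈ mergeAll l, ∃ pre post : List PL, Z = (pre ++ X :: post).flatten ∧
      (∀ Y ∈ pre, Y ∈ l) ∧ (∀ Y ∈ post, Y ∈ l) ∧
      (pre ++ X :: post).IsChain (fun X Y => linkB X Y = true) := by
  obtain ⟨B, h1, h2, h3⟩ := mergeAll_blocks hne
  obtain ⟨b, hbB, hXb⟩ := List.mem_flatten.1 (h2.mem_iff.2 hX)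
  obtain ⟨pre, post, hpp⟩ := List.append_of_mem hXb
  have hmem : ∀ X ∈ b, X ∈ l := fun X hX => h2.mem_iff.1 (List.mem_flatten.2 ⟨b, hbB, hX⟩)
  refine ⟨b.flatten, by rw [h1]; exact List.mem_map_of_mem hbB, pre, post, by rw [hpp], ?_, ?_, ?_⟩
  · intro Y hY; exact hmem Y (by rw [hpp]; simp [hY])
  · intro Y hY; exact hmem Y (by rw [hpp]; simp [hY])
  · rw [← hpp]; exact (h3 b hbB).2

theorem mem_mergeAll_word {l : List PL} {p : Word} :
    (∃ Z ∈ mergeAll l, p ∈ Z) ↔ ∃ X ∈ l, p ∈ X := by
  have h := (mergeAll_flatten l).mem_iff (a := p)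
  simpa [List.mem_flatten] using h

/-- the heads of `mergeAll l` are heads of `l` (with multiplicities) -/
theorem mergeAll_map_headW {l : List PL} (hne : ∀ Y ∈ l, Y ≠ []) :
    (mergeAll l).map headW <+~ l.map headW := by
  obtain ⟨B, h1, h2, h3⟩ := mergeAll_blocks hne
  refine List.Sublist.subperm ?_ |>.trans (h2.map headW).subperm
  have hneB : ∀ b ∈ B, ∀ Y ∈ b, Y ≠ [] := fun b hb Y hY =>
    hne Y (h2.mem_iff.1 (List.mem_flatten.2 ⟨b, hb, hY⟩))
  rw [h1]
  clear h1 h2
  induction B with
  | nil => simp
  | cons b B ih =>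
    obtain ⟨hb, -⟩ := h3 b (by simp)
    rw [List.map_cons, List.map_cons, List.flatten_cons, List.map_append,
      headW_block hb (hneB b (by simp))]
    refine List.Sublist.append (l₁ := [headW (b.head hb)]) ?_
      (ih (fun c hc => h3 c (by simp [hc])) (fun c hc => hneB c (by simp [hc])))
    rw [List.singleton_sublist]
    exact List.mem_map_of_mem (List.head_mem hb)

/-- the lasts of `mergeAll l` are lasts of `l` (with multiplicities) -/
theorem mergeAll_map_lastW {l : List PL} (hne : ∀ Y ∈ l, Y ≠ []) :
    (mergeAll l).map lastW <+~ l.map lastW := by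
  obtain ⟨B, h1, h2, h3⟩ := mergeAll_blocks hne
  refine List.Sublist.subperm ?_ |>.trans (h2.map lastW).subperm
  have hneB : ∀ b ∈ B, ∀ Y ∈ b, Y ≠ [] := fun b hb Y hY =>
    hne Y (h2.mem_iff.1 (List.mem_flatten.2 ⟨b, hb, hY⟩))
  rw [h1]
  clear h1 h2
  induction B with
  | nil => simp
  | cons b B ih =>
    obtain ⟨hb, -⟩ := h3 b (by simp)
    rw [List.map_cons, List.map_cons, List.flatten_cons, List.map_append,
      lastW_block hb (hneB b (by simp))]
    refine List.Sublist.append (l₁ := [lastW (b.getLast hb)]) ?_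
      (ih (fun c hc => h3 c (by simp [hc])) (fun c hc => hneB c (by simp [hc])))
    rw [List.singleton_sublist]
    exact List.mem_map_of_mem (List.getLast_mem hb)

/-- after filtering out the self-linked members no two members (equal or not) are linked -/
theorem open_unlinked {l : List PL} (hne : ∀ Y ∈ l, Y ≠ []) {X Y : PL}
    (hX : X ∈ (mergeAll l).filter (fun X => !linkB X X))
    (hY : Y ∈ (mergeAll l).filter (fun X => !linkB X X)) : linkB X Y = false := by
  have hu := mergeAll_unl hne
  rw [List.mem_filter] at hX hY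
  by_cases hXY : X = Y
  · subst hXY
    simpa using hX.2
  · have : Std.Symm (fun X Y : PL => linkB X Y = false ∧ linkB Y X = false) :=
      ⟨fun _ _ h => ⟨h.2, h.1⟩⟩
    exact (List.Pairwise.forall hu hX.1 hY.1 hXY).1

end Crest.Agent.R287
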