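import Crest.Agent.R287.Core
import Crest.Agent.R287.VisitPT

/-!
# Row 287: the one-pass algorithm on P-lists is polynomial time
-/

set_option autoImplicit false

namespace Crest.Agent.R287

open Crest.Agent.Lib.PT

section gen

variable {γ α : Type} [PTCode γ] [PTCode α]

/-- `getD` with a binary index -/
theorem ptf_getDB {n : γ → ℕ} {l : γ → List α} {d : γ → α} (hn : PTF n) (hl : PTF l) (hd : PTF d) :
    PTF (fun c => (l c).getD (n c) (d c)) := by
  refine PTF.of_eq (PTF.getD (PTF.natMinUn hn (PTU.length hl)) hl hd) (fun c => ?_)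
  rcases lt_or_ge (n c) (l c).length with h | h
  · rw [min_eq_left h.le]
  · rw [min_eq_right h, List.getD_eq_getElem?_getD, List.getD_eq_getElem?_getD,
      List.getElem?_eq_none le_rfl, List.getElem?_eq_none h]

/-- `take` with a binary index -/
theorem ptf_takeBin {n : γ → ℕ} {l : γ → List α} (hn : PTF n) (hl : PTF l) :
    PTF (fun c => (l c).take (n c)) := by
  refine PTF.of_eq (PTF.take (PTF.natMinUn hn (PTU.length hl)) hl) (fun c => ?_)
  rcases le_total (n c) (l c).length with h | h
  · rw [min_eq_left h]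
  · rw [min_eq_right h, List.take_of_length_le h, List.take_of_length_le le_rfl]

theorem ptf_dropLast {l : γ → List α} (hl : PTF l) : PTF (fun c => (l c).dropLast) := by
  refine PTF.of_eq (PTF.take (PTU.sub (PTU.length hl) (PTU.const 1)) hl) (fun c => ?_)
  rw [List.dropLast_eq_take]

theorem ptf_prefixB [DecidableEq α] {f g : γ → List α} (hf : PTF f) (hg : PTF g) :
    PTF (fun c => (f c).isPrefixOf (g c)) := by
  refine PTF.of_eq (ptp_prefix hf hg).toPTF (fun c => ?_)
  rw [Bool.eq_iff_iff]
  simp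

/-- remove the first element satisfying `p` -/
theorem ptf_eraseP {l : γ → List α} {p : γ → α → Bool} (hl : PTF l) (hp : PTF₂ p) :
    PTF (fun c => (l c).eraseP (p c)) := by
  have h1 : PTF (fun c => (l c).takeWhile (fun a => !p c a)) :=
    PTF.takeWhile (p := fun c a => !p c a) hl (PTF.not hp)
  have h2 : PTF (fun c => ((l c).dropWhile (fun a => !p c a)).tail) :=
    PTF.tail (PTF.dropWhile (p := fun c a => !p c a) hl (PTF.not hp))
  refine PTF.of_eq (PTF.append h1 h2) (fun c => ?_)
  induction l c with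
  | nil => rfl
  | cons a l ih =>
    by_cases h : p c a
    · simp [h]
    · simp only [Bool.not_eq_true] at h
      simp [h]
      exact ih

end gen

variable {γ : Type} [PTCode γ]

theorem ptf_headW {f : γ → PL} (hf : PTF f) : PTF (fun c => headW (f c)) :=
  ptf_headD hf (PTF.const [])

theorem ptf_lastW {f : γ → PL} (hf : PTF f) : PTF (fun c => lastW (f c)) := by
  refine PTF.of_eq (PTF.optionGetD (PTF.getLast? hf) (PTF.const [])) (fun c => ?_)
  unfold lastW
  rw [List.getLastD_eq_getLast?]

theorem ptf_linkB {f g : γ → PL} (hf : PTF f) (hg : PTF g) :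
    PTF (fun c => linkB (f c) (g c)) :=
  ptf_prefixB (PTF.tail (ptf_lastW hf)) (ptf_headW hg)

theorem ptf_ext {f : γ → PL} (hf : PTF f) : PTF (fun c => ext (f c)) :=
  PTF.append hf (PTF.listCons (PTF.tail (ptf_lastW hf)) (PTF.const []))

theorem ptf_closeR {f : γ → PL} (hf : PTF f) : PTF (fun c => closeR (f c)) :=
  PTF.append hf (ptf_dropLast (ptf_tails (PTF.tail (ptf_lastW hf))))

theorem ptf_column {p q : γ → Word} (hp : PTF p) (hq : PTF q) :
    PTF (fun c => column (p c) (q c)) := by
  unfold column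
  have h1 : PTU (fun c => (q c).length + 1 - ((p c).length - 1)) :=
    PTU.sub (PTU.add (PTU.length hq) (PTU.const 1)) (PTU.sub (PTU.length hp) (PTU.const 1))
  refine PTF.map (f := fun c k => (q c).take ((p c).length - 1 + k)) (PTF.range h1) ?_
  refine ptf_takeBin (PTF.natAdd (PTU.toPTF ?_) PTF.snd) (PTF.comp hq PTF.fst)
  exact PTU.sub (PTU.length (PTF.comp hp PTF.fst)) (PTU.const 1)

theorem ptf_nodes {f : γ → PL} (hf : PTF f) : PTF (fun c => nodes (f c)) := by
  unfold nodes
  refine PTF.flatMap (f := fun _ pq => column pq.1 pq.2)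
    (PTF.zip (PTF.listCons (ptf_lastW hf) hf) hf) ?_
  exact ptf_column (ptf_fst PTF.snd) (ptf_snd PTF.snd)

theorem ptu_levN {f : γ → PL} (hf : PTF f) : PTU (fun c => levN (f c)) := by
  have key : ∀ (l : PL) (b : ℕ), (l.foldr (fun p (acc : Un) => Un.mk (min (p.length - 1) acc.val))
      (Un.mk b)) = Un.mk ((l.map fun p => p.length - 1).foldr min b) := by
    intro l b
    induction l with
    | nil => rfl
    | cons a l ih => simp only [List.foldr_cons, List.map_cons, ih]
  have h : PTF (fun c => ((f c).foldr (fun p (acc : Un) => Un.mk (min (p.length - 1) acc.val))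
      (Un.mk (headW (f c)).length))) := by
    refine PTF.foldr_add (f := fun (_ : γ) (p : Word) (acc : Un) =>
      Un.mk (min (p.length - 1) acc.val)) hf ?_ (PTU.length (ptf_headW hf)) (G := fun _ => 0)
      (PB.const 0) ?_
    · refine PTU.min (PTU.sub (PTU.length ?_) (PTU.const 1)) (PTU.val ?_)
      · exact ptf_fst PTF.snd
      · exact ptf_snd PTF.snd
    · intro c b a _
      simp only [sz_un]
      omega
  exact PTF.of_eq h (fun c => by rw [key]; rfl)

theorem ptf_bottom {f : γ → PL} (hf : PTF f) : PTF (fun c => bottom (f c)) := by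
  unfold bottom
  refine PTF.tail (PTF.optionGetD (PTF.find? (p := fun c p => p.length - 1 == levN (f c)) hf ?_)
    (PTF.const []))
  have h : PTF (fun q : γ × Word => decide (q.2.length - 1 = levN (f q.1))) :=
    (PTU.eq (PTU.sub (PTU.length PTF.snd) (PTU.const 1)) (ptu_levN (PTF.comp hf PTF.fst))).toPTF
  exact PTF.of_eq h (fun q => by rw [Bool.eq_iff_iff]; simp)

theorem ptf_wrapB {f : γ → PL} (hf : PTF f) : PTF (fun c => wrapB (f c)) :=
  (PTU.lt (PTU.length hf) (ptu_levN hf)).toPTF

theorem ptf_xw {f : γ → PL} (hf : PTF f) : PTF (fun c => xw (f c)) :=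
  PTF.take (PTU.sub (ptu_levN hf) (PTU.length hf)) (ptf_bottom hf)

theorem ptf_txt {f : γ → PL} (hf : PTF f) : PTF (fun c => txt (f c)) := by
  unfold txt
  exact PTF.map (f := fun (_ : γ) (p : Word) => p.headD 0) hf (ptf_headD PTF.snd (PTF.const 0))

theorem ptf_perWin {c : γ → Word} {i n : γ → ℕ} (hc : PTF c) (hi : PTF i) (hn : PTU n) :
    PTF (fun x => perWin (c x) (i x) (n x)) := by
  unfold perWin
  refine PTF.map (f := fun x t => (c x).getD ((i x + t) % (c x).length) 0) (PTF.range hn) ?_
  refine ptf_getDB (PTF.natMod (PTF.natAdd (PTF.comp hi PTF.fst) PTF.snd)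
    (PTU.toPTF (PTU.length (PTF.comp hc PTF.fst)))) (PTF.comp hc PTF.fst) (PTF.const 0)

theorem ptf_prevW {f : γ → PL} {s : γ → ℕ} (hf : PTF f) (hs : PTF s) :
    PTF (fun c => prevW (f c) (s c)) := by
  unfold prevW
  have hl := PTU.toPTF (PTU.length hf)
  exact ptf_getDB (PTF.natMod (PTF.natSub (PTF.natAdd hs hl) (PTF.const 1)) hl) hf (PTF.const [])

theorem ptf_linkAt {A B : γ → PL} {s t : γ → ℕ} (hA : PTF A) (hB : PTF B) (hs : PTF s)
    (ht : PTF t) : PTF (fun c => linkAt (A c) (B c) (s c) (t c)) := by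
  unfold linkAt
  have hp := ptf_prevW hA hs
  have hq := ptf_prevW hB ht
  have h1 : PTU (fun c => (prevW (A c) (s c)).length - 1) := PTU.sub (PTU.length hp) (PTU.const 1)
  have h2 : PTU (fun c => (prevW (B c) (t c)).length - 1) := PTU.sub (PTU.length hq) (PTU.const 1)
  have hm : PTU (fun c => max ((prevW (A c) (s c)).length - 1) ((prevW (B c) (t c)).length - 1)) :=
    (PTU.add h1 (PTU.sub h2 h1)).of_eq (fun c => by omega)
  have e1 : PTF (fun c => decide (¬ ((prevW (A c) (s c)).headD 0 = (prevW (B c) (t c)).headD 0))) :=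
    (PTPred.not (PTPred.eq (ptf_headD hp (PTF.const 0)) (ptf_headD hq (PTF.const 0)))).toPTF
  have e2 := PTF.beq (ptf_perWin (ptf_txt hA) hs hm) (ptf_perWin (ptf_txt hB) ht hm)
  refine PTF.of_eq (PTF.and e1 e2) (fun c => ?_)
  rw [Bool.eq_iff_iff]
  simp

theorem ptf_linkedB {A B : γ → PL} (hA : PTF A) (hB : PTF B) :
    PTF (fun c => linkedB (A c) (B c)) := by
  unfold linkedB
  refine PTF.any (p := fun c s => (List.range (B c).length).any fun t => linkAt (A c) (B c) s t)
    (PTF.range (PTU.length hA)) ?_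
  refine PTF.any (p := fun (q : γ × ℕ) t => linkAt (A q.1) (B q.1) q.2 t)
    (PTF.range (PTU.length (PTF.comp hB PTF.fst))) ?_
  exact ptf_linkAt (PTF.comp hA (ptf_fst PTF.fst)) (PTF.comp hB (ptf_fst PTF.fst))
    (ptf_snd PTF.fst) PTF.snd

theorem ptf_inU {z v : γ → Word} {w : γ → ℕ} (hz : PTF z) (hw : PTU w) (hv : PTF v) :
    PTF (fun c => inU (z c) (w c) (v c)) := by
  unfold inU
  have hz' : PTF (fun q : γ × ℕ => z q.1) := PTF.comp hz PTF.fst
  have hv' : PTF (fun q : γ × ℕ => v q.1) := PTF.comp hv PTF.fst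
  have hw' : PTU (fun q : γ × ℕ => w q.1) := PTU.comp hw PTF.fst
  refine PTF.any (p := fun c r => decide (r + ((z c).length - w c) ≤ (v c).length) &&
    (v c == perWin ((z c).take (w c)) (w c - r) (v c).length)) (PTF.range hw) ?_
  refine PTF.and ?_ ?_
  · exact (PTPred.natLe (PTF.natAdd PTF.snd (PTU.toPTF (PTU.sub (PTU.length hz') hw')))
      (PTU.toPTF (PTU.length hv'))).toPTF
  · have h := PTF.beq hv' (ptf_perWin (PTF.take hw' hz') (PTF.natSub (PTU.toPTF hw') PTF.snd)
      (PTU.length hv'))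
    exact PTF.of_eq h (fun q => by rw [Bool.eq_iff_iff]; simp)

theorem ptf_visU {K A : γ → PL} (hK : PTF K) (hA : PTF A) :
    PTF (fun c => visU (K c) (A c)) := by
  unfold visU
  refine PTF.any (p := fun c v => inU (bottom (K c)) (K c).length v) (ptf_nodes hA) ?_
  exact ptf_inU (ptf_bottom (PTF.comp hK PTF.fst)) (PTU.length (PTF.comp hK PTF.fst)) PTF.snd

theorem ptf_candB {F : γ → List PL} {K : γ → PL} (hF : PTF F) (hK : PTF K) :
    PTF (fun c => candB (F c) (K c)) := by
  unfold candB
  have hK' : PTF (fun q : γ × PL => K q.1) := PTF.comp hK PTF.fst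
  have hv : PTF (fun q : γ × PL => visU (K q.1) q.2) := ptf_visU hK' PTF.snd
  have hfil : PTF (fun c => (F c).filter fun A => visU (K c) A) :=
    PTF.filter (p := fun c A => visU (K c) A) hF hv
  refine PTF.and (PTF.and (ptf_wrapB hK) ?_) ?_
  · refine PTF.all (p := fun c A => !visU (K c) A || (wrapB A && decide (levN (K c) ≤ levN A)))
      hF ?_
    refine PTF.or (PTF.not hv) (PTF.and (ptf_wrapB PTF.snd) ?_)
    exact (PTU.le (ptu_levN hK') (ptu_levN PTF.snd)).toPTF
  · refine PTF.all (p := fun c A => ((F c).filter fun A => visU (K c) A).all fun B =>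
      !linkedB A B) hfil ?_
    refine PTF.all (p := fun (q : γ × PL) B => !linkedB q.2 B) (PTF.comp hfil PTF.fst) ?_
    exact PTF.not (ptf_linkedB (ptf_snd PTF.fst) PTF.snd)

theorem ptf_nearPair {K A : γ → PL} (hK : PTF K) (hA : PTF A) :
    PTF (fun c => nearPair (K c) (A c)) := by
  unfold nearPair
  refine PTF.find? (p := fun c (p : Word × Word) =>
    decide (dist p.1 p.2 + dist p.2 p.1 ≤ (K c).length)) ?_ ?_
  · refine PTF.flatMap (f := fun c u => (nodes (A c)).map fun v => (u, v)) (ptf_nodes hK) ?_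
    refine PTF.map (l := fun q : γ × Word => nodes (A q.1)) (f := fun (q : γ × Word) v => (q.2, v))
      (ptf_nodes (PTF.comp hA PTF.fst)) ?_
    exact PTF.prodMk (ptf_snd PTF.fst) PTF.snd
  · refine (PTU.le (PTU.add (ptu_dist (ptf_fst PTF.snd) (ptf_snd PTF.snd))
      (ptu_dist (ptf_snd PTF.snd) (ptf_fst PTF.snd))) (PTU.length ?_)).toPTF
    exact PTF.comp hK PTF.fst

theorem ptf_isSome {α : Type} [PTCode α] {f : γ → Option α} (hf : PTF f) :
    PTF (fun c => (f c).isSome) := by
  have h := PTF.optionCasesOn (s := f) (f := fun _ => false) (g := fun _ _ => true) hf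
    (PTF.const _) (PTF.const _)
  exact PTF.of_eq h (fun c => by cases f c <;> rfl)

theorem ptf_nearB {K A : γ → PL} (hK : PTF K) (hA : PTF A) : PTF (fun c => nearB (K c) (A c)) :=
  ptf_isSome (ptf_nearPair hK hA)

/-! ### the process -/

theorem ptf_famS {st : γ → St} (hs : PTF st) : PTF (fun c => famS (st c)) :=
  PTF.append (ptf_snd hs) (PTF.map (f := fun _ X => closeR X) (ptf_fst hs) (ptf_closeR PTF.snd))

theorem ptf_issue {m : γ → ℕ} {st : γ → St} {K : γ → PL} (hm : PTF m) (hs : PTF st) (hK : PTF K) :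
    PTF (fun c => issue (m c) (st c) (K c)) := by
  unfold issue
  have h1 : PTF (fun c => decide (levN (K c) = m c + (K c).length)) :=
    (PTPred.natEq (PTU.toPTF (ptu_levN hK)) (PTF.natAdd hm (PTU.toPTF (PTU.length hK)))).toPTF
  have h2 := PTF.and h1 (ptf_candB (ptf_famS hs) hK)
  refine PTF.of_eq (PTF.cond h2 (PTF.prodMk (PTF.listCons (PTF.listCons (ptf_xw hK) (PTF.const []))
    (ptf_fst hs)) (ptf_snd hs)) hs) (fun c => ?_)
  cases h : (decide (levN (K c) = m c + (K c).length) && candB (famS (st c)) (K c)) <;> simp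

theorem ptf_occursB {st : γ → St} {s : γ → Word} (hst : PTF st) (hs : PTF s) :
    PTF (fun c => occursB (st c) (s c)) := by
  unfold occursB
  refine PTF.any (p := fun c X => X.any fun p => p.tails.any fun q => (s c).isPrefixOf q)
    (PTF.append (ptf_fst hst) (ptf_snd hst)) ?_
  refine PTF.any (p := fun (a : γ × PL) p => p.tails.any fun q => (s a.1).isPrefixOf q)
    PTF.snd ?_
  refine PTF.any (p := fun (a : (γ × PL) × Word) q => (s a.1.1).isPrefixOf q)
    (ptf_tails PTF.snd) ?_
  exact ptf_prefixB (PTF.comp hs (ptf_fst (ptf_fst PTF.fst))) PTF.snd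

theorem ptf_addInput {m : γ → ℕ} {st : γ → St} {s : γ → Word} (hm : PTF m) (hst : PTF st)
    (hs : PTF s) : PTF (fun c => addInput (m c) (st c) (s c)) := by
  unfold addInput
  have h1 : PTF (fun c => decide ((s c).length = m c)) :=
    (PTPred.natEq (PTU.toPTF (PTU.length hs)) hm).toPTF
  have h2 := PTF.and h1 (PTF.not (ptf_occursB hst hs))
  refine PTF.of_eq (PTF.cond h2 (PTF.prodMk (PTF.listCons (PTF.listCons hs (PTF.const []))
    (ptf_fst hst)) (ptf_snd hst)) hst) (fun c => ?_)
  cases h : (decide ((s c).length = m c) && !occursB (st c) (s c)) <;> simp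

theorem ptf_pick {p : γ → PL → Bool} {l : γ → List PL} (hp : PTF₂ p) (hl : PTF l) :
    PTF (fun c => pick (p c) (l c)) :=
  PTF.prodMk (PTF.optionGetD (PTF.find? hl hp) (PTF.const [])) (ptf_eraseP hl hp)

theorem ptf_insertOpen {X : γ → PL} {l : γ → List PL} (hX : PTF X) (hl : PTF l) :
    PTF (fun c => insertOpen (X c) (l c)) := by
  unfold insertOpen
  have hr : PTF (fun c => pick (fun Y => linkB (X c) Y) (l c)) :=
    ptf_pick (p := fun c Y => linkB (X c) Y) (ptf_linkB (PTF.comp hX PTF.fst) PTF.snd) hl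
  have hX1 := PTF.append hX (ptf_fst hr)
  have hq : PTF (fun c => pick (fun Z => linkB Z (X c ++ (pick (fun Y => linkB (X c) Y) (l c)).1))
      (pick (fun Y => linkB (X c) Y) (l c)).2) :=
    ptf_pick (p := fun c Z => linkB Z (X c ++ (pick (fun Y => linkB (X c) Y) (l c)).1))
      (ptf_linkB PTF.snd (PTF.comp hX1 PTF.fst)) (ptf_snd hr)
  exact PTF.listCons (PTF.append (ptf_fst hq) hX1) (ptf_snd hq)

/-- sizes: removing and inserting -/
theorem sz_pick (p : PL → Bool) (l : List PL) :
    2 * sz (pick p l).1 + sz (pick p l).2 ≤ sz l := by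
  unfold pick
  induction l with
  | nil => simp
  | cons a l ih =>
    by_cases h : p a
    · simp [h]
    · simp only [Bool.not_eq_true] at h
      simp only [List.find?_cons, h, List.eraseP_cons, sz_cons] at ih ⊢
      simp only [cond_false, sz_cons]
      omega

theorem sz_insertOpen (X : PL) (l : List PL) : sz (insertOpen X l) ≤ sz l + (2 * sz X + 1) := by
  unfold insertOpen
  have h1 := sz_pick (fun Y => linkB X Y) l
  have h2 := sz_pick (fun Z => linkB Z (X ++ (pick (fun Y => linkB X Y) l).1))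
    (pick (fun Y => linkB X Y) l).2
  simp only [sz_cons, sz_append]
  omega

theorem ptf_mergeAll {l : γ → List PL} (hl : PTF l) : PTF (fun c => mergeAll (l c)) := by
  unfold mergeAll
  refine PTF.foldr_add (f := fun (_ : γ) X acc => insertOpen X acc) hl
    (ptf_insertOpen (ptf_fst PTF.snd) (ptf_snd PTF.snd)) (PTF.const [])
    (G := fun c => 2 * sz (l c) + 1) (by have := hl.sz; fun_prop) ?_
  intro c b a ha
  refine (sz_insertOpen a b).trans ?_
  have := sz_mem_le ha
  omega

end Crest.Agent.R287
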