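import Crest.Agent.R287.Ring
import Crest.Agent.R287.Visit

/-!
# Row 287: cost side — geometry of rings

`Near K A`: the ring `K` can be inserted at the ring `A` at (extra) cost at most `w_K`.
`LinkAt K A s t`: common run of `K` (starting at `s`) and `A` (starting at `t`), left-maximal,
touched by both.  Facts (N), (P), (F), (D), (S1), (S2), run start, propagation.
-/

set_option autoImplicit false

namespace Crest.Agent.R287

theorem win_congr {κ κ' : ℤ → ℕ} {i j : ℤ} (h : ∀ t, i ≤ t → t < j → κ t = κ' t) :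
    win κ i j = win κ' i j := by
  rw [win_eq_iff _ _ rfl]
  intro n h0 h1
  exact h _ (by omega) (by omega)

theorem win_shift (κ : ℤ → ℕ) (d i j : ℤ) :
    win (fun t => κ (t + d)) i j = win κ (i + d) (j + d) := by
  rw [win_eq_iff _ _ (by ring)]
  intro n _ _
  show κ (i + n + d) = κ (i + d + n)
  congr 1; ring

theorem dist_win (κ : ℤ → ℕ) {i j i' j' : ℤ} (hi : i ≤ i') (hj : j ≤ j') {n : ℕ}
    (hn : j' - j ≤ n) : dist (win κ i j) (win κ i' j') ≤ n := by
  rcases le_total i' j with h | h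
  · have := dist_le (v := win κ i j) (u := win κ i' j') (w := win κ i' j)
      ⟨win κ i i', (win_append κ hi h).symm⟩ ⟨win κ j j', (win_append κ h hj).symm⟩
    simp only [length_win] at this; omega
  · have := dist_le_length (win κ i j) (win κ i' j')
    simp only [length_win] at this; omega

/-- Weak Fine–Wilf theorem for bi-infinite periodic texts. -/
theorem fineWilf {κ κ' : ℤ → ℕ} {w w' s e : ℤ} (hw : 0 < w) (hw' : 0 < w')
    (h : ∀ i, κ (i + w) = κ i) (h' : ∀ i, κ' (i + w') = κ' i)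
    (ha : ∀ t, s ≤ t → t < e → κ t = κ' t) (hl : s + w + w' ≤ e) : κ = κ' := by
  -- iterate periods
  have per : ∀ (f : ℤ → ℕ) (q : ℤ), (∀ i, f (i + q) = f i) → ∀ (n : ℤ) (i : ℤ), f (i + n * q) = f i := by
    intro f q hf n
    induction n using Int.induction_on with
    | zero => intro i; simp
    | succ n ih => intro i; rw [add_mul, one_mul, ← add_assoc, hf, ih]
    | pred n ih =>
      intro i
      have := hf (i + (-(n:ℤ) - 1) * q)
      rw [← this, ← ih i]
      congr 1; ring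
  -- reduce into a window of length `q` starting at `s`
  have red : ∀ (q : ℤ), 0 < q → ∀ i, ∃ n : ℤ, s ≤ i + n * q ∧ i + n * q < s + q := by
    intro q hq i
    refine ⟨-((i - s) / q), ?_, ?_⟩
    · have := Int.emod_nonneg (i - s) hq.ne'
      have h2 := Int.emod_add_mul_ediv (i - s) q
      nlinarith
    · have := Int.emod_lt_of_pos (i - s) hq
      have h2 := Int.emod_add_mul_ediv (i - s) q
      nlinarith
  -- κ has period w'
  have hk : ∀ i, κ (i + w') = κ i := by
    intro i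
    obtain ⟨n, h1, h2⟩ := red w hw i
    have e1 : κ i = κ (i + n * w) := (per κ w h n i).symm
    have e2 : κ (i + w') = κ (i + n * w + w') := by
      have := per κ w h n (i + w')
      rw [← this]; congr 1; ring
    rw [e1, e2, ha (i + n * w) h1 (by omega), ha (i + n * w + w') (by omega) (by omega), h']
  funext i
  obtain ⟨n, h1, h2⟩ := red w' hw' i
  rw [← per κ w' hk n i, ← per κ' w' h' n i]
  exact ha _ h1 (by omega)

namespace Ring

theorem wpos' (R : Ring) : (0 : ℤ) < R.w := by exact_mod_cast R.wpos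

/-- the visited words -/
def VisW (R : Ring) (y : List ℕ) : Prop := ∃ i j, R.Vis i j ∧ y = win R.κ i j

@[simp] theorem shift_w (R : Ring) (d : ℤ) : (R.shift d).w = R.w := rfl
@[simp] theorem shift_κ (R : Ring) (d t : ℤ) : (R.shift d).κ t = R.κ (t + d) := rfl
@[simp] theorem shift_F (R : Ring) (d t : ℤ) : (R.shift d).F t = R.F (t + d) - d := rfl

theorem visW_shift (R : Ring) (d : ℤ) (y : List ℕ) : (R.shift d).VisW y ↔ R.VisW y := by
  constructor
  · rintro ⟨i, j, ⟨h1, h2⟩, rfl⟩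
    refine ⟨i + d, j + d, ⟨?_, ?_⟩, ?_⟩
    · simp only [shift_F] at h1
      have : i - 1 + d = i + d - 1 := by ring
      rw [this] at h1; omega
    · simp only [shift_F] at h2; omega
    · exact win_shift R.κ d i j
  · rintro ⟨i, j, ⟨h1, h2⟩, rfl⟩
    refine ⟨i - d, j - d, ⟨?_, ?_⟩, ?_⟩
    · simp only [shift_F]
      have : i - d - 1 + d = i - 1 := by ring
      rw [this]; omega
    · simp only [shift_F]
      have : i - d + d = i := by ring
      rw [this]; omega
    · have := win_shift R.κ d (i - d) (j - d)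
      have e : (R.shift d).κ = fun t => R.κ (t + d) := rfl
      rw [e, this]; congr 1 <;> ring

theorem F_le {R : Ring} {a b : ℤ} (h : a ≤ b) : R.F a ≤ R.F b := R.mono h

theorem le_F (R : Ring) (i : ℤ) : i ≤ R.F (i - 1) := by
  have := R.Fgt (i - 1); omega

theorem Wrap.lt {R : Ring} (h : R.Wrap) (i : ℤ) : i + R.w < R.F (i - 1) := by
  have := R.lev_le i
  unfold Wrap at h
  omega

theorem wrap_iff {R : Ring} : R.Wrap ↔ ∀ i, i + R.w < R.F (i - 1) := by
  refine ⟨fun h i => h.lt i, fun h => ?_⟩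
  obtain ⟨i, _, _, hi⟩ := R.exists_lev
  have := h i
  unfold Wrap; omega

theorem lev_shift (R : Ring) (d : ℤ) : (R.shift d).lev = R.lev := by
  apply le_antisymm
  · obtain ⟨i, _, _, hi⟩ := R.exists_lev
    have := (R.shift d).lev_le (i - d)
    have e : i - d - 1 + d = i - 1 := by ring
    simp only [shift_F, e] at this
    omega
  · obtain ⟨i, _, _, hi⟩ := (R.shift d).exists_lev
    have := R.lev_le (i + d)
    have e : i - 1 + d = i + d - 1 := by ring
    simp only [shift_F, e] at hi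
    omega

theorem wrap_shift {R : Ring} {d : ℤ} : (R.shift d).Wrap ↔ R.Wrap := by
  unfold Wrap; rw [lev_shift, shift_w]

end Ring

/-- `K` can be inserted at `A` at cost at most `w_K`. -/
def Near (K A : Ring) : Prop :=
  ∃ u v, K.VisW u ∧ A.VisW v ∧ dist v u + dist u v ≤ K.w

/-- sharing a vertex gives `Near` -/
lemma near_of_common {K A : Ring} {y : List ℕ} (h1 : K.VisW y) (h2 : A.VisW y) : Near K A :=
  ⟨y, y, h1, h2, by rw [dist_self]; omega⟩

lemma near_shift_left {K A : Ring} (d : ℤ) : Near (K.shift d) A ↔ Near K A := by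
  unfold Near
  simp only [Ring.visW_shift, Ring.shift_w]

lemma near_shift_right {K A : Ring} (d : ℤ) : Near K (A.shift d) ↔ Near K A := by
  unfold Near
  simp only [Ring.visW_shift]

/-- Lemma N: `A` visits the window `[a,c)`, `K` agrees there, and the staircase of `K` meets the
square `[a,a+w] × [c,c+w]`. -/
theorem near_of_square {K A : Ring} {a c : ℤ} (hA1 : A.F (a - 1) ≤ c) (hA2 : c ≤ A.F a)
    (hag : ∀ t, a ≤ t → t < c → K.κ t = A.κ t)
    (h1 : K.F (a - 1) ≤ c + K.w) (h2 : c ≤ K.F a + K.w) : Near K A := by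
  have hac : a ≤ c := (A.le_F a).trans hA1
  have hwK := K.wpos'
  -- find the vertex of K in the square
  have key : ∃ i j, a ≤ i ∧ i ≤ a + K.w ∧ c ≤ j ∧ j ≤ c + K.w ∧ K.F (i - 1) ≤ j ∧ j ≤ K.F i := by
    rcases le_or_gt c (K.F (a - 1)) with hc | hc
    · exact ⟨a, K.F (a - 1), le_rfl, by omega, hc, h1, le_rfl, Ring.F_le (by omega)⟩
    · -- least `n` with `c ≤ F (a + n)`
      have hex : ∃ n : ℕ, c ≤ K.F (a + n) := by
        refine ⟨K.w, ?_⟩
        rw [K.Fper]; exact h2
      classical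
      let n := Nat.find hex
      have hn : c ≤ K.F (a + n) := Nat.find_spec hex
      have hnw : (n : ℤ) ≤ K.w := by
        have : n ≤ K.w := Nat.find_min' hex (by rw [K.Fper]; exact h2)
        omega
      refine ⟨a + n, c, by omega, by omega, le_rfl, by omega, ?_, hn⟩
      rcases Nat.eq_zero_or_pos n with h0 | h0
      · rw [h0]; simp; omega
      · have := Nat.find_min hex (show n - 1 < n by omega)
        rw [not_le] at this
        have e : (a + ((n - 1 : ℕ) : ℤ)) = a + n - 1 := by omega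
        rw [e] at this; omega
  obtain ⟨i, j, hi1, hi2, hj1, hj2, hF1, hF2⟩ := key
  have hij : i ≤ j := (K.le_F i).trans hF1
  refine ⟨win K.κ i j, win A.κ a c, ⟨i, j, ⟨hF1, hF2⟩, rfl⟩, ⟨a, c, ⟨hA1, hA2⟩, rfl⟩, ?_⟩
  rw [← win_congr hag]
  have h3 : dist (win K.κ a c) (win K.κ i j) ≤ (j - c).toNat := dist_win K.κ hi1 hj1 (by omega)
  have h4 : dist (win K.κ i j) (win K.κ a c) ≤ (c + K.w - j).toNat := by
    rw [← K.win_per a c]
    exact dist_win K.κ hi2 hj2 (by omega)
  omega

/-- Contrapositive form of Lemma N. -/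
theorem far_of_not_near {K A : Ring} (hn : ¬ Near K A) {a c : ℤ} (hA1 : A.F (a - 1) ≤ c)
    (hA2 : c ≤ A.F a) (hag : ∀ t, a ≤ t → t < c → K.κ t = A.κ t) :
    c + K.w < K.F (a - 1) ∨ K.F a + K.w < c := by
  by_contra h
  push Not at h
  exact hn (near_of_square hA1 hA2 hag h.1 h.2)

/-- `K` and `A` have a common run starting in column `0` (of both; `K` at `s`, `A` at `t`), which
is touched by both. -/
def LinkAt (K A : Ring) (s t : ℤ) : Prop :=
  K.κ (s - 1) ≠ A.κ (t - 1) ∧
    ∀ i, 0 ≤ i → (i < K.F (s - 1) - s ∨ i < A.F (t - 1) - t) → K.κ (s + i) = A.κ (t + i)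

lemma LinkAt.symm {K A : Ring} {s t : ℤ} (h : LinkAt K A s t) : LinkAt A K t s :=
  ⟨fun e => h.1 e.symm, fun i h0 h1 => (h.2 i h0 h1.symm).symm⟩

/-- Weak Fine-Wilf bound for an aligned pair. -/
theorem agree_lt {K A : Ring} {s e : ℤ} (hag : ∀ t, s ≤ t → t < e → K.κ t = A.κ t)
    {x : ℤ} (hne : K.κ x ≠ A.κ x) : e < s + K.w + A.w := by
  by_contra h
  push Not at h
  exact hne (congrFun (fineWilf K.wpos' A.wpos' K.κper A.κper hag h) x)

/-- Aligned version of `LinkAt`. -/
def AlLink (K A : Ring) (s : ℤ) : Prop :=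
  K.κ (s - 1) ≠ A.κ (s - 1) ∧
    ∀ t, s ≤ t → (t < K.F (s - 1) ∨ t < A.F (s - 1)) → K.κ t = A.κ t

lemma linkAt_iff_alLink {K A : Ring} {s t : ℤ} :
    LinkAt K A s t ↔ AlLink (K.shift (s - t)) A t := by
  have e1 : t - 1 + (s - t) = s - 1 := by ring
  unfold LinkAt AlLink
  simp only [Ring.shift_κ, Ring.shift_F, e1]
  refine and_congr Iff.rfl ⟨fun h x hx hx2 => ?_, fun h i hi hi2 => ?_⟩
  · have := h (x - t) (by omega) (by omega)
    have e2 : s + (x - t) = x + (s - t) := by ring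
    have e3 : t + (x - t) = x := by ring
    rwa [e2, e3] at this
  · have := h (t + i) (by omega) (by omega)
    have e2 : t + i + (s - t) = s + i := by ring
    rwa [e2] at this

lemma AlLink.symm {K A : Ring} {s : ℤ} (h : AlLink K A s) : AlLink A K s :=
  ⟨fun e => h.1 e.symm, fun i h0 h1 => (h.2 i h0 h1.symm).symm⟩

/-- (P) -/
theorem AlLink.bound {K A : Ring} {s : ℤ} (h : AlLink K A s) :
    K.F (s - 1) < s + K.w + A.w ∧ A.F (s - 1) < s + K.w + A.w :=
  ⟨agree_lt (fun t h1 h2 => h.2 t h1 (Or.inl h2)) h.1,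
    agree_lt (fun t h1 h2 => h.2 t h1 (Or.inr h2)) h.1⟩

/-- (F) a linked wrap can be inserted at a partner of smaller (or equal) period -/
theorem AlLink.near_of_le {K A : Ring} {s : ℤ} (h : AlLink K A s) (hK : K.Wrap) (hA : A.Wrap)
    (hw : K.w ≤ A.w) : Near A K := by
  have hb := h.bound
  have h1 := hK.lt s
  have h2 := hA.lt s
  have h3 : A.F (s - 1) ≤ A.F s := Ring.F_le (by omega)
  refine near_of_square (a := s) (c := K.F (s - 1)) le_rfl (Ring.F_le (by omega))
    (fun t ht1 ht2 => (h.2 t ht1 (Or.inl ht2)).symm) ?_ ?_ <;> omega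

/-- (D) -/
theorem AlLink.deep {K A : Ring} {s : ℤ} (h : AlLink K A s) (hA : A.Wrap)
    (hn : ¬ Near K A) : K.F s + K.w < A.F (s - 1) := by
  have hb := h.bound
  have h2 := hA.lt s
  rcases far_of_not_near hn (a := s) (c := A.F (s - 1)) le_rfl (Ring.F_le (by omega))
    (fun t ht1 ht2 => h.2 t ht1 (Or.inr ht2)) with h1 | h1
  · omega
  · exact h1

/-- propagation of "far below" to the left inside an agreement run -/
theorem deep_left {K V : Ring} (hn : ¬ Near K V) {s : ℤ} :
    ∀ (n : ℕ) (i c : ℤ), i = s + n → V.F (i - 1) ≤ c → c ≤ V.F i →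
      (∀ t, s ≤ t → t < c → K.κ t = V.κ t) → K.F i + K.w < c →
      K.F s + K.w < V.F (s - 1) := by
  intro n
  induction n with
  | zero =>
    intro i c hi h1 h2 hag hd
    simp only [Nat.cast_zero, add_zero] at hi
    subst hi
    rcases far_of_not_near hn (a := i) (c := V.F (i - 1)) le_rfl (Ring.F_le (by omega))
      (fun t ht1 ht2 => hag t ht1 (by omega)) with h | h
    · exfalso
      have hw := K.wpos'
      have hm : K.F (i - 1) ≤ K.F i := Ring.F_le (by omega)
      refine hn (near_of_common (y := win K.κ i (K.F i)) ⟨i, K.F i, ⟨hm, le_rfl⟩, rfl⟩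
        ⟨i, K.F i, ⟨by omega, by omega⟩, win_congr fun t ht1 ht2 => hag t ht1 (by omega)⟩)
    · exact h
  | succ n ih =>
    intro i c hi h1 h2 hag hd
    have hd' : K.F i + K.w < V.F (i - 1) := by
      rcases far_of_not_near hn (a := i) (c := V.F (i - 1)) le_rfl (Ring.F_le (by omega))
        (fun t ht1 ht2 => hag t (by omega) (by omega)) with h | h
      · exfalso
        have hw := K.wpos'
        have hm : K.F (i - 1) ≤ K.F i := Ring.F_le (by omega)
        refine hn (near_of_common (y := win K.κ i (K.F i)) ⟨i, K.F i, ⟨hm, le_rfl⟩, rfl⟩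
          ⟨i, K.F i, ⟨by omega, by omega⟩,
            win_congr fun t ht1 ht2 => hag t (by omega) (by omega)⟩)
      · exact h
    have hm : K.F (i - 1) ≤ K.F i := Ring.F_le (by omega)
    refine ih (i - 1) (V.F (i - 1)) (by push_cast at hi; omega) (Ring.F_le (by omega)) le_rfl
      (fun t ht1 ht2 => hag t ht1 (by omega)) (by omega)

/-- (S1) the entries of the deep leaves of a star are monotone -/
theorem star_mono {A K₁ K₂ : Ring} {s₁ s₂ : ℤ} (hs : s₁ < s₂) (hK₂ : K₂.Wrap)
    (h1 : ∀ t, s₁ ≤ t → t < A.F (s₁ - 1) → K₁.κ t = A.κ t)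
    (hd : K₁.F (s₁ - 1) + K₁.w ≤ A.F (s₁ - 1))
    (hne : K₂.κ (s₂ - 1) ≠ A.κ (s₂ - 1))
    (h2 : ∀ t, s₂ ≤ t → t < A.F (s₂ - 1) → K₂.κ t = A.κ t) :
    K₁.F (s₁ - 1) < K₂.F (s₂ - 1) := by
  by_contra hlt
  push Not at hlt
  have hw2 := hK₂.lt s₂
  have hw1 := K₁.wpos'
  have hw2' := K₂.wpos'
  have hAm : A.F (s₁ - 1) ≤ A.F (s₂ - 1) := Ring.F_le (by omega)
  have heq : K₁.κ = K₂.κ := fineWilf (s := s₂) (e := A.F (s₁ - 1)) K₁.wpos' K₂.wpos' K₁.κper K₂.κper
    (fun t ht1 ht2 => (h1 t (by omega) ht2).trans (h2 t ht1 (by omega)).symm) (by omega)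
  apply hne
  rw [← heq]
  exact h1 _ (by omega) (by omega)

/-- (S2) the cost bound of a star with at least two leaves -/
theorem star_cost {A K₁ Kₙ : Ring} {s₁ sₙ : ℤ} (_ : s₁ ≤ sₙ) (hs' : sₙ < s₁ + A.w)
    (hne : K₁.κ (s₁ - 1) ≠ A.κ (s₁ - 1))
    (h1 : ∀ t, s₁ ≤ t → t < A.F (s₁ - 1) → K₁.κ t = A.κ t)
    (hn : ∀ t, sₙ ≤ t → t < A.F (sₙ - 1) → Kₙ.κ t = A.κ t) :
    A.F (sₙ - 1) < s₁ + A.w + K₁.w + Kₙ.w := by
  by_contra hlt
  push Not at hlt
  have hw1 := K₁.wpos'
  have hwn := Kₙ.wpos'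
  have hwA := A.wpos'
  have hAm : A.F (sₙ - 1) ≤ A.F (s₁ - 1) + A.w := by
    rw [← A.Fper]; exact Ring.F_le (by omega)
  have hAp : ∀ t, A.κ (t - A.w) = A.κ t := by
    intro t
    rw [← A.κper (t - A.w)]; congr 1; ring
  have heq : (K₁.shift (-A.w)).κ = Kₙ.κ := by
    refine fineWilf (s := s₁ + A.w) (e := A.F (sₙ - 1)) (K₁.shift (-A.w)).wpos' Kₙ.wpos'
      (K₁.shift (-A.w)).κper Kₙ.κper (fun t ht1 ht2 => ?_) (by simp only [Ring.shift_w]; omega)
    rw [hn t (by omega) ht2, ← hAp t]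
    exact h1 _ (by omega) (by omega)
  apply hne
  have e1 := congrFun heq (s₁ + A.w - 1)
  simp only [Ring.shift_κ] at e1
  have e2 : s₁ + A.w - 1 + -A.w = s₁ - 1 := by ring
  rw [e2] at e1
  rw [e1, hn _ (by omega) (by omega), ← hAp (s₁ + A.w - 1)]
  exact congrArg A.κ (by ring)

/-- (S2') the cost bound for a star with one leaf -/
theorem star_cost_one {A K₁ : Ring} {s₁ : ℤ}
    (hne : K₁.κ (s₁ - 1) ≠ A.κ (s₁ - 1))
    (h1 : ∀ t, s₁ ≤ t → t < A.F (s₁ - 1) → K₁.κ t = A.κ t) :
    A.F (s₁ - 1) < s₁ + A.w + K₁.w := by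
  have := agree_lt h1 hne; omega

/-- texts which are not equal have a mismatch to the left of every position -/
theorem exists_run_start {K V : Ring} (hne : K.κ ≠ V.κ) {i c : ℤ}
    (hag : ∀ t, i ≤ t → t < c → K.κ t = V.κ t) :
    ∃ s, s ≤ i ∧ K.κ (s - 1) ≠ V.κ (s - 1) ∧ ∀ t, s ≤ t → t < c → K.κ t = V.κ t := by
  obtain ⟨x, hx⟩ := Function.ne_iff.mp hne
  have hK := K.wpos'
  have hV := V.wpos'
  -- move `x` to the left of `i`
  have hper : ∀ n : ℕ, K.κ (x - n * (K.w * V.w)) ≠ V.κ (x - n * (K.w * V.w)) := by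
    intro n
    have e1 : K.κ x = K.κ (x - n * (K.w * V.w)) := by
      have := K.κper' (n * V.w) (x - n * (K.w * V.w))
      rw [← this]; congr 1; ring
    have e2 : V.κ x = V.κ (x - n * (K.w * V.w)) := by
      have := V.κper' (n * K.w) (x - n * (K.w * V.w))
      rw [← this]; congr 1; ring
    rw [← e1, ← e2]; exact hx
  obtain ⟨y, hyi, hy⟩ : ∃ y, y ≤ i - 1 ∧ K.κ y ≠ V.κ y := by
    refine ⟨_, ?_, hper (x - i + 1).toNat⟩
    have h1 : (1 : ℤ) ≤ K.w * V.w := by nlinarith
    rcases le_total (x - i + 1) 0 with h | h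
    · have : (x - i + 1).toNat = 0 := by omega
      rw [this]; simp; omega
    · have : (((x - i + 1).toNat : ℕ) : ℤ) = x - i + 1 := by omega
      rw [this]; nlinarith
  obtain ⟨g, ⟨hg1, hg2⟩, hg3⟩ := Int.exists_greatest_of_bdd
    (P := fun y => y ≤ i - 1 ∧ K.κ y ≠ V.κ y) ⟨i - 1, fun z hz => hz.1⟩ ⟨y, hyi, hy⟩
  refine ⟨g + 1, by omega, by simpa using hg2, fun t ht1 ht2 => ?_⟩
  rcases le_or_gt i t with h | h
  · exact hag t h ht2
  · by_contra hh
    have := hg3 t ⟨by omega, hh⟩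
    omega

/-- texts in phase: nothing to the left can be a mismatch -/
theorem Ring.Linked.linkAt {K A : Ring} (h : K.Linked A) : ∃ s t, LinkAt K A s t := by
  obtain ⟨s, t, n, hw, h1, h2, hne⟩ := h
  -- work in the coordinates of `A`
  have hag : ∀ x, t ≤ x → x < t + n → (K.shift (s - t)).κ x = A.κ x := by
    intro x hx1 hx2
    rcases le_or_gt n 0 with hn | hn
    · omega
    · have := (win_eq_iff K.κ A.κ (by ring)).mp hw (x - t) (by omega) (by omega)
      have e1 : t + (x - t) = x := by ring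
      have e2 : s + (x - t) = x + (s - t) := by ring
      rw [e1, e2] at this
      exact this
  have hne' : (K.shift (s - t)).κ ≠ A.κ := by
    intro he
    apply hne
    intro r
    rw [← congrFun he (t + r), Ring.shift_κ]
    congr 1; ring
  obtain ⟨g, hg1, hg2, hg3⟩ := exists_run_start hne' hag
  refine ⟨g + (s - t), g, linkAt_iff_alLink.mpr ?_⟩
  have e3 : g + (s - t) - g = s - t := by ring
  rw [e3]
  refine ⟨hg2, fun x hx1 hx2 => hg3 x hx1 ?_⟩
  unfold Ring.Touch at h1 h2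
  rcases hx2 with hx2 | hx2
  · simp only [Ring.shift_F] at hx2
    have : K.F (g - 1 + (s - t)) ≤ K.F (s - 1) := Ring.F_le (by omega)
    omega
  · have : A.F (g - 1) ≤ A.F (t - 1) := Ring.F_le (by omega)
    omega

theorem LinkAt.linked {K A : Ring} {s t : ℤ} (h : LinkAt K A s t) : K.Linked A := by
  obtain ⟨h1, h2⟩ := h
  have hK := K.le_F s
  have hA := A.le_F t
  refine ⟨s, t, max (K.F (s - 1) - s) (A.F (t - 1) - t), ?_, ?_, ?_, fun h => ?_⟩
  · rw [win_eq_iff _ _ (by ring)]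
    intro n hn1 hn2
    refine h2 n hn1 ?_
    rw [add_sub_cancel_left] at hn2
    exact lt_max_iff.mp hn2
  · unfold Ring.Touch
    have := le_max_left (K.F (s - 1) - s) (A.F (t - 1) - t)
    omega
  · unfold Ring.Touch
    have := le_max_right (K.F (s - 1) - s) (A.F (t - 1) - t)
    omega
  · exact h1 (h (-1))

theorem linked_iff {K A : Ring} : K.Linked A ↔ ∃ s t, LinkAt K A s t :=
  ⟨fun h => h.linkAt, fun ⟨_, _, h⟩ => h.linked⟩

/-- `K` deep below `A`: in coordinates of `A`, `s` is the left end of a common run, and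
`K` (shifted by `d`) is more than `w_K` below `A` in column `s`. -/
structure DeepAt (K A : Ring) (d s : ℤ) : Prop where
  ne : K.κ (s - 1 + d) ≠ A.κ (s - 1)
  ag : ∀ t, s ≤ t → t < A.F (s - 1) → K.κ (t + d) = A.κ t
  deep : K.F (s + d) - d + K.w < A.F (s - 1)

end Crest.Agent.R287
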