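import Crest.Agent.R287.LBDefs

/-!
Row 287: rings as cyclic lists of words ("P-lists").

A P-list `P` is read cyclically; `P_i` is the longest covered window starting at `i`:
every `P_i` is nonempty and `P_i.tail <+: P_{i+1}`.  `toRing` turns it into a `Ring` with
`κ i = head P_i`, `F i = i + |P_i|`.
-/

set_option autoImplicit false

namespace Crest.Agent.R287

/-- entry of a cyclic list at an integer position -/
def pz (P : List (List ℕ)) (i : ℤ) : List ℕ := P.getD (i % (P.length : ℤ)).toNat []

/-- cyclic P-list -/
def IsPRing (P : List (List ℕ)) : Prop :=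
  P ≠ [] ∧ (∀ p ∈ P, p ≠ []) ∧
    List.IsChain (fun p q : List ℕ => p.tail <+: q) (P ++ [P.headD []])

theorem pz_per (P : List (List ℕ)) (i : ℤ) : pz P (i + P.length) = pz P i := by
  unfold pz; rw [Int.add_emod_right]

theorem pz_nat {P : List (List ℕ)} {n : ℕ} (h : n < P.length) : pz P n = P.getD n [] := by
  unfold pz
  rw [Int.emod_eq_of_lt (by omega) (by omega)]
  simp

theorem pz_mem {P : List (List ℕ)} (hP : P ≠ []) (i : ℤ) : pz P i ∈ P := by
  unfold pz
  have hl : 0 < P.length := List.length_pos_iff.mpr hP
  have h0 := Int.emod_nonneg i (b := (P.length : ℤ)) (by omega)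
  have h1 := Int.emod_lt_of_pos i (b := (P.length : ℤ)) (by omega)
  have h2 : (i % (P.length : ℤ)).toNat < P.length := by omega
  rw [List.getD_eq_getElem?_getD, List.getElem?_eq_getElem h2]
  simp

theorem exists_nat_pz {P : List (List ℕ)} (hP : P ≠ []) (i : ℤ) :
    ∃ n : ℕ, n < P.length ∧ ∃ k : ℤ, i = n + k * P.length := by
  have hl : 0 < P.length := List.length_pos_iff.mpr hP
  have h0 := Int.emod_nonneg i (b := (P.length : ℤ)) (by omega)
  have h1 := Int.emod_lt_of_pos i (b := (P.length : ℤ)) (by omega)
  refine ⟨(i % (P.length : ℤ)).toNat, by omega, i / P.length, ?_⟩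
  have e : i % (P.length : ℤ) + (i / P.length) * P.length = i := by
    rw [mul_comm]; exact Int.emod_add_mul_ediv i _
  omega

theorem pz_step {P : List (List ℕ)} (h : IsPRing P) (i : ℤ) : (pz P i).tail <+: pz P (i + 1) := by
  obtain ⟨hne, hpos, hch⟩ := h
  have hl : 0 < P.length := List.length_pos_iff.mpr hne
  have h0 := Int.emod_nonneg i (b := (P.length : ℤ)) (by omega)
  have h1 := Int.emod_lt_of_pos i (b := (P.length : ℤ)) (by omega)
  obtain ⟨n, hn⟩ := Int.eq_ofNat_of_zero_le h0
  have hnlt : n < P.length := by omega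
  have hP1 : pz P i = (P ++ [P.headD []])[n]'(by simp; omega) := by
    unfold pz
    rw [hn, List.getElem_append_left hnlt]
    simp [List.getD_eq_getElem?_getD, List.getElem?_eq_getElem hnlt]
  have hP2 : pz P (i + 1) = (P ++ [P.headD []])[n + 1]'(by simp; omega) := by
    unfold pz
    have e : (i + 1) % (P.length : ℤ) = ((n : ℤ) + 1) % (P.length : ℤ) := by
      rw [← Int.emod_add_emod, hn]
    rw [e]
    by_cases hlt : n + 1 < P.length
    · rw [Int.emod_eq_of_lt (by omega) (by omega)]
      have : ((n : ℤ) + 1).toNat = n + 1 := by omega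
      rw [this, List.getElem_append_left hlt]
      simp [List.getD_eq_getElem?_getD, List.getElem?_eq_getElem hlt]
    · have hE : n + 1 = P.length := by omega
      have : ((n : ℤ) + 1) = (P.length : ℤ) := by omega
      rw [this, Int.emod_self]
      rw [List.getElem_append_right (by omega)]
      cases P with
      | nil => exact absurd rfl hne
      | cons a l => simp [hE]
  rw [hP1, hP2]
  rw [List.isChain_iff_getElem] at hch
  exact hch n (by simp; omega)

/-- the ring of a P-list -/
def toRing (P : List (List ℕ)) (h : IsPRing P) : Ring where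
  w := P.length
  wpos := List.length_pos_iff.mpr h.1
  κ := fun i => (pz P i).headD 0
  κper := by intro i; rw [pz_per]
  F := fun i => i + (pz P i).length
  mono := by
    apply monotone_int_of_le_succ
    intro i
    have h1 := (pz_step h i).length_le
    rw [List.length_tail] at h1
    omega
  Fper := by intro i; rw [pz_per]; ring
  Fgt := by
    intro i
    have := List.length_pos_iff.mpr (h.2.1 _ (pz_mem h.1 i))
    omega

section

variable {P : List (List ℕ)} (h : IsPRing P)

@[simp] theorem toRing_w : (toRing P h).w = P.length := rfl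
theorem toRing_κ (i : ℤ) : (toRing P h).κ i = (pz P i).headD 0 := rfl
theorem toRing_F (i : ℤ) : (toRing P h).F i = i + (pz P i).length := rfl

/-- every prefix of `P_i` is a window of the text -/
theorem prefix_pz (n : ℕ) : ∀ (i : ℤ) (v : List ℕ), v.length = n → v <+: pz P i →
    win (toRing P h).κ i (i + n) = v := by
  induction n with
  | zero =>
    intro i v hv _
    rw [List.length_eq_zero_iff] at hv
    subst hv
    simp [win_self]
  | succ n ih =>
    intro i v hv hpre
    cases v with
    | nil => simp at hv
    | cons a v =>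
      have hv' : v.length = n := by simpa using hv
      obtain ⟨r, hr⟩ := hpre
      have hhead : (toRing P h).κ i = a := by
        rw [toRing_κ, ← hr]; simp
      have htail : v <+: pz P (i + 1) := by
        refine List.IsPrefix.trans ?_ (pz_step h i)
        rw [← hr]
        simp
      have e : i + ((n + 1 : ℕ) : ℤ) = (i + 1) + n := by push_cast; ring
      rw [e, win_cons _ (by omega), ih (i + 1) v hv' htail, hhead]

theorem pz_eq_win (i : ℤ) : pz P i = win (toRing P h).κ i ((toRing P h).F i) := by
  have := prefix_pz h (pz P i).length i (pz P i) rfl (List.prefix_refl _)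
  rw [toRing_F]
  exact this.symm

theorem prefix_pz_iff (i : ℤ) (v : List ℕ) :
    v <+: pz P i ↔ win (toRing P h).κ i (i + v.length) = v ∧ i + v.length ≤ (toRing P h).F i := by
  constructor
  · intro hv
    refine ⟨prefix_pz h v.length i v rfl hv, ?_⟩
    have := hv.length_le
    rw [toRing_F]; omega
  · rintro ⟨h1, h2⟩
    rw [pz_eq_win h i, ← h1, win_append (toRing P h).κ (i := i) (j := i + v.length) (by omega) h2,
      h1]
    exact List.prefix_append _ _

theorem eq_pz_iff (i : ℤ) (v : List ℕ) :
    v = pz P i ↔ win (toRing P h).κ i (i + v.length) = v ∧ i + v.length = (toRing P h).F i := by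
  constructor
  · intro hv
    have := (prefix_pz_iff h i v).mp (by rw [hv])
    refine ⟨this.1, ?_⟩
    rw [toRing_F, ← hv]
  · rintro ⟨h1, h2⟩
    rw [pz_eq_win h i, ← h2, h1]

theorem sum_getD_eq_countP (p : List ℕ → Bool) (l : List (List ℕ)) :
    ∑ n ∈ Finset.range l.length, (if p (l.getD n []) = true then 1 else 0) = List.countP p l := by
  induction l with
  | nil => simp
  | cons b m ihm =>
    rw [List.length_cons, Finset.sum_range_succ', List.countP_cons]
    simp only [List.getD_cons_succ, List.getD_cons_zero]
    rw [ihm]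

theorem cnt_eq_countP (P : List (List ℕ)) (p : List ℕ → Bool) :
    cnt P.length (fun i => p (pz P i) = true) = P.countP p := by
  unfold cnt
  have h1 : ∀ n ∈ Finset.range P.length, (if p (pz P (n : ℤ)) = true then 1 else 0) =
      (if p (P.getD n []) = true then 1 else 0) := by
    intro n hn
    rw [Finset.mem_range] at hn
    rw [pz_nat hn]
  rw [Finset.sum_congr rfl h1]
  exact sum_getD_eq_countP p P

theorem M_eq_countP (y : List ℕ) :
    (toRing P h).M y = P.countP (fun p => decide (y <+: p)) := by
  rw [← cnt_eq_countP]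
  unfold Ring.M
  rw [toRing_w]
  apply cnt_congr
  intro i
  rw [decide_eq_true_iff, prefix_pz_iff h]

theorem D_eq_count (y : List ℕ) : (toRing P h).D y = P.count y := by
  rw [List.count_eq_countP, ← cnt_eq_countP]
  unfold Ring.D
  rw [toRing_w]
  apply cnt_congr
  intro i
  rw [← eq_pz_iff h]
  constructor
  · intro e; simp [← e]
  · intro e; simpa using (beq_iff_eq.mp e).symm

end

/-! ### cyclic pairs `(P_{s-1}, P_s)` -/

/-- all pairs `(P_{s-1}, P_s)` -/
def cycPairs (P : List (List ℕ)) : List (List ℕ × List ℕ) := (P.getLastD [] :: P.dropLast).zip P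

theorem cycPairs_eq (P : List (List ℕ)) :
    cycPairs P = (List.range P.length).map (fun n : ℕ => (pz P ((n : ℤ) - 1), pz P n)) := by
  apply List.ext_getElem
  · simp only [cycPairs, List.length_zip, List.length_cons, List.length_dropLast, List.length_map,
      List.length_range]
    omega
  · intro n h1 h2
    have hn : n < P.length := by simpa using h2
    have hl : 0 < P.length := by omega
    simp only [cycPairs, List.getElem_zip, List.getElem_map, List.getElem_range]
    rw [pz_nat hn]
    refine Prod.ext ?_ (by simp [List.getD_eq_getElem?_getD, List.getElem?_eq_getElem hn])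
    simp only
    cases n with
    | zero =>
      have e : (((0 : ℕ) : ℤ) - 1) % (P.length : ℤ) = ((P.length - 1 : ℕ) : ℤ) := by
        have : (((0 : ℕ) : ℤ) - 1) = ((P.length - 1 : ℕ) : ℤ) - P.length := by omega
        rw [this, Int.sub_emod_right, Int.emod_eq_of_lt (by omega) (by omega)]
      unfold pz
      rw [e]
      simp only [Int.toNat_natCast, List.getElem_cons_zero]
      rw [List.getD_eq_getElem?_getD, ← List.getLast?_eq_getElem?, List.getLastD_eq_getLast?]
    | succ m =>
      have e : (((m + 1 : ℕ) : ℤ) - 1) = (m : ℤ) := by push_cast; ring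
      rw [e, pz_nat (by omega)]
      simp only [List.getElem_cons_succ, List.getElem_dropLast]
      rw [List.getD_eq_getElem?_getD, List.getElem?_eq_getElem (by omega)]
      rfl

theorem mem_cycPairs {P : List (List ℕ)} (hP : P ≠ []) (q : List ℕ × List ℕ) :
    q ∈ cycPairs P ↔ ∃ i : ℤ, q = (pz P (i - 1), pz P i) := by
  rw [cycPairs_eq, List.mem_map]
  constructor
  · rintro ⟨n, _, h⟩
    exact ⟨n, h.symm⟩
  · rintro ⟨i, h⟩
    obtain ⟨n, hn, k, hk⟩ := exists_nat_pz hP i
    refine ⟨n, List.mem_range.mpr hn, ?_⟩
    have hper : ∀ (j : ℤ), pz P (j + k * P.length) = pz P j := by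
      intro j
      unfold pz
      rw [Int.add_mul_emod_self_right]
    rw [h, hk, hper]
    have e : (n : ℤ) + k * P.length - 1 = ((n : ℤ) - 1) + k * P.length := by ring
    rw [e, hper]

theorem cnt_pairs_eq_countP (P : List (List ℕ)) (p : List ℕ × List ℕ → Bool) :
    cnt P.length (fun i => p (pz P (i - 1), pz P i) = true) = (cycPairs P).countP p := by
  rw [cycPairs_eq, List.countP_map]
  unfold cnt
  have key : ∀ (N : ℕ) (f : ℕ → Bool),
      ∑ n ∈ Finset.range N, (if f n = true then 1 else 0) = (List.range N).countP f := by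
    intro N f
    induction N with
    | zero => simp
    | succ N ih =>
      rw [Finset.sum_range_succ, ih, List.range_succ, List.countP_append]
      simp [List.countP_cons]
  exact key P.length (fun n : ℕ => p (pz P ((n : ℤ) - 1), pz P n))

section

variable {P : List (List ℕ)} (h : IsPRing P)

include h in
theorem pz_step' (i : ℤ) : (pz P (i - 1)).tail <+: pz P i := by
  have := pz_step h (i - 1)
  rwa [sub_add_cancel] at this

theorem F_pred (i : ℤ) : (toRing P h).F (i - 1) = i + ((pz P (i - 1)).tail.length : ℤ) := by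
  have := List.length_pos_iff.mpr (h.2.1 _ (pz_mem h.1 (i - 1)))
  rw [toRing_F, List.length_tail]
  omega

theorem U_iff (i : ℤ) (y : List ℕ) :
    (win (toRing P h).κ i (i + y.length) = y ∧ ((toRing P h).F (i - 1) < i + y.length ∧
      i + y.length ≤ (toRing P h).F i)) ↔ (y <+: pz P i ∧ ¬ y <+: (pz P (i - 1)).tail) := by
  rw [prefix_pz_iff h]
  constructor
  · rintro ⟨h1, h2, h3⟩
    refine ⟨⟨h1, h3⟩, fun hc => ?_⟩
    have := hc.length_le
    rw [F_pred h] at h2
    omega
  · rintro ⟨h1, h2⟩
    refine ⟨h1.1, ?_, h1.2⟩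
    rw [F_pred h]
    by_contra hc
    exact h2 (List.prefix_of_prefix_length_le ((prefix_pz_iff h i y).mpr h1) (pz_step' h i)
      (by omega))

theorem U_eq_countP (y : List ℕ) : (toRing P h).U y =
    (cycPairs P).countP (fun q => decide (y <+: q.2 ∧ ¬ y <+: q.1.tail)) := by
  rw [← cnt_pairs_eq_countP]
  unfold Ring.U
  rw [toRing_w]
  apply cnt_congr
  intro i
  rw [U_iff h, decide_eq_true_iff]

/-- visited words in column `i` -/
theorem vis_iff (i : ℤ) (v : List ℕ) :
    (win (toRing P h).κ i (i + v.length) = v ∧ (toRing P h).Vis i (i + v.length)) ↔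
      ((pz P (i - 1)).tail <+: v ∧ v <+: pz P i) := by
  unfold Ring.Vis
  constructor
  · rintro ⟨h1, h2, h3⟩
    have h4 := (prefix_pz_iff h i v).mpr ⟨h1, h3⟩
    refine ⟨List.prefix_of_prefix_length_le (pz_step' h i) h4 ?_, h4⟩
    rw [F_pred h] at h2
    omega
  · rintro ⟨h1, h2⟩
    have h3 := (prefix_pz_iff h i v).mp h2
    refine ⟨h3.1, ?_, h3.2⟩
    rw [F_pred h]
    have := h1.length_le
    omega

/-- all visited words, as a list -/
def visWords (P : List (List ℕ)) : List (List ℕ) :=
  (cycPairs P).flatMap (fun q =>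
    (List.range (q.2.length + 2 - q.1.length)).map (fun k => q.2.take (q.1.length - 1 + k)))

include h in
theorem mem_visWords (v : List ℕ) :
    v ∈ visWords P ↔ ∃ i : ℤ, (pz P (i - 1)).tail <+: v ∧ v <+: pz P i := by
  unfold visWords
  rw [List.mem_flatMap]
  have hlen : ∀ i : ℤ, 0 < (pz P i).length := fun i =>
    List.length_pos_iff.mpr (h.2.1 _ (pz_mem h.1 i))
  constructor
  · rintro ⟨q, hq, hv⟩
    rw [mem_cycPairs h.1] at hq
    obtain ⟨i, rfl⟩ := hq
    simp only [List.mem_map, List.mem_range] at hv
    obtain ⟨k, hk, rfl⟩ := hv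
    refine ⟨i, ?_, List.take_prefix _ _⟩
    obtain ⟨r, hr⟩ := pz_step' h i
    have h1 := hlen (i - 1)
    have h2 : (pz P (i - 1)).tail = (pz P i).take ((pz P (i - 1)).length - 1) := by
      rw [← hr, List.take_append_of_le_length (by simp), List.take_of_length_le (by simp)]
    rw [h2]
    exact List.take_prefix_take_left (by omega)
  · rintro ⟨i, h1, h2⟩
    refine ⟨(pz P (i - 1), pz P i), (mem_cycPairs h.1 _).mpr ⟨i, rfl⟩, ?_⟩
    simp only [List.mem_map, List.mem_range]
    have h3 := h1.length_le
    have h4 := h2.length_le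
    rw [List.length_tail] at h3
    refine ⟨v.length - ((pz P (i - 1)).length - 1), ?_, ?_⟩
    · have := hlen (i - 1)
      omega
    · have e : (pz P (i - 1)).length - 1 + (v.length - ((pz P (i - 1)).length - 1)) = v.length := by
        omega
      rw [e]
      exact (List.prefix_iff_eq_take.mp h2).symm

theorem mem_visWords_iff (v : List ℕ) :
    v ∈ visWords P ↔ ∃ i : ℤ, win (toRing P h).κ i (i + v.length) = v ∧
      (toRing P h).Vis i (i + v.length) := by
  rw [mem_visWords h]
  simp only [vis_iff]

/-- level -/
theorem le_lev_iff (l : ℤ) : l ≤ (toRing P h).lev ↔ ∀ p ∈ P, l + 1 ≤ p.length := by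
  rw [← Ring.levGE_iff]
  unfold Ring.LevGE
  constructor
  · intro hl p hp
    obtain ⟨n, hn, rfl⟩ := List.getElem_of_mem hp
    have := hl ((n : ℤ) + 1)
    rw [toRing_F, add_sub_cancel_right, pz_nat hn, List.getD_eq_getElem?_getD,
      List.getElem?_eq_getElem hn] at this
    simp only [Option.getD_some] at this
    omega
  · intro hl i
    have := hl _ (pz_mem h.1 (i - 1))
    rw [toRing_F]
    omega

theorem wrap_iff : (toRing P h).Wrap ↔ ∀ p ∈ P, P.length + 1 < p.length := by
  unfold Ring.Wrap
  rw [← Int.add_one_le_iff, le_lev_iff h, toRing_w]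
  constructor
  · intro hl p hp; have := hl p hp; omega
  · intro hl p hp; have := hl p hp; omega

/-- the minimal length minus one -/
def levP (P : List (List ℕ)) : ℕ := ((P.map (fun p => p.length - 1)).min?).getD 0

theorem lev_eq : (toRing P h).lev = levP P := by
  have hne : P.map (fun p => p.length - 1) ≠ [] := by simpa using h.1
  obtain ⟨m, hm⟩ : ∃ m, (P.map (fun p => p.length - 1)).min? = some m := by
    cases hmin : (P.map (fun p => p.length - 1)).min? with
    | none => rw [List.min?_eq_none_iff] at hmin; exact absurd hmin hne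
    | some m => exact ⟨m, rfl⟩
  have hm' := List.min?_eq_some_iff.mp hm
  unfold levP
  rw [hm, Option.getD_some]
  have hpos : ∀ p ∈ P, 0 < p.length := fun p hp => List.length_pos_iff.mpr (h.2.1 p hp)
  apply le_antisymm
  · obtain ⟨p, hp, hpm⟩ := List.mem_map.mp hm'.1
    have := (le_lev_iff h (toRing P h).lev).mp le_rfl p hp
    have := hpos p hp
    omega
  · rw [le_lev_iff h]
    intro p hp
    have := hm'.2 (p.length - 1) (List.mem_map.mpr ⟨p, hp, rfl⟩)
    have := hpos p hp
    omega

end

end Crest.Agent.R287
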