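import Crest.Agent.R287.Core
import Crest.Agent.R287.PRing

/-!
# Row 287: counting invariants of the one-pass process
-/

set_option autoImplicit false

namespace Crest.Agent.R287.CA

/-- number of words of `X` having `v` as a prefix -/
def cM (v : Word) (X : PL) : ℕ := X.countP (fun p => decide (v <+: p))

/-- number of words of `X` whose tail has `v` as a prefix -/
def cT (v : Word) (X : PL) : ℕ := X.countP (fun p => decide (v <+: p.tail))

@[simp] theorem cM_nil (v : Word) : cM v [] = 0 := rfl
@[simp] theorem cT_nil (v : Word) : cT v [] = 0 := rfl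

theorem cM_cons (v p : Word) (X : PL) :
    cM v (p :: X) = (if v <+: p then 1 else 0) + cM v X := by
  unfold cM
  rw [List.countP_cons]
  by_cases h : v <+: p <;> simp [h, Nat.add_comm]

theorem cT_cons (v p : Word) (X : PL) :
    cT v (p :: X) = (if v <+: p.tail then 1 else 0) + cT v X := by
  unfold cT
  rw [List.countP_cons]
  by_cases h : v <+: p.tail <;> simp [h, Nat.add_comm]

theorem cM_append (v : Word) (X Y : PL) : cM v (X ++ Y) = cM v X + cM v Y := by
  unfold cM; rw [List.countP_append]

theorem cM_perm {v : Word} {X Y : PL} (h : X.Perm Y) : cM v X = cM v Y := h.countP_eq _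

theorem cM_eq_zero {v : Word} {X : PL} (h : ∀ p ∈ X, ¬ v <+: p) : cM v X = 0 := by
  unfold cM
  rw [List.countP_eq_zero]
  intro p hp
  simpa using h p hp

theorem cM_eq_zero_of_length {v : Word} {X : PL} (h : ∀ p ∈ X, p.length < v.length) :
    cM v X = 0 := cM_eq_zero fun p hp hv => by
  have := hv.length_le
  have := h p hp
  omega

/-- extension to the right -/
theorem cM_eq_sum_right (A : Finset ℕ) {X : PL} (hA : ∀ p ∈ X, ∀ c ∈ p, c ∈ A) (v : Word) :
    cM v X = ∑ b ∈ A, cM (v ++ [b]) X + X.count v := by
  induction X with
  | nil => simp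
  | cons p X ih =>
    have ih' := ih (fun q hq => hA q (List.mem_cons_of_mem _ hq))
    simp only [cM_cons, Finset.sum_add_distrib, List.count_cons]
    rw [prefix_split A (hA p List.mem_cons_self), ih']
    by_cases h : v = p
    · subst h; simp; ring
    · have h' : ¬ (p = v) := fun e => h e.symm
      simp [h, h']; ring

theorem cons_prefix_iff_tail {a : ℕ} {v p : Word} :
    (a :: v) <+: p ↔ ∃ p', p = a :: p' ∧ v <+: p' := by
  cases p with
  | nil => simp
  | cons b p' => simp [List.cons_prefix_cons, eq_comm]

/-- extension to the left -/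
theorem sum_cM_cons (A : Finset ℕ) {X : PL} (hA : ∀ p ∈ X, ∀ c ∈ p, c ∈ A) {v : Word}
    (hv : v ≠ []) : ∑ a ∈ A, cM (a :: v) X = cT v X := by
  induction X with
  | nil => simp
  | cons p X ih =>
    have ih' := ih (fun q hq => hA q (List.mem_cons_of_mem _ hq))
    simp only [cM_cons, cT_cons, Finset.sum_add_distrib]
    rw [ih']
    congr 1
    cases p with
    | nil => simp [hv]
    | cons b p' =>
      have hb : b ∈ A := hA (b :: p') List.mem_cons_self b List.mem_cons_self
      by_cases h : v <+: p'
      · have : ∀ a, ((a :: v) <+: (b :: p')) ↔ a = b := by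
          intro a; simp [List.cons_prefix_cons, h]
        simp only [this, List.tail_cons, h, if_true]
        rw [Finset.sum_ite_eq' A b]
        simp [hb]
      · have : ∀ a, ¬ ((a :: v) <+: (b :: p')) := by
          intro a; simp [List.cons_prefix_cons, h]
        simp [this, h]

/-- telescoping along a chain -/
theorem cM_chain {v : Word} {X : PL} (hX : X ≠ [])
    (hc : X.IsChain (fun p q => v <+: q ↔ v <+: p.tail)) :
    cM v X + (if v <+: (lastW X).tail then 1 else 0) =
      cT v X + (if v <+: headW X then 1 else 0) := by
  induction X with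
  | nil => exact absurd rfl hX
  | cons p X ih =>
    cases X with
    | nil => simp [cM_cons, cT_cons, lastW, headW]; omega
    | cons q X =>
      rw [List.isChain_cons_cons] at hc
      have h1 := ih (by simp) hc.2
      rw [cM_cons, cT_cons]
      have h2 : lastW (p :: q :: X) = lastW (q :: X) := rfl
      have h3 : headW (p :: q :: X) = p := rfl
      have h4 : headW (q :: X) = q := rfl
      rw [h2, h3]
      rw [h4] at h1
      have h5 : (if v <+: q then 1 else 0 : ℕ) = if v <+: p.tail then 1 else 0 := by
        simp only [hc.1]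
      omega

/-! ### open chains -/

/-- open chain before the level `m` is processed -/
structure IsOpen (m : ℕ) (X : PL) : Prop where
  ne : X ≠ []
  chain : X.IsChain (fun p q : Word => p.tail <+: q)
  len : ∀ p ∈ X, m < p.length
  last : (lastW X).length = m + 1

theorem lastW_mem {X : PL} (h : X ≠ []) : lastW X ∈ X := by
  unfold lastW
  rw [List.getLastD_eq_getLast?, List.getLast?_eq_some_getLast h]
  simpa using List.getLast_mem h

theorem lastW_append_singleton (X : PL) (p : Word) : lastW (X ++ [p]) = p := by
  unfold lastW; simp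

theorem headW_append {X : PL} (h : X ≠ []) (Y : PL) : headW (X ++ Y) = headW X := by
  cases X with
  | nil => exact absurd rfl h
  | cons a X => rfl

theorem headW_mem {X : PL} (h : X ≠ []) : headW X ∈ X := by
  cases X with
  | nil => exact absurd rfl h
  | cons a X => simp [headW]

/-- chain relation for a word `v` which is not longer than the overlaps -/
theorem prefix_iff_of_step {m : ℕ} {v p q : Word} (h : p.tail <+: q) (hp : m < p.length)
    (hv : v.length ≤ m) : v <+: q ↔ v <+: p.tail := by
  constructor
  · intro h'
    refine List.prefix_of_prefix_length_le h' h ?_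
    rw [List.length_tail]; omega
  · intro h'; exact h'.trans h

theorem IsOpen.ext_chain {m : ℕ} {X : PL} (h : IsOpen m X) :
    (ext X).IsChain (fun p q : Word => p.tail <+: q) := by
  unfold ext
  rw [List.isChain_append]
  refine ⟨h.chain, by simp, ?_⟩
  intro x hx y hy
  have hx' : X.getLast? = some x := by simpa using hx
  have : lastW X = x := by
    unfold lastW
    rw [List.getLastD_eq_getLast?, hx']; rfl
  simp at hy
  rw [← hy, this]

theorem IsOpen.ext_chain_iff {m : ℕ} {X : PL} (h : IsOpen m X) {v : Word} (hv : v.length ≤ m) :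
    (ext X).IsChain (fun p q => v <+: q ↔ v <+: p.tail) := by
  have key : ∀ (X : PL) (z : Word), (∀ p ∈ X, m < p.length) →
      (X ++ [z]).IsChain (fun p q : Word => p.tail <+: q) →
      (X ++ [z]).IsChain (fun p q => v <+: q ↔ v <+: p.tail) := by
    intro X z
    induction X with
    | nil => intro _ _; simp
    | cons p X ih =>
      intro h1 h2
      cases X with
      | nil =>
        simp only [List.cons_append, List.nil_append, List.isChain_cons_cons,
          List.isChain_singleton, and_true] at h2 ⊢
        exact prefix_iff_of_step h2 (h1 p List.mem_cons_self) hv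
      | cons q X =>
        simp only [List.cons_append, List.isChain_cons_cons] at h2 ih ⊢
        refine ⟨prefix_iff_of_step h2.1 (h1 p List.mem_cons_self) hv, ?_⟩
        exact ih (fun r hr => h1 r (List.mem_cons_of_mem _ hr)) h2.2
  exact key X _ h.len h.ext_chain

theorem IsOpen.cM_ext_left {m : ℕ} {X : PL} (h : IsOpen m X) (A : Finset ℕ)
    (hA : ∀ p ∈ X, ∀ c ∈ p, c ∈ A) {v : Word} (hv : v ≠ []) (hvm : v.length = m) :
    cM v (ext X) = ∑ a ∈ A, cM (a :: v) (ext X) + (if v <+: headW X then 1 else 0) := by
  have hA' : ∀ p ∈ ext X, ∀ c ∈ p, c ∈ A := by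
    intro p hp c hc
    unfold ext at hp
    rcases List.mem_append.1 hp with hp | hp
    · exact hA p hp c hc
    · simp at hp
      rw [hp] at hc
      exact hA _ (lastW_mem h.ne) c (List.mem_of_mem_tail hc)
  rw [sum_cM_cons A hA' hv]
  have h1 := cM_chain (v := v) (X := ext X) (by simp [ext]) (h.ext_chain_iff (by omega))
  have h2 : lastW (ext X) = (lastW X).tail := by unfold ext; exact lastW_append_singleton _ _
  have h3 : headW (ext X) = headW X := by unfold ext; exact headW_append h.ne _
  have h4 : ¬ v <+: (lastW (ext X)).tail := by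
    intro hp
    have := hp.length_le
    rw [h2, List.length_tail, List.length_tail, h.last] at this
    have := List.length_pos_of_ne_nil hv
    omega
  rw [h3] at h1
  simp only [h4, if_false, Nat.add_zero] at h1
  exact h1

theorem IsOpen.cM_ext_right {m : ℕ} {X : PL} (h : IsOpen m X) (A : Finset ℕ)
    (hA : ∀ p ∈ X, ∀ c ∈ p, c ∈ A) {v : Word} (hvm : v.length = m) :
    cM v (ext X) = ∑ b ∈ A, cM (v ++ [b]) (ext X) + (if (lastW X).tail = v then 1 else 0) := by
  have hA' : ∀ p ∈ ext X, ∀ c ∈ p, c ∈ A := by
    intro p hp c hc
    unfold ext at hp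
    rcases List.mem_append.1 hp with hp | hp
    · exact hA p hp c hc
    · simp at hp
      rw [hp] at hc
      exact hA _ (lastW_mem h.ne) c (List.mem_of_mem_tail hc)
  rw [cM_eq_sum_right A hA']
  congr 1
  unfold ext
  rw [List.count_append]
  have : X.count v = 0 := by
    apply List.count_eq_zero_of_not_mem
    intro hmem
    have := h.len v hmem
    omega
  rw [this, Nat.zero_add, List.count_singleton]
  by_cases he : (lastW X).tail = v <;> simp [he]

theorem IsOpen.cM_ext_of_lt {m : ℕ} {X : PL} (h : IsOpen m X) {v : Word} (hvm : m < v.length) :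
    cM v (ext X) = cM v X := by
  unfold ext
  rw [cM_append, cM_cons, cM_nil]
  have : ¬ v <+: (lastW X).tail := by
    intro hp
    have := hp.length_le
    rw [List.length_tail, h.last] at this
    omega
  simp [this]

/-! ### rings -/

/-- a ring all of whose words are longer than `m` -/
structure IsRingGe (m : ℕ) (P : PL) : Prop where
  ring : IsPRing P
  len : ∀ p ∈ P, m < p.length

theorem headD_eq_headW (P : PL) : P.headD [] = headW P := rfl

theorem IsRingGe.cM_left {m : ℕ} {P : PL} (h : IsRingGe m P) (A : Finset ℕ)
    (hA : ∀ p ∈ P, ∀ c ∈ p, c ∈ A) {v : Word} (hv : v ≠ []) (hvm : v.length ≤ m) :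
    cM v P = ∑ a ∈ A, cM (a :: v) P := by
  obtain ⟨⟨hne, -, hch⟩, hlen⟩ := h
  rw [sum_cM_cons A hA hv]
  have hch' : (P ++ [P.headD []]).IsChain (fun p q => v <+: q ↔ v <+: p.tail) := by
    have key : ∀ (X : PL) (z : Word), (∀ p ∈ X, m < p.length) →
        (X ++ [z]).IsChain (fun p q : Word => p.tail <+: q) →
        (X ++ [z]).IsChain (fun p q => v <+: q ↔ v <+: p.tail) := by
      intro X z
      induction X with
      | nil => intro _ _; simp
      | cons p X ih =>
        intro h1 h2
        cases X with
        | nil =>
          simp only [List.cons_append, List.nil_append, List.isChain_cons_cons,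
            List.isChain_singleton, and_true] at h2 ⊢
          exact prefix_iff_of_step h2 (h1 p List.mem_cons_self) hvm
        | cons q X =>
          simp only [List.cons_append, List.isChain_cons_cons] at h2 ih ⊢
          refine ⟨prefix_iff_of_step h2.1 (h1 p List.mem_cons_self) hvm, ?_⟩
          exact ih (fun r hr => h1 r (List.mem_cons_of_mem _ hr)) h2.2
    exact key P _ hlen hch
  rw [List.isChain_append] at hch'
  obtain ⟨hc1, -, hc2⟩ := hch'
  have h1 := cM_chain hne hc1
  have h2 : P.getLast? = some (lastW P) := by
    unfold lastW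
    rw [List.getLastD_eq_getLast?, List.getLast?_eq_some_getLast hne]; rfl
  have h3 := hc2 (lastW P) (by simp [h2]) (P.headD []) (by simp)
  rw [headD_eq_headW] at h3
  have h4 : (if v <+: headW P then 1 else 0 : ℕ) = if v <+: (lastW P).tail then 1 else 0 := by
    simp only [h3]
  omega

theorem IsRingGe.cM_right {m : ℕ} {P : PL} (h : IsRingGe m P) (A : Finset ℕ)
    (hA : ∀ p ∈ P, ∀ c ∈ p, c ∈ A) {v : Word} (hvm : v.length ≤ m) :
    cM v P = ∑ b ∈ A, cM (v ++ [b]) P := by
  rw [cM_eq_sum_right A hA, List.count_eq_zero_of_not_mem, Nat.add_zero]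
  intro hmem
  have := h.len v hmem
  omega

end Crest.Agent.R287.CA
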