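import Crest.Agent.R287.Cnt

/-!
# Row 287: from a cycle of peaks `K : List (Word × ℕ)` to its P-list

An entry `(d, n)` is a peak `d` together with the length `n` of its overlap with the next peak
(cyclically).  The P-list is the list of all suffixes `d.drop r`, `r < |d| - n`, in order.
-/

set_option autoImplicit false

namespace Crest.Agent.R287

/-- proper overlap of length `n` from `d` to `d'` -/
def POvl (n : ℕ) (d d' : List ℕ) : Prop :=
  n < d.length ∧ n < d'.length ∧ d.drop (d.length - n) = d'.take n

/-- cyclic list of peaks with proper overlaps -/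
def IsCyc (K : List (List ℕ × ℕ)) : Prop :=
  K ≠ [] ∧ List.IsChain (fun e e' : List ℕ × ℕ => POvl e.2 e.1 e'.1) (K ++ [K.headD ([], 0)])

/-- the suffixes of `d` longer than `n` -/
def segP (d : List ℕ) (n : ℕ) : List (List ℕ) :=
  (List.range (d.length - n)).map (fun r => d.drop r)

/-- the P-list of a cycle of peaks -/
def toP (K : List (List ℕ × ℕ)) : List (List ℕ) := K.flatMap (fun e => segP e.1 e.2)

@[simp] theorem toP_nil : toP [] = [] := rfl
@[simp] theorem toP_cons (e : List ℕ × ℕ) (K : List (List ℕ × ℕ)) :
    toP (e :: K) = segP e.1 e.2 ++ toP K := by simp [toP]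
theorem toP_append (K K' : List (List ℕ × ℕ)) : toP (K ++ K') = toP K ++ toP K' := by
  simp [toP]

@[simp] theorem length_segP (d : List ℕ) (n : ℕ) : (segP d n).length = d.length - n := by
  simp [segP]

theorem length_toP (K : List (List ℕ × ℕ)) :
    (toP K).length = (K.map (fun e => e.1.length - e.2)).sum := by
  induction K with
  | nil => rfl
  | cons e K ih => simp [ih]

theorem mem_segP {d : List ℕ} {n : ℕ} {p : List ℕ} :
    p ∈ segP d n ↔ p <:+ d ∧ n < p.length := by
  simp only [segP, List.mem_map, List.mem_range]
  constructor
  · rintro ⟨r, hr, rfl⟩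
    exact ⟨List.drop_suffix _ _, by simp; omega⟩
  · rintro ⟨h, hn⟩
    refine ⟨d.length - p.length, ?_, ?_⟩
    · have := h.length_le
      omega
    · exact (List.suffix_iff_eq_drop.1 h).symm

theorem mem_toP {K : List (List ℕ × ℕ)} {p : List ℕ} :
    p ∈ toP K ↔ ∃ e ∈ K, p <:+ e.1 ∧ e.2 < p.length := by
  simp [toP, List.mem_flatMap, mem_segP]

theorem countP_segP (v d : List ℕ) (n : ℕ) :
    (segP d n).countP (fun p => decide (v <+: p)) = pcnt v d n := by
  rw [segP, List.countP_map]
  rfl

/-- number of covered occurrences -/
theorem countP_toP (v : List ℕ) (K : List (List ℕ × ℕ)) :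
    (toP K).countP (fun p => decide (v <+: p)) = (K.map (fun e => pcnt v e.1 e.2)).sum := by
  induction K with
  | nil => rfl
  | cons e K ih => simp [List.countP_append, ih, countP_segP]

theorem countP_segP_eq (v d : List ℕ) (n : ℕ) :
    (segP d n).countP (fun p => decide (p = v)) = if v <:+ d ∧ n < v.length then 1 else 0 := by
  have hinj : ∀ r ∈ List.range (d.length - n), ∀ s ∈ List.range (d.length - n),
      d.drop r = d.drop s → r = s := by
    intro r hr s hs h
    rw [List.mem_range] at hr hs
    have := congrArg List.length h
    simp at this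
    omega
  have hnd : (segP d n).Nodup := (List.nodup_map_iff_inj_on List.nodup_range).2 hinj
  split_ifs with h
  · have h1 : v ∈ segP d n := mem_segP.2 h
    have h2 := List.count_eq_one_of_mem hnd h1
    rw [← h2, List.count]
    apply List.countP_congr
    intro a _
    simp
  · rw [List.countP_eq_zero]
    intro a ha
    simp only [decide_eq_true_eq]
    rintro rfl
    exact h (mem_segP.1 ha)

/-- number of down-arcs out of `v` -/
theorem countP_toP_eq (v : List ℕ) (K : List (List ℕ × ℕ)) :
    (toP K).countP (fun p => decide (p = v))
      = K.countP (fun e => decide (v <:+ e.1 ∧ e.2 < v.length)) := by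
  induction K with
  | nil => rfl
  | cons e K ih =>
    simp only [toP_cons, List.countP_append, ih, countP_segP_eq, List.countP_cons,
      decide_eq_true_eq]
    omega

theorem segP_eq_cons {d : List ℕ} {n : ℕ} (h : n < d.length) :
    segP d n = d :: (List.range (d.length - n - 1)).map (fun r => d.drop (r + 1)) := by
  have : d.length - n = (d.length - n - 1) + 1 := by omega
  rw [segP, this, List.range_succ_eq_map]
  simp [Function.comp]

theorem segP_eq_concat {d : List ℕ} {n : ℕ} (h : n < d.length) :
    segP d n = (List.range (d.length - n - 1)).map (fun r => d.drop r)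
      ++ [d.drop (d.length - n - 1)] := by
  have : d.length - n = (d.length - n - 1) + 1 := by omega
  rw [segP, this, List.range_succ]
  simp

theorem segP_ne_nil {d : List ℕ} {n : ℕ} (h : n < d.length) : segP d n ≠ [] := by
  rw [segP_eq_cons h]; simp

theorem isChain_segP (d : List ℕ) (n : ℕ) :
    List.IsChain (fun p q : List ℕ => p.tail <+: q) (segP d n) := by
  rw [List.isChain_iff_getElem]
  intro i hi
  simp only [segP, List.getElem_map, List.getElem_range]
  rw [List.tail_drop]

/-- a P-ring -/
def IsPR (P : List (List ℕ)) : Prop :=
  P ≠ [] ∧ (∀ p ∈ P, p ≠ []) ∧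
    List.IsChain (fun p q : List ℕ => p.tail <+: q) (P ++ [P.headD []])

theorem toP_flatten (K : List (List ℕ × ℕ)) : toP K = (K.map (fun e => segP e.1 e.2)).flatten := by
  rw [toP, List.flatMap_def]

theorem IsCyc.lt {K : List (List ℕ × ℕ)} (h : IsCyc K) : ∀ e ∈ K, e.2 < e.1.length := by
  intro e he
  obtain ⟨h0, hc⟩ := h
  rw [List.isChain_iff_getElem] at hc
  obtain ⟨i, hi, rfl⟩ := List.getElem_of_mem he
  have := hc i (by simp; omega)
  rw [List.getElem_append_left hi] at this
  exact this.1

theorem toP_ne_nil {K : List (List ℕ × ℕ)} (h : IsCyc K) : toP K ≠ [] := by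
  have hlt := h.lt
  obtain ⟨h0, _⟩ := h
  cases K with
  | nil => exact absurd rfl h0
  | cons e K =>
    rw [toP_cons]
    simp [segP_ne_nil (hlt e (by simp))]

theorem headD_toP {K : List (List ℕ × ℕ)} (h : IsCyc K) :
    (toP K).headD [] = (K.headD ([], 0)).1 := by
  have hlt := h.lt
  obtain ⟨h0, _⟩ := h
  cases K with
  | nil => exact absurd rfl h0
  | cons e K =>
    rw [toP_cons, segP_eq_cons (hlt e (by simp))]
    simp

theorem isPR_toP {K : List (List ℕ × ℕ)} (h : IsCyc K) : IsPR (toP K) := by
  refine ⟨toP_ne_nil h, ?_, ?_⟩
  · intro p hp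
    obtain ⟨e, _, _, h2⟩ := mem_toP.1 hp
    intro hc
    rw [hc] at h2
    simp at h2
  · rw [headD_toP h]
    have hlt := h.lt
    have e1 : toP K ++ [(K.headD ([], 0)).1]
        = (K.map (fun e => segP e.1 e.2) ++ [[(K.headD ([], 0)).1]]).flatten := by
      rw [toP_flatten]; simp
    rw [e1, List.isChain_flatten]
    · constructor
      · intro l hl
        rcases List.mem_append.1 hl with hl | hl
        · obtain ⟨e, _, rfl⟩ := List.mem_map.1 hl
          exact isChain_segP _ _
        · simp only [List.mem_singleton] at hl
          subst hl
          exact List.isChain_singleton _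
      · obtain ⟨h0, hc⟩ := h
        rw [List.isChain_iff_getElem] at hc ⊢
        intro i hi
        simp only [List.length_append, List.length_map, List.length_singleton] at hi
        have hi' : i < K.length := by omega
        have hci := hc i (by simp; omega)
        rw [List.getElem_append_left hi'] at hci
        rw [List.getElem_append_left (by simpa using hi')]
        simp only [List.getElem_map]
        intro x hx y hy
        rw [segP_eq_concat (hlt _ (List.getElem_mem hi')), List.getLast?_concat] at hx
        simp only [Option.mem_def, Option.some.injEq] at hx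
        subst hx
        have hy' : y = ((K ++ [K.headD ([], 0)])[i + 1]'(by simp; omega)).1 := by
          rcases Nat.lt_or_ge (i + 1) K.length with hlt' | hge
          · rw [List.getElem_append_left (by simpa using hlt')] at hy
            rw [List.getElem_append_left hlt']
            simp only [List.getElem_map] at hy
            rw [segP_eq_cons (hlt _ (List.getElem_mem hlt'))] at hy
            simpa using hy.symm
          · rw [List.getElem_append_right (by simpa using hge)] at hy
            rw [List.getElem_append_right hge]
            simpa using hy.symm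
        rw [hy']
        obtain ⟨ho1, ho2, ho3⟩ := hci
        rw [List.tail_drop]
        have e2 : (K[i].1.length - K[i].2 - 1 + 1) = K[i].1.length - K[i].2 := by omega
        rw [e2, ho3]
        exact List.take_prefix _ _
    · intro hmem
      rcases List.mem_append.1 hmem with hm | hm
      · obtain ⟨e, he, h2⟩ := List.mem_map.1 hm
        exact segP_ne_nil (hlt e he) h2
      · simp at hm

end Crest.Agent.R287
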