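import Crest.Agent.R287.StarW
import Crest.Agent.R287.PWC

/-!
Row 287: the list `nodes P` is the path of the ring in path order; the star fact in the form needed by the
assembly.
-/

set_option autoImplicit false

namespace Crest.Agent.R287

open Asm Crest.Agent.R287.Star

namespace Star

variable {P : PL} (h : IsPRing P)

/-- the column `i` -/
theorem column_eq_pathList (i : ℤ) : column (pz P (i - 1)) (pz P i) =
    pathList (toRing P h) (i + (toRing P h).F (i - 1))
      ((toRing P h).F i - (toRing P h).F (i - 1) + 1).toNat := by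
  set A := toRing P h with hA
  have hp1 := List.length_pos_iff.mpr (h.2.1 _ (pz_mem h.1 (i - 1)))
  have hstep := (pz_step' h i).length_le
  rw [List.length_tail] at hstep
  have hF1 : A.F (i - 1) = i - 1 + (pz P (i - 1)).length := toRing_F h (i - 1)
  have hF2 : A.F i = i + (pz P i).length := toRing_F h i
  unfold column pathList
  have hn : (pz P i).length + 1 - ((pz P (i - 1)).length - 1) = (A.F i - A.F (i - 1) + 1).toNat := by
    omega
  rw [hn]
  apply List.map_congr_left
  intro k hk
  rw [List.mem_range] at hk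
  have hvis : A.Vis i (A.F (i - 1) + k) := ⟨by omega, by omega⟩
  have hpt : pt A (i + A.F (i - 1) + k) = (i, A.F (i - 1) + k) := pt_eq' hvis (by ring)
  unfold ptw
  rw [hpt]
  simp only
  rw [pz_eq_win h i, ← hA, win_take A.κ (i := i) (j := A.F i) _ (by omega)]
  congr 1
  omega

theorem columns_eq_pathList (n : ℕ) :
    ((List.range n).map (fun k : ℕ => (pz P ((k : ℤ) - 1), pz P k))).flatMap
      (fun pq => column pq.1 pq.2) =
    pathList (toRing P h) ((toRing P h).F (-1))
      ((n : ℤ) + (toRing P h).F ((n : ℤ) - 1) - (toRing P h).F (-1)).toNat := by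
  set A := toRing P h with hA
  induction n with
  | zero =>
    simp [pathList]
  | succ n ih =>
    rw [List.range_succ, List.map_append, List.flatMap_append, ih, List.map_singleton,
      List.flatMap_singleton]
    have hm1 := A.mono (show (-1 : ℤ) ≤ (n : ℤ) - 1 by omega)
    have hm2 := A.mono (show (n : ℤ) - 1 ≤ (n : ℤ) by omega)
    have e1 : ((((n + 1 : ℕ) : ℤ)) + A.F (((n + 1 : ℕ) : ℤ) - 1) - A.F (-1)).toNat =
        ((n : ℤ) + A.F ((n : ℤ) - 1) - A.F (-1)).toNat + (A.F n - A.F ((n : ℤ) - 1) + 1).toNat := by
      have : (((n + 1 : ℕ) : ℤ) - 1) = (n : ℤ) := by push_cast; ring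
      rw [this]
      push_cast
      omega
    rw [e1, pathList_add]
    congr 1
    rw [column_eq_pathList h]
    congr 1
    rw [Int.toNat_of_nonneg (by omega)]
    ring

theorem nodes_eq_pathList : nodes P =
    pathList (toRing P h) ((toRing P h).F (-1)) (2 * (toRing P h).w) := by
  set A := toRing P h with hA
  have hz : (lastW P :: P).zip P = cycPairs P := by
    unfold cycPairs lastW
    apply List.ext_getElem
    · simp only [List.length_zip, List.length_cons, List.length_dropLast]
      omega
    · intro n h1 h2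
      simp only [List.getElem_zip]
      congr 1
      cases n with
      | zero => rfl
      | succ m =>
        simp only [List.getElem_cons_succ]
        rw [List.getElem_dropLast]
  unfold nodes
  rw [hz, cycPairs_eq, columns_eq_pathList h, ← hA]
  congr 1
  have hw : (A.w : ℤ) = P.length := rfl
  have h1 := A.Fper (-1)
  rw [← hw]
  rw [show (-1 : ℤ) + A.w = A.w - 1 by ring] at h1
  rw [h1]
  omega

theorem repW_wcOf (n : ℕ) : RepW (wcOf P n) (toRing P h) where
  wt := rfl
  lv := by rw [wcOf_lv, ← lev_toRing h]
  mem := fun v => mem_nodes_win h v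

theorem path_wcOf (n : ℕ) : ∃ τ, (wcOf P n).tour = pathList (toRing P h) τ (2 * (toRing P h).w) :=
  ⟨_, nodes_eq_pathList h⟩

/-- **star fact** in the form of the assembly hypotheses -/
theorem star_cands {V : WC} {A : Ring} (hA : RepW V A)
    (hpath : ∃ τ, V.tour = pathList A τ (2 * A.w)) {L : List WC} (hne : L ≠ []) {R : WC → Ring}
    (hrep : ∀ K ∈ L, RepW K (R K)) (hwrap : ∀ K ∈ L, K.wrap = true)
    (hover : ∀ K ∈ L, overC V K = true) (hnear : ∀ K ∈ L, near K V = false)
    (htext : ∀ K ∈ L, ∀ c, ¬ ∀ x, A.κ x = (R K).κ (x + c)) :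
    ∃ r ∈ cands V L, good V L r = true := by
  obtain ⟨τ, hτ⟩ := hpath
  have hw : ∀ K ∈ L, (R K).Wrap := by
    intro K hK
    have h1 := hwrap K hK
    unfold WC.wrap at h1
    rw [decide_eq_true_iff] at h1
    have h2 := (hrep K hK).wt
    have h3 := (hrep K hK).lv
    unfold Ring.Wrap
    omega
  obtain ⟨t, ht, hg⟩ := star_good hA hτ hne hrep hw hover hnear htext
  refine ⟨_, ?_, hg⟩
  unfold cands
  rw [List.mem_append]
  right
  rw [List.mem_map]
  exact ⟨t, List.mem_range.2 ht, rfl⟩

end Star

end Crest.Agent.R287
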