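import Crest.Agent.R287.AsmH2
import Crest.Agent.R287.AsmSame
import Crest.Agent.R287.AsmH4
import Crest.Agent.R287.StarN
import Crest.Agent.R287.MainAsm

/-!
Row 287: the geometric facts `H2`, `H3`, `H4` for the components of a list of P-lists without
candidate.
-/

set_option autoImplicit false

namespace Crest.Agent.R287

open Asm

/-- a dummy P-list -/
theorem isPRing_dummy : IsPRing [[0]] := by
  refine ⟨by simp, by simp, by simp⟩

open Classical in
/-- the ring of a component -/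
noncomputable def ringWC (Ps : List PL) (K : WC) : Ring :=
  if h : IsPRing (Ps.getD K.num []) then toRing _ h else toRing _ isPRing_dummy

theorem ringWC_wcOf {Ps : List PL} {n : ℕ} (hn : n < Ps.length) (h : IsPRing Ps[n]) :
    ringWC Ps (wcOf Ps[n] n) = toRing Ps[n] h := by
  have e : Ps.getD (wcOf Ps[n] n).num [] = Ps[n] := by
    rw [wcOf_num, List.getD_eq_getElem?_getD, List.getElem?_eq_getElem hn]; rfl
  unfold ringWC
  have h' : IsPRing (Ps.getD (wcOf Ps[n] n).num []) := by rw [e]; exact h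
  rw [dif_pos h']
  congr 1

theorem geoHyp_wcsOf (Ps : List PL) (hP : ∀ P ∈ Ps, IsPRing P)
    (hc : ∀ K ∈ Ps, candB Ps K = false) : GeoHyp (wcsOf Ps) := by
  have hrep : ∀ K ∈ wcsOf Ps, RepW K (ringWC Ps K) := by
    intro K hK
    obtain ⟨n, hn, rfl⟩ := mem_wcsOf.1 hK
    have h := hP _ (List.getElem_mem hn)
    rw [ringWC_wcOf hn h]
    exact Star.repW_wcOf h n
  have hpath : ∀ K ∈ wcsOf Ps, ∃ τ, K.tour = Star.pathList (ringWC Ps K) τ (2 * (ringWC Ps K).w) := by
    intro K hK
    obtain ⟨n, hn, rfl⟩ := mem_wcsOf.1 hK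
    have h := hP _ (List.getElem_mem hn)
    rw [ringWC_wcOf hn h]
    exact Star.path_wcOf h n
  have hstar : ∀ V ∈ wcsOf Ps, ∀ L : List WC, L ≠ [] → (∀ K ∈ L, K ∈ wcsOf Ps) → L.Nodup →
      (∀ K ∈ L, K.wrap = true ∧ overC V K = true ∧ near K V = false ∧
        ∀ c, ¬ ∀ x, (ringWC Ps V).κ x = (ringWC Ps K).κ (x + c)) →
      ∃ r ∈ cands V L, good V L r = true := by
    intro V hV L hne hL _ h
    exact Star.star_cands (hrep V hV) (hpath V hV) hne (fun K hK => hrep K (hL K hK))
      (fun K hK => (h K hK).1) (fun K hK => (h K hK).2.1) (fun K hK => (h K hK).2.2.1)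
      (fun K hK => (h K hK).2.2.2)
  exact
    { h2 := h2_of_rings (wcsOf Ps) (wcsOf_nodup Ps) (ringWC Ps) (fun K hK => (hrep K hK).wt)
        (fun K hK => (hrep K hK).lv) (fun K hK => (hrep K hK).mem) hstar
      h3 := h3_of_rings (wcsOf Ps) (wcsOf_nodup Ps) (ringWC Ps) (fun K hK => (hrep K hK).wt)
        (fun K hK => (hrep K hK).lv) (fun K hK => (hrep K hK).mem) hstar
      h4 := asm_h4 Ps hP hc }

end Crest.Agent.R287
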