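import Crest.Agent.R287.InvFinal
import Crest.Agent.R287.InUXw

/-!
# Row 287: every input word is a factor of a word of a final ring
-/

set_option autoImplicit false

namespace Crest.Agent.R287.IFin

/-- `s` is a factor of a word of the state -/
def Occ (st : St) (s : Word) : Prop := ∃ X, (X ∈ st.1 ∨ X ∈ st.2) ∧ ∃ p ∈ X, s <:+: p

theorem occursB_iff (st : St) (s : Word) : occursB st s = true ↔ Occ st s := by
  unfold occursB Occ
  simp only [List.any_eq_true, List.mem_append, List.mem_tails, List.isPrefixOf_iff_prefix]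
  constructor
  · rintro ⟨X, hX, p, hp, q, hq, hs⟩
    exact ⟨X, hX, p, hp, hs.isInfix.trans hq.isInfix⟩
  · rintro ⟨X, hX, p, hp, ⟨a, b, hab⟩⟩
    refine ⟨X, hX, p, hp, s ++ b, ⟨a, by rw [← hab]; simp⟩, List.prefix_append _ _⟩

theorem mem_of_blk {m : ℕ} {X Z : PL} (h : Blk m X Z) {p : Word} (hp : p ∈ X) : p ∈ Z := by
  obtain ⟨pre, post, rfl, _⟩ := h
  simp [hp]

theorem Occ.evo {m : ℕ} {st st' : St} (h : Evo m st st') {s : Word} (hs : Occ st s) :
    Occ st' s := by
  obtain ⟨X, hX, p, hp, hsp⟩ := hs
  rcases hX with hX | hX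
  · rcases h.opens X hX with ⟨Z, hZ, hXZ⟩ | ⟨V, hV, hXV, _⟩
    · exact ⟨Z, Or.inl hZ, p, mem_of_blk hXZ hp, hsp⟩
    · exact ⟨V, Or.inr hV, p, mem_of_blk hXV hp, hsp⟩
  · exact ⟨X, Or.inr (h.rings X hX), p, hp, hsp⟩

theorem occ_addInput {m : ℕ} (st : St) {s : Word} (hs : s.length = m) :
    Occ (addInput m st s) s := by
  unfold addInput
  by_cases h : occursB st s = true
  · rw [if_neg (by simp [h])]
    exact (occursB_iff _ _).mp h
  · rw [if_pos (by simp [hs, h])]
    exact ⟨[s], Or.inl (by simp), s, by simp, List.infix_refl _⟩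

theorem length_le_maxLen {S : List Word} {s : Word} (hs : s ∈ S) : s.length ≤ maxLen S := by
  unfold maxLen
  induction S with
  | nil => simp at hs
  | cons a S ih =>
    rw [List.mem_cons] at hs
    simp only [List.map_cons, List.foldr_cons]
    rcases hs with rfl | hs
    · exact le_max_left _ _
    · exact (ih hs).trans (le_max_right _ _)

/-- every nonempty input is a factor of a word of a final ring -/
theorem ringsOf_cover' (S : List Word) : ∀ s ∈ S, s ≠ [] →
    ∃ P ∈ ringsOf S, ∃ p ∈ P, s <:+: p := by
  intro s hs hne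
  have hpos : 0 < s.length := List.length_pos_iff.mpr hne
  have hle := length_le_maxLen hs
  set m := s.length with hm
  set i := maxLen S - m with hi
  have hi' : maxLen S - i = m := by omega
  have hlastI : LastInv (m + 1) (stt S i) := by
    have := lastInv_stt S i (by omega)
    rwa [hi'] at this
  obtain ⟨A, B, hAB⟩ := List.append_of_mem hs
  have h1 : Occ (stInp S m (stt S i)) s := by
    have e : stInp S m (stt S i) = B.foldl (addInput m) (addInput m
        (A.foldl (addInput m) (stIss m (stt S i))) s) := by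
      have e2 : ∀ L : List Word, L = A ++ s :: B → L.foldl (addInput m) (stIss m (stt S i)) =
          B.foldl (addInput m) (addInput m (A.foldl (addInput m) (stIss m (stt S i))) s) := by
        rintro L rfl
        rw [List.foldl_append, List.foldl_cons]
      exact e2 S hAB
    rw [e]
    exact (occ_addInput _ rfl).evo (evo_foldl m _ (fun st s => evo_addInput m m st s) B _)
  have h2 : Occ (level S m (stt S i)) s :=
    h1.evo (evo_close le_rfl S _ (lastInv_stInp hpos S hlastI))
  have h3 : level S m (stt S i) = stt S (i + 1) := by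
    show _ = level S (maxLen S - i) (stt S i)
    rw [hi']
  rw [h3] at h2
  have h4 := h2.evo (evo_stt S m (i + 1) (by omega) (maxLen S) (by omega) le_rfl)
  obtain ⟨X, hX, p, hp, hsp⟩ := h4
  rw [opens_final_nil] at hX
  rcases hX with hX | hX
  · exact absurd hX (by simp)
  · exact ⟨X, hX, p, hp, hsp⟩

end Crest.Agent.R287.IFin

namespace Crest.Agent.R287

/-- every nonempty input is a factor of a word of a final ring -/
theorem ringsOf_cover (S : List Word) : ∀ s ∈ S, s ≠ [] →
    ∃ P ∈ ringsOf S, ∃ p ∈ P, s <:+: p := IFin.ringsOf_cover' S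

/-- no candidate is left -/
theorem ringsOf_noCand_of (S : List Word) (h : ∀ P ∈ ringsOf S, IsPRing P) :
    ∀ K ∈ ringsOf S, candB (ringsOf S) K = false := fun K hK =>
  IFin.no_cand_of S K hK (fun hw => inU_xw (h K hK) hw)

end Crest.Agent.R287
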