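import Crest.Agent.R287.Codec
import Crest.Agent.Lib.PT.ArithMore

/-!
# Row 287 (S0432): poly-time list functions, in `fun_prop` form

Importing this file, most goals `PTF (fun c => ...)`, `PTU (fun c => ...)` (unary natural number)
and `PTPred (fun c => ...)` for programs built from `List.map/filter/any/all/find?/flatMap/...`,
`take/drop/getD/...`, `if/bif`, `Option.elim/map/bind`, arithmetic, prefix tests etc. are closed by
`fun_prop`.  For new definitions, state a lemma `theorem ptf_foo {x : γ → _} (hx : PTF x) :
PTF (fun c => foo (x c))` tagged `@[fun_prop]`.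

What has to be done by hand: folds and iterations (size bounds).  See the section on loops:
`ptf_foldl_inv`, `ptf_iterate_inv`, `iterG` (iteration with a size guard), `ptf_foldl_bool`.
-/

set_option autoImplicit false
set_option linter.unusedVariables false
set_option linter.unusedSectionVars false

namespace Crest.Agent.R287.PTB

open Crest.Agent.Lib.PT Crest.Agent.R287

section transitions

variable {α β γ δ : Type} [PTCode α] [PTCode β] [PTCode γ] [PTCode δ]

attribute [fun_prop] PTU.toPTF PTPred.natLt PTPred.natLe PTPred.eq PTPred.mem PTF.flatten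
  PTF.getLast? PTF.zip PTF.range PTF.natSum PTF.natMinUn PTF.natSizeUn PTPred.natDvd

/-- a binary number bounded by a unary one -/
theorem ptu_of_le {f g : γ → ℕ} (hf : PTF f) (hg : PTU g) (h : ∀ c, f c ≤ g c) : PTU f :=
  hf.toPTU (hg.pb.mono h)

/-- `min` of a unary and a binary number -/
@[fun_prop]
theorem ptu_minB {m n : γ → ℕ} (hm : PTU m) (hn : PTF n) : PTU (fun c => min (m c) (n c)) :=
  (PTF.natMinUn hn hm).of_eq (fun c => min_comm _ _)

/-- subtraction of a binary number from a unary one -/
@[fun_prop]
theorem ptu_subB {m n : γ → ℕ} (hm : PTU m) (hn : PTF n) : PTU (fun c => m c - n c) :=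
  (PTU.sub hm (ptu_minB hm hn)).of_eq (fun c => by omega)

@[fun_prop]
theorem ptu_max {m n : γ → ℕ} (hm : PTU m) (hn : PTU n) : PTU (fun c => max (m c) (n c)) :=
  (PTU.add hm (PTU.sub hn hm)).of_eq (fun c => by omega)

@[fun_prop]
theorem ptu_divB {m n : γ → ℕ} (hm : PTU m) (hn : PTF n) : PTU (fun c => m c / n c) :=
  ptu_of_le (PTF.natDiv hm.toPTF hn) hm (fun c => Nat.div_le_self _ _)

/-- `a % b` is unary when `a` is -/
@[fun_prop]
theorem ptu_modB {m n : γ → ℕ} (hm : PTU m) (hn : PTF n) : PTU (fun c => m c % n c) :=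
  ptu_of_le (PTF.natMod hm.toPTF hn) hm (fun c => Nat.mod_le _ _)

@[fun_prop]
theorem ptp_natNe {f g : γ → α} (hf : PTF f) (hg : PTF g) : PTPred (fun c => f c ≠ g c) :=
  PTPred.not (PTPred.eq hf hg)

@[fun_prop]
theorem ptp_true {f : γ → Bool} (hf : PTF f) : PTPred (fun c => f c) := PTF.toPTPred hf

end transitions

/-! ### options -/

section options

variable {α β γ δ : Type} [PTCode α] [PTCode β] [PTCode γ] [PTCode δ]

@[fun_prop]
theorem ptf_optionElim {o : γ → Option α} {d : γ → β} {f : γ → α → β} (ho : PTF o) (hd : PTF d)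
    (hf : PTF (fun p : γ × α => f p.1 p.2)) : PTF (fun c => (o c).elim (d c) (f c)) :=
  (PTF.optionCasesOn ho hd hf).of_eq (fun c => by cases o c <;> rfl)

@[fun_prop]
theorem ptf_optionMap {o : γ → Option α} {f : γ → α → β} (ho : PTF o)
    (hf : PTF (fun p : γ × α => f p.1 p.2)) : PTF (fun c => (o c).map (f c)) :=
  PTF.optionMap ho hf

@[fun_prop]
theorem ptf_optionBind {o : γ → Option α} {f : γ → α → Option β} (ho : PTF o)
    (hf : PTF (fun p : γ × α => f p.1 p.2)) : PTF (fun c => (o c).bind (f c)) :=
  PTF.optionBind ho hf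

@[fun_prop]
theorem ptf_isNone {o : γ → Option α} (ho : PTF o) : PTF (fun c => (o c).isNone) :=
  (PTF.not (PTF.isSome ho)).of_eq (fun c => by cases o c <;> rfl)

@[fun_prop]
theorem ptf_optionOr {o o' : γ → Option α} (ho : PTF o) (ho' : PTF o') :
    PTF (fun c => (o c).or (o' c)) :=
  (ptf_optionElim ho ho' (f := fun _ a => some a) (by fun_prop)).of_eq
    (fun c => by cases o c <;> rfl)

@[fun_prop]
theorem ptf_optionToList {o : γ → Option α} (ho : PTF o) : PTF (fun c => (o c).toList) :=
  (ptf_optionElim ho (PTF.const []) (f := fun _ a => [a]) (by fun_prop)).of_eq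
    (fun c => by cases o c <;> rfl)

@[fun_prop]
theorem ptu_optionElim {o : γ → Option α} {d : γ → ℕ} {f : γ → α → ℕ} (ho : PTF o) (hd : PTU d)
    (hf : PTU (fun p : γ × α => f p.1 p.2)) : PTU (fun c => (o c).elim (d c) (f c)) := by
  have h : PTF (fun c => (o c).elim (Un.mk (d c)) (fun a => Un.mk (f c a))) :=
    ptf_optionElim (f := fun c a => Un.mk (f c a)) ho hd hf
  exact h.of_eq (fun c => by dsimp only; cases o c <;> rfl)

/-- case distinction on lists by a function -/
def lelim {α β : Type} (l : List α) (d : β) (f : α → List α → β) : β :=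
  match l with
  | [] => d
  | a :: t => f a t

@[simp] theorem lelim_nil (d : β) (f : α → List α → β) : lelim [] d f = d := rfl
@[simp] theorem lelim_cons (a : α) (l : List α) (d : β) (f : α → List α → β) :
    lelim (a :: l) d f = f a l := rfl

@[fun_prop]
theorem ptf_lelim {l : γ → List α} {d : γ → β} {f : γ → α → List α → β} (hl : PTF l) (hd : PTF d)
    (hf : PTF (fun p : γ × α × List α => f p.1 p.2.1 p.2.2)) :
    PTF (fun c => lelim (l c) (d c) (f c)) :=
  (PTF.listCasesOn hl hd hf).of_eq (fun c => by cases l c <;> rfl)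

end options

/-! ### higher order functions -/

section ho

variable {α β γ δ : Type} [PTCode α] [PTCode β] [PTCode γ] [PTCode δ]

@[fun_prop]
theorem ptf_map {l : γ → List α} {f : γ → α → β} (hl : PTF l)
    (hf : PTF (fun p : γ × α => f p.1 p.2)) : PTF (fun c => (l c).map (f c)) := PTF.map hl hf

@[fun_prop]
theorem ptf_filter {l : γ → List α} {f : γ → α → Bool} (hl : PTF l)
    (hf : PTF (fun p : γ × α => f p.1 p.2)) : PTF (fun c => (l c).filter (f c)) :=
  PTF.filter hl hf

@[fun_prop]
theorem ptf_filterMap {l : γ → List α} {f : γ → α → Option β} (hl : PTF l)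
    (hf : PTF (fun p : γ × α => f p.1 p.2)) : PTF (fun c => (l c).filterMap (f c)) :=
  PTF.filterMap hl hf

@[fun_prop]
theorem ptf_flatMap {l : γ → List α} {f : γ → α → List β} (hl : PTF l)
    (hf : PTF (fun p : γ × α => f p.1 p.2)) : PTF (fun c => (l c).flatMap (f c)) :=
  PTF.flatMap hl hf

@[fun_prop]
theorem ptf_any {l : γ → List α} {f : γ → α → Bool} (hl : PTF l)
    (hf : PTF (fun p : γ × α => f p.1 p.2)) : PTF (fun c => (l c).any (f c)) := PTF.any hl hf

@[fun_prop]
theorem ptf_all {l : γ → List α} {f : γ → α → Bool} (hl : PTF l)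
    (hf : PTF (fun p : γ × α => f p.1 p.2)) : PTF (fun c => (l c).all (f c)) := PTF.all hl hf

@[fun_prop]
theorem ptf_find? {l : γ → List α} {f : γ → α → Bool} (hl : PTF l)
    (hf : PTF (fun p : γ × α => f p.1 p.2)) : PTF (fun c => (l c).find? (f c)) := PTF.find? hl hf

@[fun_prop]
theorem ptf_takeWhile {l : γ → List α} {f : γ → α → Bool} (hl : PTF l)
    (hf : PTF (fun p : γ × α => f p.1 p.2)) : PTF (fun c => (l c).takeWhile (f c)) :=
  PTF.takeWhile hl hf

@[fun_prop]
theorem ptf_dropWhile {l : γ → List α} {f : γ → α → Bool} (hl : PTF l)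
    (hf : PTF (fun p : γ × α => f p.1 p.2)) : PTF (fun c => (l c).dropWhile (f c)) :=
  PTF.dropWhile hl hf

@[fun_prop]
theorem ptf_zipWith {l : γ → List α} {l' : γ → List β} {f : γ → α → β → δ} (hl : PTF l)
    (hl' : PTF l') (hf : PTF (fun p : γ × α × β => f p.1 p.2.1 p.2.2)) :
    PTF (fun c => List.zipWith (f c) (l c) (l' c)) := PTF.zipWith hl hl' hf

@[fun_prop]
theorem ptu_countP {l : γ → List α} {f : γ → α → Bool} (hl : PTF l)
    (hf : PTF (fun p : γ × α => f p.1 p.2)) : PTU (fun c => (l c).countP (f c)) :=
  PTU.countP hl hf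

@[fun_prop]
theorem ptp_exists_mem {l : γ → List α} {p : γ → α → Prop} (hl : PTF l)
    (hp : PTPred (fun q : γ × α => p q.1 q.2)) : PTPred (fun c => ∃ a ∈ l c, p c a) :=
  PTPred.exists_mem hl hp

theorem ptp_forall_mem {l : γ → List α} {p : γ → α → Prop} (hl : PTF l)
    (hp : PTPred (fun q : γ × α => p q.1 q.2)) : PTPred (fun c => ∀ a ∈ l c, p c a) :=
  PTPred.forall_mem hl hp

omit [PTCode α] in
theorem findIdx_eq_length_takeWhile (p : α → Bool) (l : List α) :
    l.findIdx p = (l.takeWhile (fun a => !p a)).length := by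
  induction l with
  | nil => rfl
  | cons a l ih =>
    rw [List.findIdx_cons, List.takeWhile_cons]
    cases h : p a <;> simp [ih]

@[fun_prop]
theorem ptu_findIdx {l : γ → List α} {f : γ → α → Bool} (hl : PTF l)
    (hf : PTF (fun p : γ × α => f p.1 p.2)) : PTU (fun c => (l c).findIdx (f c)) :=
  (PTU.length (ptf_takeWhile (f := fun c a => !f c a) hl (by fun_prop))).of_eq
    (fun c => (findIdx_eq_length_takeWhile _ _).symm)

@[fun_prop]
theorem ptu_idxOf [BEq α] [LawfulBEq α] {l : γ → List α} {a : γ → α} (hl : PTF l) (ha : PTF a) :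
    PTU (fun c => (l c).idxOf (a c)) := by
  classical
  have h := ptu_findIdx (f := fun c b => decide (b = a c)) hl (by fun_prop)
  refine h.of_eq (fun c => ?_)
  rw [List.idxOf]
  congr 1
  funext b
  by_cases hb : b = a c
  · simp [hb]
  · simp [hb]

@[fun_prop]
theorem ptu_count [BEq α] [LawfulBEq α] {l : γ → List α} {a : γ → α} (hl : PTF l) (ha : PTF a) :
    PTU (fun c => (l c).count (a c)) := by
  classical
  have h := ptu_countP (f := fun c b => decide (b = a c)) hl (by fun_prop)
  refine h.of_eq (fun c => ?_)
  rw [List.count]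
  congr 1
  funext b
  by_cases hb : b = a c
  · simp [hb]
  · simp [hb]

@[fun_prop]
theorem ptf_elem [BEq α] [LawfulBEq α] {l : γ → List α} {a : γ → α} (hl : PTF l) (ha : PTF a) :
    PTF (fun c => (l c).elem (a c)) := by
  classical
  have h : PTF (fun c => decide (a c ∈ l c)) := by fun_prop
  exact h.of_eq (fun c => by simp)

@[fun_prop]
theorem ptf_contains [BEq α] [LawfulBEq α] {l : γ → List α} {a : γ → α} (hl : PTF l) (ha : PTF a) :
    PTF (fun c => (l c).contains (a c)) := by
  classical
  have h : PTF (fun c => decide (a c ∈ l c)) := by fun_prop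
  exact h.of_eq (fun c => by simp)

@[fun_prop]
theorem ptf_beq [BEq α] [LawfulBEq α] {f g : γ → α} (hf : PTF f) (hg : PTF g) :
    PTF (fun c => f c == g c) := by
  classical
  have h : PTF (fun c => decide (f c = g c)) := by fun_prop
  exact h.of_eq (fun c => by
    by_cases hb : f c = g c
    · simp [hb]
    · simp [hb])

@[fun_prop]
theorem ptf_bne [BEq α] [LawfulBEq α] {f g : γ → α} (hf : PTF f) (hg : PTF g) :
    PTF (fun c => f c != g c) :=
  (PTF.not (ptf_beq hf hg)).of_eq (fun _ => rfl)

/-- the sum of unary numbers -/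
@[fun_prop]
theorem ptu_sum_map {l : γ → List α} {f : γ → α → ℕ} (hl : PTF l)
    (hf : PTU (fun p : γ × α => f p.1 p.2)) : PTU (fun c => ((l c).map (f c)).sum) := by
  have h : PTF (fun c => (l c).flatMap (fun a => List.replicate (f c a) ())) :=
    ptf_flatMap (f := fun c a => List.replicate (f c a) ()) hl (PTF.replicate hf (PTF.const ()))
  refine (PTU.length h).of_eq (fun c => ?_)
  rw [List.length_flatMap]
  congr 1
  apply List.map_congr_left
  intro a _
  simp

end ho

/-! ### first order list functions -/

section fo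

variable {α β γ δ : Type} [PTCode α] [PTCode β] [PTCode γ] [PTCode δ]

attribute [fun_prop] ptf_takeB ptf_dropB PTF.take PTF.drop

@[fun_prop]
theorem ptf_replicate {n : γ → ℕ} {a : γ → α} (hn : PTU n) (ha : PTF a) :
    PTF (fun c => List.replicate (n c) (a c)) := PTF.replicate hn ha

@[fun_prop]
theorem ptf_getElem? {n : γ → ℕ} {l : γ → List α} (hn : PTF n) (hl : PTF l) :
    PTF (fun c => (l c)[n c]?) := by
  refine PTF.of_eq (PTF.head? (ptf_dropB hn hl)) (fun c => ?_)
  rw [List.head?_drop]

@[fun_prop]
theorem ptf_getD {n : γ → ℕ} {l : γ → List α} {d : γ → α} (hl : PTF l) (hn : PTF n)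
    (hd : PTF d) : PTF (fun c => (l c).getD (n c) (d c)) := by
  refine PTF.of_eq (PTF.optionGetD (ptf_getElem? hn hl) hd) (fun c => ?_)
  rw [List.getD_eq_getElem?_getD]

@[fun_prop]
theorem ptf_headD {l : γ → List α} {d : γ → α} (hl : PTF l) (hd : PTF d) :
    PTF (fun c => (l c).headD (d c)) := by
  refine PTF.of_eq (PTF.optionGetD (PTF.head? hl) hd) (fun c => ?_)
  cases l c <;> rfl

@[fun_prop]
theorem ptf_getLastD {l : γ → List α} {d : γ → α} (hl : PTF l) (hd : PTF d) :
    PTF (fun c => (l c).getLastD (d c)) := by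
  refine PTF.of_eq (PTF.optionGetD (PTF.getLast? hl) hd) (fun c => ?_)
  rw [List.getLastD_eq_getLast?]

@[fun_prop]
theorem ptf_dropLast {l : γ → List α} (hl : PTF l) : PTF (fun c => (l c).dropLast) := by
  have h : PTF (fun c => (l c).take ((l c).length - 1)) := by fun_prop
  exact h.of_eq (fun c => List.dropLast_eq_take.symm)

@[fun_prop]
theorem ptf_set {l : γ → List α} {n : γ → ℕ} {a : γ → α} (hl : PTF l) (hn : PTF n)
    (ha : PTF a) : PTF (fun c => (l c).set (n c) (a c)) := by
  refine PTF.of_eq (PTF.set hl (PTF.natMinUn hn (PTU.length hl)) ha) (fun c => ?_)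
  rcases le_total (n c) (l c).length with h | h
  · rw [min_eq_left h]
  · rw [min_eq_right h, List.set_eq_of_length_le h, List.set_eq_of_length_le le_rfl]

@[fun_prop]
theorem ptf_eraseIdx {l : γ → List α} {n : γ → ℕ} (hl : PTF l) (hn : PTF n) :
    PTF (fun c => (l c).eraseIdx (n c)) := by
  have h : PTF (fun c => (l c).take (n c) ++ (l c).drop (n c + 1)) := by fun_prop
  exact h.of_eq (fun c => by rw [List.eraseIdx_eq_take_drop_succ])

omit [PTCode α] in
theorem erase_eq_takeWhile_append [DecidableEq α] (l : List α) (a : α) :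
    l.erase a = l.takeWhile (fun b => decide (b ≠ a)) ++
      (l.dropWhile (fun b => decide (b ≠ a))).tail := by
  induction l with
  | nil => rfl
  | cons b l ih =>
    by_cases h : b = a
    · subst h; simp
    · have h1 : (b == a) = false := by simp [h]
      rw [List.erase_cons, h1]
      simp only [Bool.false_eq_true, if_false, List.takeWhile_cons, List.dropWhile_cons, h, ne_eq,
        not_false_eq_true, decide_true, if_true, List.cons_append]
      rw [ih]

@[fun_prop]
theorem ptf_erase [BEq α] [LawfulBEq α] {l : γ → List α} {a : γ → α} (hl : PTF l) (ha : PTF a) :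
    PTF (fun c => (l c).erase (a c)) := by
  classical
  have h : PTF (fun c => (l c).takeWhile (fun b => decide (b ≠ a c)) ++
      ((l c).dropWhile (fun b => decide (b ≠ a c))).tail) := by fun_prop
  refine h.of_eq (fun c => ?_)
  rw [← erase_eq_takeWhile_append]
  congr 1
  exact lawful_beq_subsingleton _ _

@[fun_prop]
theorem ptf_rotate {l : γ → List α} {n : γ → ℕ} (hl : PTF l) (hn : PTF n) :
    PTF (fun c => (l c).rotate (n c)) := by
  have h : PTF (fun c => (l c).drop (n c % (l c).length) ++ (l c).take (n c % (l c).length)) := by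
    fun_prop
  exact h.of_eq (fun c => by rw [List.rotate_eq_drop_append_take_mod])

omit [PTCode α] in
theorem tails_eq_map_range (l : List α) :
    l.tails = (List.range (l.length + 1)).map (fun i => l.drop i) := by
  induction l with
  | nil => rfl
  | cons a l ih =>
    rw [List.tails_cons, ih, List.length_cons, List.range_succ_eq_map (n := l.length + 1)]
    simp [Function.comp_def]

@[fun_prop]
theorem ptf_tails {l : γ → List α} (hl : PTF l) : PTF (fun c => (l c).tails) := by
  have h : PTF (fun c => (List.range ((l c).length + 1)).map (fun i => (l c).drop i)) := by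
    fun_prop
  exact h.of_eq (fun c => (tails_eq_map_range _).symm)

@[fun_prop]
theorem ptf_inits {l : γ → List α} (hl : PTF l) : PTF (fun c => (l c).inits) := by
  have h : PTF (fun c => (((l c).reverse.tails).map List.reverse).reverse) := by fun_prop
  exact h.of_eq (fun c => (List.inits_eq_tails _).symm)

omit [PTCode α] in
theorem zipIdx_eq_zip (l : List α) (k : ℕ) :
    l.zipIdx k = List.zip l ((List.range l.length).map (fun i => k + i)) := by
  induction l generalizing k with
  | nil => rfl
  | cons a l ih =>
    rw [List.zipIdx_cons, ih, List.length_cons, List.range_succ_eq_map]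
    simp only [List.map_cons, List.zip_cons_cons, Nat.add_zero, List.map_map]
    congr 2
    apply List.map_congr_left
    intro i _
    simp only [Function.comp]
    omega

@[fun_prop]
theorem ptf_zipIdx {l : γ → List α} {k : γ → ℕ} (hl : PTF l) (hk : PTF k) :
    PTF (fun c => (l c).zipIdx (k c)) := by
  have h : PTF (fun c => List.zip (l c) ((List.range (l c).length).map (fun i => k c + i))) := by
    fun_prop
  exact h.of_eq (fun c => (zipIdx_eq_zip _ _).symm)

@[fun_prop]
theorem ptf_product {l : γ → List α} {l' : γ → List β} (hl : PTF l) (hl' : PTF l') :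
    PTF (fun c => List.product (l c) (l' c)) := by
  have h : PTF (fun c => (l c).flatMap (fun a => (l' c).map (fun b => (a, b)))) := by fun_prop
  exact h.of_eq (fun c => rfl)

@[fun_prop]
theorem ptf_sprod {l : γ → List α} {l' : γ → List β} (hl : PTF l) (hl' : PTF l') :
    PTF (fun c => (l c) ×ˢ (l' c)) :=
  (ptf_product hl hl').of_eq (fun c => rfl)

@[fun_prop]
theorem ptp_nil {l : γ → List α} (hl : PTF l) : PTPred (fun c => l c = []) := by fun_prop

@[fun_prop]
theorem ptp_prefix {u v : γ → List α} (hu : PTF u) (hv : PTF v) :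
    PTPred (fun c => u c <+: v c) := by
  have h : PTPred (fun c => u c = (v c).take (u c).length) := by fun_prop
  exact h.of_iff (fun c => List.prefix_iff_eq_take.symm)

@[fun_prop]
theorem ptp_suffix {u v : γ → List α} (hu : PTF u) (hv : PTF v) :
    PTPred (fun c => u c <:+ v c) := by
  have h : PTPred (fun c => u c = (v c).drop ((v c).length - (u c).length)) := by fun_prop
  exact h.of_iff (fun c => List.suffix_iff_eq_drop.symm)

@[fun_prop]
theorem ptp_infix {u v : γ → List α} (hu : PTF u) (hv : PTF v) :
    PTPred (fun c => u c <:+: v c) := by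
  have h : PTPred (fun c => ∃ t ∈ (v c).tails, u c <+: t) := by fun_prop
  refine h.of_iff (fun c => ?_)
  rw [List.infix_iff_prefix_suffix]
  constructor
  · rintro ⟨t, ht, h⟩
    exact ⟨t, h, (List.mem_tails _ _).1 ht⟩
  · rintro ⟨t, h, ht⟩
    exact ⟨t, (List.mem_tails _ _).2 ht, h⟩

@[fun_prop]
theorem ptf_isPrefixOf [BEq α] [LawfulBEq α] {u v : γ → List α} (hu : PTF u) (hv : PTF v) :
    PTF (fun c => (u c).isPrefixOf (v c)) := by
  classical
  have h : PTF (fun c => decide (u c <+: v c)) := by fun_prop
  refine h.of_eq (fun c => ?_)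
  rw [Bool.eq_iff_iff]
  simp

@[fun_prop]
theorem ptf_isSuffixOf [BEq α] [LawfulBEq α] {u v : γ → List α} (hu : PTF u) (hv : PTF v) :
    PTF (fun c => (u c).isSuffixOf (v c)) := by
  classical
  have h : PTF (fun c => decide (u c <:+ v c)) := by fun_prop
  refine h.of_eq (fun c => ?_)
  rw [Bool.eq_iff_iff]
  simp

/-! ### pairwise, chains, nodup -/

theorem ptp_pairwise {l : γ → List α} {r : γ → α → α → Prop} (hl : PTF l)
    (hr : PTPred (fun p : γ × α × α => r p.1 p.2.1 p.2.2)) :
    PTPred (fun c => (l c).Pairwise (r c)) := by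
  classical
  have h : PTF (fun c => (l c).tails.all (fun t => lelim t true
      (fun a s => s.all (fun b => decide (r c a b))))) := by
    have h0 : PTF (fun p : (((γ × List α) × α × List α) × α) =>
        decide (r p.1.1.1 p.1.2.1 p.2)) :=
      PTPred.toPTF (PTPred.comp (f := fun p : (((γ × List α) × α × List α) × α) =>
        (p.1.1.1, p.1.2.1, p.2)) hr (by fun_prop))
    refine ptf_all (f := fun c t => lelim t true
      (fun a s => s.all (fun b => decide (r c a b)))) (by fun_prop) ?_
    refine ptf_lelim (l := fun p : γ × List α => p.2) (d := fun _ => true)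
      (f := fun p a s => s.all (fun b => decide (r p.1 a b))) (by fun_prop) (by fun_prop) ?_
    exact ptf_all (l := fun p : (γ × List α) × α × List α => p.2.2)
      (f := fun p b => decide (r p.1.1 p.2.1 b)) (by fun_prop) h0
  refine (PTF.toPTPred h).of_iff (fun c => ?_)
  induction l c with
  | nil => simp
  | cons a t ih =>
    rw [List.tails_cons, List.all_cons, List.pairwise_cons, Bool.and_eq_true, ih]
    simp

@[fun_prop]
theorem ptp_nodup {l : γ → List α} (hl : PTF l) : PTPred (fun c => (l c).Nodup) :=
  ptp_pairwise (r := fun _ a b => a ≠ b) hl (by fun_prop)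

theorem ptp_isChain {l : γ → List α} {r : γ → α → α → Prop} (hl : PTF l)
    (hr : PTPred (fun p : γ × α × α => r p.1 p.2.1 p.2.2)) :
    PTPred (fun c => (l c).IsChain (r c)) := by
  classical
  have h0 : PTF (fun p : γ × (α × α) => decide (r p.1 p.2.1 p.2.2)) := PTPred.toPTF hr
  have h : PTF (fun c => (List.zip (l c) (l c).tail).all (fun p => decide (r c p.1 p.2))) :=
    ptf_all (f := fun c (p : α × α) => decide (r c p.1 p.2)) (by fun_prop) h0
  refine (PTF.toPTPred h).of_iff (fun c => ?_)
  induction l c with
  | nil => simp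
  | cons a t ih =>
    cases t with
    | nil => simp
    | cons b s =>
      rw [List.tail_cons, List.zip_cons_cons, List.all_cons, Bool.and_eq_true,
        List.isChain_cons_cons]
      simp only [List.tail_cons] at ih
      rw [ih]
      simp

end fo

/-! ### folds and iterations -/

section folds

variable {α β γ δ : Type} [PTCode α] [PTCode β] [PTCode γ] [PTCode δ]

/-- left fold with an invariant that bounds the size -/
theorem ptf_foldl_inv {l : γ → List α} {f : γ → β → α → β} {b : γ → β} (hl : PTF l)
    (hf : PTF (fun p : γ × β × α => f p.1 p.2.1 p.2.2)) (hb : PTF b) {B : γ → ℕ} (hB : PB B)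
    (P : γ → β → Prop) (h0 : ∀ c, P c (b c)) (hs : ∀ c b, ∀ a ∈ l c, P c b → P c (f c b a))
    (hsz : ∀ c b, P c b → sz b ≤ B c) :
    PTF (fun c => (l c).foldl (f c) (b c)) := by
  refine PTF.foldl hl hf hb hB (fun c i _ => hsz c _ ?_)
  have key : ∀ (l' : List α) (x : β), (∀ a ∈ l', a ∈ l c) → P c x → P c (l'.foldl (f c) x) := by
    intro l'
    induction l' with
    | nil => intro x _ hx; simpa using hx
    | cons a l' ih =>
      intro x hx hx'
      rw [List.foldl_cons]
      exact ih _ (fun a' ha' => hx a' (by simp [ha'])) (hs c x a (hx a (by simp)) hx')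
  exact key _ _ (fun a ha => List.mem_of_mem_take ha) (h0 c)

/-- right fold with an invariant that bounds the size -/
theorem ptf_foldr_inv {l : γ → List α} {f : γ → α → β → β} {b : γ → β} (hl : PTF l)
    (hf : PTF (fun p : γ × α × β => f p.1 p.2.1 p.2.2)) (hb : PTF b) {B : γ → ℕ} (hB : PB B)
    (P : γ → β → Prop) (h0 : ∀ c, P c (b c)) (hs : ∀ c b, ∀ a ∈ l c, P c b → P c (f c a b))
    (hsz : ∀ c b, P c b → sz b ≤ B c) :
    PTF (fun c => (l c).foldr (f c) (b c)) := by
  have h1 : PTF (fun c => ((l c).reverse).foldl (fun b a => f c a b) (b c)) := by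
    refine ptf_foldl_inv (f := fun c b a => f c a b) (PTF.reverse hl) ?_ hb hB P h0 ?_ hsz
    · exact PTF.comp (g := fun q : γ × α × β => f q.1 q.2.1 q.2.2)
        (f := fun p : γ × β × α => (p.1, p.2.2, p.2.1)) hf (by fun_prop)
    · intro c x a ha hx
      exact hs c x a (by simpa using ha) hx
  exact PTF.of_eq h1 (fun c => by rw [List.foldl_reverse])

/-- iteration with an invariant that bounds the size -/
theorem ptf_iterate_inv {n : γ → ℕ} {f : γ → α → α} {a : γ → α} (hn : PTU n)
    (hf : PTF (fun p : γ × α => f p.1 p.2)) (ha : PTF a) {B : γ → ℕ} (hB : PB B)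
    (P : γ → α → Prop) (h0 : ∀ c, P c (a c)) (hs : ∀ c x, P c x → P c (f c x))
    (hsz : ∀ c x, P c x → sz x ≤ B c) :
    PTF (fun c => (f c)^[n c] (a c)) := by
  refine PTF.iterate' hn hf ha hB (fun c i _ => hsz c _ ?_)
  induction i with
  | zero => exact h0 c
  | succ i ih =>
    rw [Function.iterate_succ_apply']
    exact hs c _ (ih (by omega))

/-- folds into `Bool` need no bound -/
@[fun_prop]
theorem ptf_foldl_bool {l : γ → List α} {f : γ → Bool → α → Bool} {b : γ → Bool} (hl : PTF l)
    (hf : PTF (fun p : γ × Bool × α => f p.1 p.2.1 p.2.2)) (hb : PTF b) :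
    PTF (fun c => (l c).foldl (f c) (b c)) :=
  PTF.foldl_bdd hl hf hb (PB.const 1) (fun _ _ _ _ _ => by simp) (fun _ => by simp)

/-- a selecting fold: every step either keeps the state or replaces it by (a function of) the
element: `f c b a ∈ {b, g c a}`-type folds are covered by the bound `S` -/
theorem ptf_foldl_bdd {l : γ → List α} {f : γ → β → α → β} {b : γ → β} (hl : PTF l)
    (hf : PTF (fun p : γ × β × α => f p.1 p.2.1 p.2.2)) (hb : PTF b) {G : γ → ℕ} (hG : PB G)
    (h : ∀ c b, ∀ a ∈ l c, sz b ≤ G c → sz (f c b a) ≤ G c) (h0 : ∀ c, sz (b c) ≤ G c) :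
    PTF (fun c => (l c).foldl (f c) (b c)) := PTF.foldl_bdd hl hf hb hG h h0

/-! #### iteration with a size guard -/

/-- guarded iteration: a step is only executed if the code size of its result is at most `B` -/
def iterG {α : Type} [PTCode α] (B : ℕ) (f : α → α) (n : ℕ) (a : α) : α :=
  (fun x => bif decide (sz (f x) ≤ B) then f x else x)^[n] a

theorem iterG_zero (B : ℕ) (f : α → α) (a : α) : iterG B f 0 a = a := rfl

theorem iterG_succ' (B : ℕ) (f : α → α) (n : ℕ) (a : α) :
    iterG B f (n + 1) a = if sz (f (iterG B f n a)) ≤ B then f (iterG B f n a)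
      else iterG B f n a := by
  unfold iterG
  rw [Function.iterate_succ_apply']
  split_ifs with h <;> simp [h]

/-- without overflow the guarded iteration is the plain one -/
theorem iterG_eq {B : ℕ} {f : α → α} {n : ℕ} {a : α} (h : ∀ i, i < n → sz (f^[i + 1] a) ≤ B) :
    iterG B f n a = f^[n] a := by
  induction n with
  | zero => rfl
  | succ n ih =>
    rw [iterG_succ', ih (fun i hi => h i (by omega)), ← Function.iterate_succ_apply' f n a,
      if_pos (h n (by omega))]

/-- an invariant that holds along the plain iteration and bounds the size -/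
theorem iterG_eq_of_inv {B : ℕ} {f : α → α} {n : ℕ} {a : α} (P : α → Prop) (h0 : P a)
    (hs : ∀ x, P x → P (f x)) (hsz : ∀ x, P x → sz x ≤ B) : iterG B f n a = f^[n] a := by
  refine iterG_eq (fun i _ => hsz _ ?_)
  induction i + 1 with
  | zero => exact h0
  | succ i ih => rw [Function.iterate_succ_apply']; exact hs _ ih

/-- invariants of the guarded iteration -/
theorem iterG_inv {B : ℕ} {f : α → α} {n : ℕ} {a : α} (P : α → Prop) (h0 : P a)
    (hs : ∀ x, P x → P (f x)) : P (iterG B f n a) := by
  induction n with
  | zero => exact h0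
  | succ n ih =>
    rw [iterG_succ']
    split_ifs
    · exact hs _ ih
    · exact ih

theorem iterG_sz_le (B : ℕ) (f : α → α) (n : ℕ) (a : α) : sz (iterG B f n a) ≤ max (sz a) B := by
  induction n with
  | zero => exact le_max_left _ _
  | succ n ih =>
    rw [iterG_succ']
    split_ifs with h
    · exact h.trans (le_max_right _ _)
    · exact ih

@[fun_prop]
theorem ptf_iterG {B n : γ → ℕ} {f : γ → α → α} {a : γ → α} (hB : PTU B)
    (hf : PTF (fun p : γ × α => f p.1 p.2)) (hn : PTU n) (ha : PTF a) :
    PTF (fun c => iterG (B c) (f c) (n c) (a c)) := by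
  unfold iterG
  refine PTF.iterate' (f := fun c x => bif decide (sz (f c x) ≤ B c) then f c x else x) hn ?_ ha
    (B := fun c => max (sz (a c)) (B c)) ?_ ?_
  · have h1 : PTPred (fun p : γ × α => sz (f p.1 p.2) ≤ B p.1) :=
      PTU.le (PTF.szU hf) (PTU.comp hB PTF.fst)
    exact PTF.cond h1.toPTF hf PTF.snd
  · exact (PTU.pb (ptu_max (PTF.szU ha) hB))
  · intro c i _
    exact iterG_sz_le (B c) (f c) i (a c)

/-- guarded left fold -/
def foldlG {α β : Type} [PTCode β] (B : ℕ) (f : β → α → β) (b : β) (l : List α) : β :=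
  l.foldl (fun x a => bif decide (sz (f x a) ≤ B) then f x a else x) b

@[simp] theorem foldlG_nil (B : ℕ) (f : β → α → β) (b : β) : foldlG B f b [] = b := rfl

theorem foldlG_cons (B : ℕ) (f : β → α → β) (b : β) (a : α) (l : List α) :
    foldlG B f b (a :: l) = foldlG B f (if sz (f b a) ≤ B then f b a else b) l := by
  unfold foldlG
  rw [List.foldl_cons]
  split_ifs with h <;> simp [h]

theorem foldlG_eq_of_inv {B : ℕ} {f : β → α → β} {b : β} {l : List α} (P : β → Prop) (h0 : P b)
    (hs : ∀ x, ∀ a ∈ l, P x → P (f x a)) (hsz : ∀ x, P x → sz x ≤ B) :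
    foldlG B f b l = l.foldl f b := by
  induction l generalizing b with
  | nil => rfl
  | cons a l ih =>
    have h1 := hs b a (by simp) h0
    rw [foldlG_cons, if_pos (hsz _ h1), List.foldl_cons]
    exact ih h1 (fun x a' ha' => hs x a' (by simp [ha']))

@[fun_prop]
theorem ptf_foldlG {B : γ → ℕ} {l : γ → List α} {f : γ → β → α → β} {b : γ → β} (hB : PTU B)
    (hf : PTF (fun p : γ × β × α => f p.1 p.2.1 p.2.2)) (hb : PTF b) (hl : PTF l) :
    PTF (fun c => foldlG (B c) (f c) (b c) (l c)) := by
  unfold foldlG
  refine PTF.foldl_bdd (f := fun c x a => bif decide (sz (f c x a) ≤ B c) then f c x a else x)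
    hl ?_ hb (G := fun c => max (sz (b c)) (B c)) (PTU.pb (ptu_max (PTF.szU hb) hB)) ?_ ?_
  · have h1 : PTPred (fun p : γ × β × α => sz (f p.1 p.2.1 p.2.2) ≤ B p.1) :=
      PTU.le (PTF.szU hf) (PTU.comp hB PTF.fst)
    exact PTF.cond h1.toPTF hf (by fun_prop)
  · intro c x a _ hx
    by_cases h : sz (f c x a) ≤ B c
    · simp only [h, decide_true, cond_true]
      exact h.trans (le_max_right _ _)
    · simp only [h, decide_false, cond_false]
      exact hx
  · intro c
    exact le_max_left _ _

end folds

/-! ### selection: argmin, argmax, min?, max?, sorting, dedup -/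

section selection

variable {α β γ δ : Type} [PTCode α] [PTCode β] [PTCode γ] [PTCode δ]

/-- first element with the smallest key -/
def argMin {α : Type} (k : α → ℕ) (l : List α) : Option α :=
  l.foldl (fun o a => o.elim (some a) (fun b => bif decide (k a < k b) then some a else some b))
    none

/-- first element with the largest key -/
def argMax {α : Type} (k : α → ℕ) (l : List α) : Option α :=
  l.foldl (fun o a => o.elim (some a) (fun b => bif decide (k b < k a) then some a else some b))
    none

theorem argMin_aux {α : Type} (k : α → ℕ) (l : List α) (b : α) : ∃ a, (a = b ∨ a ∈ l) ∧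
    k a ≤ k b ∧ (∀ x ∈ l, k a ≤ k x) ∧
    l.foldl (fun o a => o.elim (some a) (fun b => bif decide (k a < k b) then some a else some b))
      (some b) = some a := by
  induction l generalizing b with
  | nil => exact ⟨b, Or.inl rfl, le_rfl, by simp, rfl⟩
  | cons x l ih =>
    rw [List.foldl_cons]
    by_cases h : k x < k b
    · obtain ⟨a, h1, h2, h3, h4⟩ := ih x
      refine ⟨a, Or.inr ?_, by omega, ?_, ?_⟩
      · rcases h1 with rfl | h1 <;> simp_all
      · intro y hy
        rcases List.mem_cons.1 hy with rfl | hy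
        · exact h2
        · exact h3 y hy
      · simpa [h] using h4
    · obtain ⟨a, h1, h2, h3, h4⟩ := ih b
      refine ⟨a, ?_, h2, ?_, ?_⟩
      · rcases h1 with rfl | h1
        · exact Or.inl rfl
        · exact Or.inr (by simp [h1])
      · intro y hy
        rcases List.mem_cons.1 hy with rfl | hy
        · omega
        · exact h3 y hy
      · simpa [h] using h4

theorem argMin_eq_none {α : Type} {k : α → ℕ} {l : List α} : argMin k l = none ↔ l = [] := by
  cases l with
  | nil => simp [argMin]
  | cons b l =>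
    obtain ⟨a, _, _, _, h4⟩ := argMin_aux k l b
    unfold argMin
    rw [List.foldl_cons]
    simp only [Option.elim_none]
    rw [h4]
    simp

theorem argMin_spec {α : Type} {k : α → ℕ} {l : List α} {a : α} (h : argMin k l = some a) :
    a ∈ l ∧ ∀ x ∈ l, k a ≤ k x := by
  cases l with
  | nil => simp [argMin] at h
  | cons b l =>
    obtain ⟨a', h1, h2, h3, h4⟩ := argMin_aux k l b
    unfold argMin at h
    rw [List.foldl_cons] at h
    simp only [Option.elim_none] at h
    rw [h4] at h
    obtain rfl := Option.some.inj h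
    refine ⟨?_, ?_⟩
    · rcases h1 with rfl | h1 <;> simp_all
    · intro y hy
      rcases List.mem_cons.1 hy with rfl | hy
      · exact h2
      · exact h3 y hy

theorem argMin_mem {α : Type} {k : α → ℕ} {l : List α} {a : α} (h : argMin k l = some a) :
    a ∈ l := (argMin_spec h).1

theorem argMax_aux {α : Type} (k : α → ℕ) (l : List α) (b : α) : ∃ a, (a = b ∨ a ∈ l) ∧
    k b ≤ k a ∧ (∀ x ∈ l, k x ≤ k a) ∧
    l.foldl (fun o a => o.elim (some a) (fun b => bif decide (k b < k a) then some a else some b))
      (some b) = some a := by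
  induction l generalizing b with
  | nil => exact ⟨b, Or.inl rfl, le_rfl, by simp, rfl⟩
  | cons x l ih =>
    rw [List.foldl_cons]
    by_cases h : k b < k x
    · obtain ⟨a, h1, h2, h3, h4⟩ := ih x
      refine ⟨a, Or.inr ?_, by omega, ?_, ?_⟩
      · rcases h1 with rfl | h1 <;> simp_all
      · intro y hy
        rcases List.mem_cons.1 hy with rfl | hy
        · exact h2
        · exact h3 y hy
      · simpa [h] using h4
    · obtain ⟨a, h1, h2, h3, h4⟩ := ih b
      refine ⟨a, ?_, h2, ?_, ?_⟩
      · rcases h1 with rfl | h1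
        · exact Or.inl rfl
        · exact Or.inr (by simp [h1])
      · intro y hy
        rcases List.mem_cons.1 hy with rfl | hy
        · omega
        · exact h3 y hy
      · simpa [h] using h4

theorem argMax_eq_none {α : Type} {k : α → ℕ} {l : List α} : argMax k l = none ↔ l = [] := by
  cases l with
  | nil => simp [argMax]
  | cons b l =>
    obtain ⟨a, _, _, _, h4⟩ := argMax_aux k l b
    unfold argMax
    rw [List.foldl_cons]
    simp only [Option.elim_none]
    rw [h4]
    simp

theorem argMax_spec {α : Type} {k : α → ℕ} {l : List α} {a : α} (h : argMax k l = some a) :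
    a ∈ l ∧ ∀ x ∈ l, k x ≤ k a := by
  cases l with
  | nil => simp [argMax] at h
  | cons b l =>
    obtain ⟨a', h1, h2, h3, h4⟩ := argMax_aux k l b
    unfold argMax at h
    rw [List.foldl_cons] at h
    simp only [Option.elim_none] at h
    rw [h4] at h
    obtain rfl := Option.some.inj h
    refine ⟨?_, ?_⟩
    · rcases h1 with rfl | h1 <;> simp_all
    · intro y hy
      rcases List.mem_cons.1 hy with rfl | hy
      · exact h2
      · exact h3 y hy

theorem argMax_mem {α : Type} {k : α → ℕ} {l : List α} {a : α} (h : argMax k l = some a) :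
    a ∈ l := (argMax_spec h).1

theorem ptf_select {l : γ → List α} {r : γ → α → α → Bool} (hl : PTF l)
    (hr : PTF (fun p : γ × α × α => r p.1 p.2.1 p.2.2)) :
    PTF (fun c => (l c).foldl (fun o a => o.elim (some a)
      (fun b => bif r c a b then some a else some b)) none) := by
  refine PTF.foldl_bdd (f := fun (c : γ) (o : Option α) a => o.elim (some a)
      (fun b => bif r c a b then some a else some b)) hl ?_ (PTF.const none)
    (G := fun c => sz (l c) + 1) (by fun_prop) ?_ (by intro c; simp)
  · refine ptf_optionElim (o := fun q : γ × Option α × α => q.2.1) (d := fun q => some q.2.2)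
      (f := fun q b => bif r q.1 q.2.2 b then some q.2.2 else some b)
      (by fun_prop) (by fun_prop) ?_
    refine PTF.cond ?_ (by fun_prop) (by fun_prop)
    exact PTF.comp (g := fun p : γ × α × α => r p.1 p.2.1 p.2.2)
      (f := fun q : (γ × Option α × α) × α => (q.1.1, q.1.2.2, q.2)) hr (by fun_prop)
  · intro c o a ha ho
    have h1 : sz a ≤ sz (l c) := sz_mem_le ha
    cases o with
    | none => simp; omega
    | some b =>
      simp only [Option.elim_some]
      cases r c a b
      · simpa using ho
      · simp; omega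

@[fun_prop]
theorem ptf_argMin {l : γ → List α} {k : γ → α → ℕ} (hk : PTF (fun p : γ × α => k p.1 p.2))
    (hl : PTF l) : PTF (fun c => argMin (k c) (l c)) := by
  unfold argMin
  refine ptf_select (r := fun c a b => decide (k c a < k c b)) hl ?_
  refine PTPred.toPTF (PTPred.natLt ?_ ?_)
  · exact PTF.comp (g := fun p : γ × α => k p.1 p.2) (f := fun p : γ × α × α => (p.1, p.2.1)) hk
      (by fun_prop)
  · exact PTF.comp (g := fun p : γ × α => k p.1 p.2) (f := fun p : γ × α × α => (p.1, p.2.2)) hk
      (by fun_prop)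

@[fun_prop]
theorem ptf_argMax {l : γ → List α} {k : γ → α → ℕ} (hk : PTF (fun p : γ × α => k p.1 p.2))
    (hl : PTF l) : PTF (fun c => argMax (k c) (l c)) := by
  unfold argMax
  refine ptf_select (r := fun c a b => decide (k c b < k c a)) hl ?_
  refine PTPred.toPTF (PTPred.natLt ?_ ?_)
  · exact PTF.comp (g := fun p : γ × α => k p.1 p.2) (f := fun p : γ × α × α => (p.1, p.2.2)) hk
      (by fun_prop)
  · exact PTF.comp (g := fun p : γ × α => k p.1 p.2) (f := fun p : γ × α × α => (p.1, p.2.1)) hk
      (by fun_prop)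

theorem min?_eq_argMin (l : List ℕ) : l.min? = argMin (fun n => n) l := by
  cases h : argMin (fun n => n) l with
  | none => rw [argMin_eq_none] at h; subst h; rfl
  | some a =>
    obtain ⟨h1, h2⟩ := argMin_spec h
    rw [List.min?_eq_some_iff]
    exact ⟨h1, fun b hb => h2 b hb⟩

theorem max?_eq_argMax (l : List ℕ) : l.max? = argMax (fun n => n) l := by
  cases h : argMax (fun n => n) l with
  | none => rw [argMax_eq_none] at h; subst h; rfl
  | some a =>
    obtain ⟨h1, h2⟩ := argMax_spec h
    rw [List.max?_eq_some_iff]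
    exact ⟨h1, fun b hb => h2 b hb⟩

@[fun_prop]
theorem ptf_min? {l : γ → List ℕ} (hl : PTF l) : PTF (fun c => (l c).min?) := by
  have h : PTF (fun c => argMin (fun n => n) (l c)) := by fun_prop
  exact h.of_eq (fun c => (min?_eq_argMin _).symm)

@[fun_prop]
theorem ptf_max? {l : γ → List ℕ} (hl : PTF l) : PTF (fun c => (l c).max?) := by
  have h : PTF (fun c => argMax (fun n => n) (l c)) := by fun_prop
  exact h.of_eq (fun c => (max?_eq_argMax _).symm)

theorem foldr_min_eq (l : List ℕ) (d : ℕ) : l.foldr min d = min d (l.min?.getD d) := by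
  induction l with
  | nil => simp
  | cons a l ih =>
    rw [List.foldr_cons, ih, List.min?_cons]
    cases l.min? with
    | none => simp [min_comm]
    | some b => simp only [Option.elim_some, Option.getD_some]; omega

theorem foldr_max_eq (l : List ℕ) (d : ℕ) : l.foldr max d = max d (l.max?.getD d) := by
  induction l with
  | nil => simp
  | cons a l ih =>
    rw [List.foldr_cons, ih, List.max?_cons]
    cases l.max? with
    | none => simp [max_comm]
    | some b => simp only [Option.elim_some, Option.getD_some]; omega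

@[fun_prop]
theorem ptf_foldr_min {l : γ → List ℕ} {d : γ → ℕ} (hl : PTF l) (hd : PTF d) :
    PTF (fun c => (l c).foldr min (d c)) := by
  have h : PTF (fun c => min (d c) ((l c).min?.getD (d c))) := by fun_prop
  exact h.of_eq (fun c => (foldr_min_eq _ _).symm)

@[fun_prop]
theorem ptf_foldr_max {l : γ → List ℕ} {d : γ → ℕ} (hl : PTF l) (hd : PTF d) :
    PTF (fun c => (l c).foldr max (d c)) := by
  have h : PTF (fun c => max (d c) ((l c).max?.getD (d c))) := by fun_prop
  exact h.of_eq (fun c => (foldr_max_eq _ _).symm)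

theorem foldl_min_eq (l : List ℕ) (d : ℕ) : l.foldl min d = l.foldr min d := by
  induction l generalizing d with
  | nil => rfl
  | cons a l ih =>
    rw [List.foldl_cons, ih, List.foldr_cons, foldr_min_eq, foldr_min_eq l d]
    cases l.min? with
    | none => simp [min_comm]
    | some b => simp only [Option.getD_some]; omega

theorem foldl_max_eq (l : List ℕ) (d : ℕ) : l.foldl max d = l.foldr max d := by
  induction l generalizing d with
  | nil => rfl
  | cons a l ih =>
    rw [List.foldl_cons, ih, List.foldr_cons, foldr_max_eq, foldr_max_eq l d]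
    cases l.max? with
    | none => simp [max_comm]
    | some b => simp only [Option.getD_some]; omega

@[fun_prop]
theorem ptf_foldl_min {l : γ → List ℕ} {d : γ → ℕ} (hl : PTF l) (hd : PTF d) :
    PTF (fun c => (l c).foldl min (d c)) :=
  (ptf_foldr_min hl hd).of_eq (fun c => (foldl_min_eq _ _).symm)

@[fun_prop]
theorem ptf_foldl_max {l : γ → List ℕ} {d : γ → ℕ} (hl : PTF l) (hd : PTF d) :
    PTF (fun c => (l c).foldl max (d c)) :=
  (ptf_foldr_max hl hd).of_eq (fun c => (foldl_max_eq _ _).symm)

/-- insertion sort -/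
theorem sz_orderedInsert (r : α → α → Prop) [DecidableRel r] (a : α) (l : List α) :
    sz (List.orderedInsert r a l) = 2 * sz a + 1 + sz l := by
  induction l with
  | nil => simp
  | cons b l ih =>
    rw [List.orderedInsert]
    split_ifs with h
    · simp
    · rw [sz_cons, ih, sz_cons]; ring

theorem ptf_orderedInsert {l : γ → List α} {a : γ → α} {r : γ → α → α → Prop}
    [∀ c, DecidableRel (r c)] (hr : PTPred (fun p : γ × α × α => r p.1 p.2.1 p.2.2)) (ha : PTF a)
    (hl : PTF l) : PTF (fun c => List.orderedInsert (r c) (a c) (l c)) := by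
  classical
  have h1 : PTF (fun p : γ × α => decide (¬ r p.1 (a p.1) p.2)) :=
    PTPred.toPTF (PTPred.not (PTPred.comp (f := fun p : γ × α => (p.1, a p.1, p.2)) hr
      (by fun_prop)))
  have h2 : PTF (fun c => (l c).takeWhile (fun b => decide (¬ r c (a c) b)) ++
      a c :: (l c).dropWhile (fun b => decide (¬ r c (a c) b))) := by
    have h3 := ptf_takeWhile (f := fun c b => decide (¬ r c (a c) b)) hl h1
    have h4 := ptf_dropWhile (f := fun c b => decide (¬ r c (a c) b)) hl h1
    fun_prop
  refine h2.of_eq (fun c => ?_)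
  rw [List.orderedInsert_eq_take_drop]

theorem sz_insertionSort (r : α → α → Prop) [DecidableRel r] (l : List α) :
    sz (List.insertionSort r l) = sz l := by
  induction l with
  | nil => simp
  | cons b l ih => rw [List.insertionSort_cons, sz_orderedInsert, ih, sz_cons]

theorem ptf_insertionSort {l : γ → List α} {r : γ → α → α → Prop}
    [∀ c, DecidableRel (r c)] (hr : PTPred (fun p : γ × α × α => r p.1 p.2.1 p.2.2))
    (hl : PTF l) : PTF (fun c => List.insertionSort (r c) (l c)) := by
  have h : PTF (fun c => (l c).foldr (List.orderedInsert (r c)) []) := by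
    refine PTF.foldr (f := fun c a acc => List.orderedInsert (r c) a acc) hl ?_ (PTF.const [])
      (B := fun c => sz (l c)) hl.sz ?_
    · refine ptf_orderedInsert (γ := γ × α × List α) (r := fun p => r p.1) ?_ (by fun_prop)
        (by fun_prop)
      exact PTPred.comp (f := fun p : (γ × α × List α) × α × α => (p.1.1, p.2)) hr (by fun_prop)
    · intro c i _
      have h1 := sz_insertionSort (r c) ((l c).drop i)
      have h2 : ((l c).drop i).foldr (fun a acc => List.orderedInsert (r c) a acc) [] =
        List.insertionSort (r c) ((l c).drop i) := rfl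
      rw [h2, h1]
      exact sz_drop_le _ _
  exact h.of_eq (fun c => rfl)

/-- insertion sort by a key -/
def sortKey {α : Type} (k : α → ℕ) (l : List α) : List α :=
  List.insertionSort (fun a b => k a ≤ k b) l

theorem sortKey_perm {α : Type} (k : α → ℕ) (l : List α) : (sortKey k l).Perm l :=
  List.perm_insertionSort _ _

@[fun_prop]
theorem ptf_sortKey {l : γ → List α} {k : γ → α → ℕ} (hk : PTF (fun p : γ × α => k p.1 p.2))
    (hl : PTF l) : PTF (fun c => sortKey (k c) (l c)) := by
  unfold sortKey
  refine ptf_insertionSort (r := fun c a b => k c a ≤ k c b) (PTPred.natLe ?_ ?_) hl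
  · exact PTF.comp (g := fun p : γ × α => k p.1 p.2) (f := fun p : γ × α × α => (p.1, p.2.1)) hk
      (by fun_prop)
  · exact PTF.comp (g := fun p : γ × α => k p.1 p.2) (f := fun p : γ × α × α => (p.1, p.2.2)) hk
      (by fun_prop)

theorem dedup_eq_foldr {α : Type} [DecidableEq α] (l : List α) :
    l.dedup = l.foldr (fun a acc => if a ∈ acc then acc else a :: acc) [] := by
  induction l with
  | nil => rfl
  | cons a l ih =>
    rw [List.foldr_cons, ← ih]
    by_cases h : a ∈ l
    · rw [List.dedup_cons_of_mem h, if_pos (List.mem_dedup.2 h)]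
    · rw [List.dedup_cons_of_notMem h, if_neg (fun h' => h (List.mem_dedup.1 h'))]

theorem sz_sublist {l l' : List α} (h : List.Sublist l l') : sz l ≤ sz l' := by
  induction h with
  | slnil => simp
  | cons a _ ih => simp; omega
  | cons_cons a _ ih => simp; omega

@[fun_prop]
theorem ptf_dedup [DecidableEq α] {l : γ → List α} (hl : PTF l) : PTF (fun c => (l c).dedup) := by
  have h : PTF (fun c => (l c).foldr (fun a acc => if a ∈ acc then acc else a :: acc) []) := by
    refine PTF.foldr (f := fun (c : γ) (a : α) acc => if a ∈ acc then acc else a :: acc) hl ?_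
      (PTF.const []) (B := fun c => sz (l c)) hl.sz ?_
    · fun_prop
    · intro c i _
      have h1 := dedup_eq_foldr ((l c).drop i)
      rw [← h1]
      exact (sz_sublist (List.dedup_sublist _)).trans (sz_drop_le _ _)
  exact h.of_eq (fun c => (dedup_eq_foldr _).symm)

end selection

end Crest.Agent.R287.PTB
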