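import Crest.Agent.R287.CorePT
import Crest.Agent.R287.PTBasics

/-!
# Row 287: the whole one-pass process is polynomial time
-/

set_option autoImplicit false

namespace Crest.Agent.R287

open Crest.Agent.Lib.PT

variable {γ : Type} [PTCode γ]

/-- size bound for the states of the process (semantic input for the running time) -/
def SttBd (S : List Word) : Prop :=
  ∀ i, i ≤ maxLen S →
    ((stt S i).1 ++ (stt S i).2).flatten.length ≤ (S.map List.length).sum ∧
    ∀ X ∈ (stt S i).1 ++ (stt S i).2, X ≠ [] ∧ ∀ p ∈ X, ∃ s ∈ S, p <:+: s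

theorem sz_infix {p s : Word} (h : p <:+: s) : sz p ≤ sz s := by
  obtain ⟨a, b, rfl⟩ := h
  simp only [sz_append]
  omega

theorem sz_tail_le' (s : Word) : sz s.tail ≤ sz s := sz_tail_le s

theorem sz_listList_le (l : List PL) (m : ℕ) (h : ∀ X ∈ l, X ≠ [] ∧ ∀ p ∈ X, sz p ≤ m) :
    sz l ≤ l.flatten.length * (4 * m + 3) := by
  induction l with
  | nil => simp
  | cons X l ih =>
    have h1 := ih (fun Y hY => h Y (List.mem_cons_of_mem _ hY))
    obtain ⟨h2, h3⟩ := h X List.mem_cons_self
    have h4 : sz X ≤ X.length * (2 * m + 1) := sz_list_le h3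
    have h5 : 1 ≤ X.length := List.length_pos_of_ne_nil h2
    simp only [sz_cons, List.flatten_cons, List.length_append]
    have e : (X.length + l.flatten.length) * (4 * m + 3) =
        2 * (X.length * (2 * m + 1)) + X.length + l.flatten.length * (4 * m + 3) := by ring
    omega

theorem sum_length_le_sz (S : List Word) : (S.map List.length).sum ≤ sz S := by
  induction S with
  | nil => simp
  | cons s S ih =>
    simp only [List.map_cons, List.sum_cons, sz_cons]
    have := length_le_sz s
    omega

theorem maxLen_le_sum (S : List Word) : maxLen S ≤ (S.map List.length).sum := by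
  unfold maxLen
  induction S with
  | nil => simp
  | cons s S ih => simp only [List.map_cons, List.foldr_cons, List.sum_cons]; omega

theorem sz_stt_le {S : List Word} (h : SttBd S) {i : ℕ} (hi : i ≤ maxLen S) :
    sz (stt S i) ≤ 2 * (sz S * (4 * sz S + 3)) + 1 := by
  obtain ⟨h1, h2⟩ := h i hi
  have h3 : sz ((stt S i).1 ++ (stt S i).2) ≤
      ((stt S i).1 ++ (stt S i).2).flatten.length * (4 * sz S + 3) := by
    apply sz_listList_le
    intro X hX
    obtain ⟨h4, h5⟩ := h2 X hX
    refine ⟨h4, fun p hp => ?_⟩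
    obtain ⟨s, hs, hps⟩ := h5 p hp
    exact (sz_infix hps).trans (sz_mem_le hs)
  have h4 : ((stt S i).1 ++ (stt S i).2).flatten.length ≤ sz S := h1.trans (sum_length_le_sz S)
  have h5 : sz ((stt S i).1 ++ (stt S i).2) ≤ sz S * (4 * sz S + 3) :=
    h3.trans (Nat.mul_le_mul_right _ h4)
  have h6 : sz (stt S i) = 2 * sz (stt S i).1 + 1 + sz (stt S i).2 := by
    rw [← sz_prod]
  rw [sz_append] at h5
  omega

theorem ptu_maxLen {S : γ → List Word} (hS : PTF S) : PTU (fun c => maxLen (S c)) := by
  have key : ∀ (l : List Word), (l.foldr (fun p (acc : Un) => Un.mk (max p.length acc.val))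
      (Un.mk 0)) = Un.mk (maxLen l) := by
    intro l
    induction l with
    | nil => rfl
    | cons a l ih => simp only [List.foldr_cons, ih, maxLen, List.map_cons]
  have h : PTF (fun c => ((S c).foldr (fun p (acc : Un) => Un.mk (max p.length acc.val))
      (Un.mk 0))) := by
    refine PTF.foldr (f := fun (_ : γ) (p : Word) (acc : Un) =>
      Un.mk (max p.length acc.val)) (b := fun _ => Un.mk 0) hS ?_ (PTF.const _)
      (B := fun c => sz (S c)) (by have := hS.sz; fun_prop) ?_
    · have h1 : PTU (fun p : γ × Word × Un => p.2.1.length) := PTU.length (ptf_fst PTF.snd)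
      have h2 : PTU (fun p : γ × Word × Un => p.2.2.val) := PTU.val (ptf_snd PTF.snd)
      exact (PTU.add h1 (PTU.sub h2 h1)).of_eq (fun p => by omega)
    · intro c i _
      rw [key]
      simp only [sz_un]
      exact ((maxLen_le_sum _).trans (sum_length_le_sz _)).trans (sz_drop_le _ _)
  exact PTF.of_eq h (fun c => by rw [key])

theorem sz_xw_le (K : PL) : sz (xw K) ≤ sz K := by
  unfold xw bottom
  refine (sz_take_le _ _).trans ((sz_tail_le _).trans ?_)
  cases h : K.find? (fun p => p.length - 1 == levN K) with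
  | none => simp
  | some p => exact sz_mem_le (List.mem_of_find?_eq_some h)

theorem sz_issue_le (m : ℕ) (st : St) (K : PL) : sz (issue m st K) ≤ sz st + (8 * sz K + 6) := by
  unfold issue
  split_ifs
  · obtain ⟨a, b⟩ := st
    have := sz_xw_le K
    simp only [sz_prod, sz_cons, sz_nil]
    omega
  · omega

theorem sz_addInput_le (m : ℕ) (st : St) (s : Word) :
    sz (addInput m st s) ≤ sz st + (8 * sz s + 6) := by
  unfold addInput
  split_ifs
  · obtain ⟨a, b⟩ := st
    simp only [sz_prod, sz_cons, sz_nil]
    omega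
  · omega

theorem ptf_level {S : γ → List Word} {m : γ → ℕ} {st : γ → St} (hS : PTF S) (hm : PTF m)
    (hs : PTF st) : PTF (fun c => level (S c) (m c) (st c)) := by
  have h1 : PTF (fun c => (((st c).1.map ext, (st c).2) : St)) :=
    PTF.prodMk (PTF.map (f := fun _ X => ext X) (ptf_fst hs) (ptf_ext PTF.snd)) (ptf_snd hs)
  have h2 : PTF (fun c => (st c).2.foldl (issue (m c)) (((st c).1.map ext, (st c).2) : St)) := by
    refine PTF.foldl_add (f := fun c st K => issue (m c) st K) (ptf_snd hs) ?_ h1
      (G := fun c => 8 * sz (st c).2 + 6) (by have := (ptf_snd hs).sz; fun_prop) ?_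
    · exact ptf_issue (PTF.comp hm PTF.fst) (ptf_fst PTF.snd) (ptf_snd PTF.snd)
    · intro c b a ha
      refine (sz_issue_le _ _ _).trans ?_
      have := sz_mem_le ha
      omega
  have h3 : PTF (fun c => (S c).foldl (addInput (m c))
      ((st c).2.foldl (issue (m c)) (((st c).1.map ext, (st c).2) : St))) := by
    refine PTF.foldl_add (f := fun c st K => addInput (m c) st K) hS ?_ h2
      (G := fun c => 8 * sz (S c) + 6) (by have := hS.sz; fun_prop) ?_
    · exact ptf_addInput (PTF.comp hm PTF.fst) (ptf_fst PTF.snd) (ptf_snd PTF.snd)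
    · intro c b a ha
      refine (sz_addInput_le _ _ _).trans ?_
      have := sz_mem_le ha
      omega
  have h4 := ptf_mergeAll (ptf_fst h3)
  have hself : PTF₂ (fun (_ : γ) (X : PL) => linkB X X) := ptf_linkB PTF.snd PTF.snd
  have h5 := PTF.filter (p := fun _ X => !linkB X X) h4 (PTF.not hself)
  have h6 := PTF.filter (p := fun _ X => linkB X X) h4 hself
  exact PTF.prodMk h5 (PTF.append (ptf_snd h3) h6)

/-- the process is poly-time, given the size bound -/
theorem ptf_ringsOf (hb : ∀ S, SttBd S) {S : γ → List Word} (hS : PTF S) :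
    PTF (fun c => ringsOf (S c)) := by
  have h : PTF (fun c => stt (S c) (maxLen (S c))) := by
    refine PTF.natRec (n := fun c => maxLen (S c)) (b := fun _ => (([], []) : St))
      (s := fun c i st => level (S c) (maxLen (S c) - i) st) (r := fun c i => stt (S c) i)
      (ptu_maxLen hS) (PTF.const _) ?_ (fun _ => rfl) (fun _ _ _ => rfl)
      (B := fun c => 2 * (sz (S c) * (4 * sz (S c) + 3)) + 1) (by have := hS.sz; fun_prop) ?_
    · exact ptf_level (PTF.comp hS PTF.fst) (PTF.natSub (PTU.toPTF
        (ptu_maxLen (PTF.comp hS PTF.fst))) (ptf_fst PTF.snd)) (ptf_snd PTF.snd)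
    · intro c i hi
      exact sz_stt_le (hb (S c)) hi
  exact ptf_snd h

end Crest.Agent.R287
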