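import Crest.Agent.R287.CoreMerge
import Crest.Agent.R287.SttPT

/-!
# Row 287: size bounds for the states of the one-pass process

Potential: (number of words) + `m` times (number of open chains) + pending demands + pending inputs.
-/

set_option autoImplicit false

namespace Crest.Agent.R287

namespace Sz

/-- number of words of a state -/
def nw (st : St) : ℕ := (st.1 ++ st.2).flatten.length

/-- pending demand of a ring before level `m` -/
def pend (m : ℕ) (K : PL) : ℕ := if levN K ≤ m + K.length then levN K - K.length else 0

/-- pending inputs before level `m` -/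
def pendIn (S : List Word) (m : ℕ) : ℕ := ((S.map List.length).filter (fun n => n ≤ m)).sum

/-- the potential before level `m` -/
def pot (S : List Word) (m : ℕ) (st : St) : ℕ :=
  nw st + m * st.1.length + (st.2.map (pend m)).sum + pendIn S m

theorem nw_eq (st : St) : nw st = st.1.flatten.length + st.2.flatten.length := by
  unfold nw
  rw [List.flatten_append, List.length_append]

theorem pend_le (m : ℕ) (K : PL) : pend m K ≤ m := by
  unfold pend; split_ifs <;> omega

theorem pend_succ (m : ℕ) (K : PL) :
    pend m K + (if levN K = m + 1 + K.length then m + 1 else 0) ≤ pend (m + 1) K := by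
  unfold pend; split_ifs <;> omega

theorem pendIn_succ (S : List Word) (m : ℕ) :
    pendIn S m + (S.countP (fun s => s.length = m + 1)) * (m + 1) ≤ pendIn S (m + 1) := by
  unfold pendIn
  induction S with
  | nil => simp
  | cons s S ih =>
    simp only [List.map_cons, List.filter_cons, List.countP_cons, decide_eq_true_eq]
    by_cases h1 : s.length ≤ m
    · have h2 : s.length ≤ m + 1 := by omega
      have h3 : ¬ s.length = m + 1 := by omega
      simp only [h1, h2, h3, if_true, if_false, List.sum_cons, Nat.add_zero]
      omega
    · by_cases h3 : s.length = m + 1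
      · have h4 : ¬ m + 1 ≤ m := by omega
        simp only [h3, h4, if_true, if_false, List.sum_cons, le_refl]
        rw [Nat.add_mul]
        omega
      · have h2 : ¬ s.length ≤ m + 1 := by omega
        simp only [h1, h2, h3, if_false, Nat.add_zero]
        omega

theorem flatten_ext_length (l : List PL) :
    (l.map ext).flatten.length = l.flatten.length + l.length := by
  induction l with
  | nil => rfl
  | cons X l ih =>
    simp only [List.map_cons, List.flatten_cons, List.length_append, List.length_cons, ih, ext,
      List.length_nil]
    omega

/-- effect of the issues on `nw + m * #opens` -/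
theorem issue_fold (m : ℕ) (R : List PL) (st : St) :
    nw (R.foldl (issue (m + 1)) st) + m * (R.foldl (issue (m + 1)) st).1.length ≤
      nw st + m * st.1.length + (R.map (fun K => if levN K = m + 1 + K.length then m + 1 else 0)).sum ∧
    (R.foldl (issue (m + 1)) st).2 = st.2 := by
  induction R generalizing st with
  | nil => simp
  | cons K R ih =>
    simp only [List.foldl_cons, List.map_cons, List.sum_cons]
    obtain ⟨h1, h2⟩ := ih (issue (m + 1) st K)
    have h3 : nw (issue (m + 1) st K) + m * (issue (m + 1) st K).1.length ≤
        nw st + m * st.1.length + (if levN K = m + 1 + K.length then m + 1 else 0) ∧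
        (issue (m + 1) st K).2 = st.2 := by
      unfold issue
      split_ifs with h h' h'
      · refine ⟨?_, rfl⟩
        rw [nw_eq, nw_eq]
        simp only [List.flatten_cons, List.length_append, List.length_cons, List.length_nil]
        rw [Nat.mul_add]
        omega
      · exfalso
        simp only [Bool.and_eq_true, decide_eq_true_eq] at h
        exact h' h.1
      · exact ⟨by omega, rfl⟩
      · exact ⟨by omega, rfl⟩
    refine ⟨?_, h2.trans h3.2⟩
    have := h3.1
    omega

theorem addInput_fold (m : ℕ) (S : List Word) (st : St) :
    nw (S.foldl (addInput (m + 1)) st) + m * (S.foldl (addInput (m + 1)) st).1.length ≤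
      nw st + m * st.1.length + (S.countP (fun s => s.length = m + 1)) * (m + 1) ∧
    (S.foldl (addInput (m + 1)) st).2 = st.2 := by
  induction S generalizing st with
  | nil => simp
  | cons s S ih =>
    simp only [List.foldl_cons, List.countP_cons, decide_eq_true_eq]
    obtain ⟨h1, h2⟩ := ih (addInput (m + 1) st s)
    have h3 : nw (addInput (m + 1) st s) + m * (addInput (m + 1) st s).1.length ≤
        nw st + m * st.1.length + (if s.length = m + 1 then 1 else 0) * (m + 1) ∧
        (addInput (m + 1) st s).2 = st.2 := by
      unfold addInput
      split_ifs with h h' h'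
      · refine ⟨?_, rfl⟩
        rw [nw_eq, nw_eq]
        simp only [List.flatten_cons, List.length_append, List.length_cons, List.length_nil]
        rw [Nat.mul_add]
        omega
      · exfalso
        simp only [Bool.and_eq_true, decide_eq_true_eq] at h
        exact h' h.1
      · exact ⟨by omega, rfl⟩
      · exact ⟨by omega, rfl⟩
    refine ⟨?_, h2.trans h3.2⟩
    have := h3.1
    rw [Nat.add_mul]
    omega

theorem insertOpen_length (X : PL) (acc : List PL) : (insertOpen X acc).length ≤ acc.length + 1 := by
  unfold insertOpen pick
  simp only [List.length_cons]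
  have h1 := List.length_eraseP_le (l := acc) (p := fun Y => linkB X Y)
  have h2 := List.length_eraseP_le (l := acc.eraseP (fun Y => linkB X Y))
    (p := fun Z => linkB Z (X ++ (acc.find? (fun Y => linkB X Y)).getD []))
  omega

theorem mergeAll_length (l : List PL) : (mergeAll l).length ≤ l.length := by
  unfold mergeAll
  induction l with
  | nil => simp
  | cons X l ih =>
    rw [List.foldr_cons, List.length_cons]
    have := insertOpen_length X (List.foldr insertOpen [] l)
    omega

theorem close_length (l : List PL) :
    (l.filter (fun X => !linkB X X)).flatten.length + (l.filter (fun X => linkB X X)).flatten.length =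
      l.flatten.length := by
  induction l with
  | nil => rfl
  | cons X l ih =>
    by_cases h : linkB X X = true
    · simp [h]; simp at ih; omega
    · simp only [Bool.not_eq_true] at h
      simp [h]; simp at ih; omega

theorem close_count (l : List PL) (m : ℕ) :
    m * (l.filter (fun X => !linkB X X)).length +
      ((l.filter (fun X => linkB X X)).map (pend m)).sum ≤ m * l.length := by
  induction l with
  | nil => simp
  | cons X l ih =>
    have hp := pend_le m X
    by_cases h : linkB X X = true
    · simp only [h, List.filter_cons, Bool.not_true, if_true, List.map_cons, List.sum_cons,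
        List.length_cons, Nat.mul_add, Bool.false_eq_true, if_false] at ih ⊢
      omega
    · simp only [Bool.not_eq_true] at h
      simp only [h, List.filter_cons, Bool.not_false, if_true, List.length_cons, Nat.mul_add,
        Bool.false_eq_true, if_false] at ih ⊢
      omega

/-- the potential does not increase -/
theorem pot_level (S : List Word) (m : ℕ) (st : St) :
    pot S m (level S (m + 1) st) ≤ pot S (m + 1) st := by
  set st1 : St := (st.1.map ext, st.2) with hst1
  set st2 : St := st1.2.foldl (issue (m + 1)) st1 with hst2
  set st3 : St := S.foldl (addInput (m + 1)) st2 with hst3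
  set op := mergeAll st3.1 with hop
  have hlev : level S (m + 1) st = (op.filter (fun X => !linkB X X),
    st3.2 ++ op.filter (fun X => linkB X X)) := rfl
  obtain ⟨a1, a2⟩ := issue_fold m st1.2 st1
  obtain ⟨b1, b2⟩ := addInput_fold m S st2
  rw [← hst2] at a1 a2
  rw [← hst3] at b1 b2
  have e2 : st3.2 = st.2 := by rw [b2, a2]
  have c1 : nw st1 = nw st + st.1.length := by
    rw [nw_eq, nw_eq, hst1]
    simp only [flatten_ext_length]
    omega
  have c2 : st1.1.length = st.1.length := by rw [hst1]; simp
  have c3 : st1.2 = st.2 := rfl
  have d1 : op.flatten.length = st3.1.flatten.length := (mergeAll_flatten st3.1).length_eq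
  have d2 : op.length ≤ st3.1.length := mergeAll_length _
  have d3 := close_length op
  have d4 := close_count op m
  have f1 := pendIn_succ S m
  have f2 : (st.2.map (pend m)).sum +
      (st.2.map (fun K => if levN K = m + 1 + K.length then m + 1 else 0)).sum ≤
      (st.2.map (pend (m + 1))).sum := by
    induction st.2 with
    | nil => simp
    | cons K R ih =>
      have := pend_succ m K
      simp only [List.map_cons, List.sum_cons]
      omega
  unfold pot
  rw [hlev, nw_eq]
  simp only [List.map_append, List.sum_append, List.flatten_append, List.length_append]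
  rw [e2]
  rw [nw_eq st3, e2] at b1
  rw [c3] at a1
  rw [c1, c2] at a1
  have d5 : m * op.length ≤ m * st3.1.length := Nat.mul_le_mul_left m d2
  have g : (m + 1) * st.1.length = m * st.1.length + st.1.length := by ring
  rw [g]
  omega

theorem pot_stt (S : List Word) (i : ℕ) (hi : i ≤ maxLen S) :
    pot S (maxLen S - i) (stt S i) ≤ (S.map List.length).sum := by
  induction i with
  | zero =>
    unfold pot
    simp only [stt, nw, pendIn, List.append_nil, List.flatten_nil, List.length_nil, Nat.mul_zero,
      List.map_nil, List.sum_nil, Nat.zero_add, Nat.sub_zero]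
    generalize maxLen S = N
    induction S with
    | nil => simp
    | cons s S ih =>
      simp only [List.map_cons, List.filter_cons, List.sum_cons]
      split_ifs
      · simp only [List.sum_cons]
        have := ih (Nat.zero_le _)
        omega
      · have := ih (Nat.zero_le _)
        omega
  | succ i ih =>
    have h1 := ih (by omega)
    have h2 : maxLen S - i = (maxLen S - (i + 1)) + 1 := by omega
    have h3 : stt S (i + 1) = level S (maxLen S - i) (stt S i) := rfl
    rw [h3, h2]
    have h4 := pot_level S (maxLen S - (i + 1)) (stt S i)
    rw [h2] at h1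
    omega

/-! ### the words are factors of the inputs -/

/-- structural part of the bound -/
def Good (S : List Word) (st : St) : Prop :=
  ∀ X ∈ st.1 ++ st.2, X ≠ [] ∧ ∀ p ∈ X, ∃ s ∈ S, p <:+: s

theorem lastW_mem' {X : PL} (h : X ≠ []) : lastW X ∈ X := by
  unfold lastW
  rw [List.getLastD_eq_getLast?, List.getLast?_eq_some_getLast h]
  exact List.getLast_mem h

theorem good_ext {S : List Word} {st : St} (h : Good S st) : Good S (st.1.map ext, st.2) := by
  intro X hX
  rcases List.mem_append.1 hX with hX | hX
  · obtain ⟨Y, hY, rfl⟩ := List.mem_map.1 hX
    obtain ⟨h1, h2⟩ := h Y (List.mem_append_left _ hY)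
    refine ⟨by simp [ext], ?_⟩
    intro p hp
    unfold ext at hp
    rcases List.mem_append.1 hp with hp | hp
    · exact h2 p hp
    · simp only [List.mem_singleton] at hp
      obtain ⟨s, hs, hs'⟩ := h2 _ (lastW_mem' h1)
      exact ⟨s, hs, hp ▸ (List.tail_suffix _).isInfix.trans hs'⟩
  · exact h X (List.mem_append_right _ hX)

theorem good_issue {S : List Word} {m : ℕ} {st : St} (h : Good S st) {K : PL} (hK : K ∈ st.2) :
    Good S (issue m st K) := by
  unfold issue
  split_ifs
  · intro X hX
    simp only [List.cons_append, List.mem_cons] at hX
    rcases hX with rfl | hX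
    · refine ⟨by simp, ?_⟩
      intro p hp
      simp only [List.mem_singleton] at hp
      subst hp
      obtain ⟨h1, h2⟩ := h K (List.mem_append_right _ hK)
      unfold xw bottom
      cases hf : K.find? (fun p => p.length - 1 == levN K) with
      | none =>
        obtain ⟨s, hs, -⟩ := h2 _ (lastW_mem' h1)
        exact ⟨s, hs, by simp⟩
      | some q =>
        obtain ⟨s, hs, hs'⟩ := h2 q (List.mem_of_find?_eq_some hf)
        refine ⟨s, hs, ?_⟩
        simp only [Option.getD_some]
        exact ((List.take_prefix _ _).isInfix.trans (List.tail_suffix _).isInfix).trans hs'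
    · exact h X hX
  · exact h

theorem good_issue_fold {S : List Word} {m : ℕ} (R : List PL) {st : St} (h : Good S st)
    (hR : ∀ K ∈ R, K ∈ st.2) : Good S (R.foldl (issue m) st) := by
  induction R generalizing st with
  | nil => exact h
  | cons K R ih =>
    rw [List.foldl_cons]
    apply ih (good_issue h (hR K List.mem_cons_self))
    intro K' hK'
    have h2 : (issue m st K).2 = st.2 := by unfold issue; split_ifs <;> rfl
    rw [h2]
    exact hR K' (List.mem_cons_of_mem _ hK')

theorem good_addInput {S : List Word} {m : ℕ} {st : St} (h : Good S st) {s : Word} (hs : s ∈ S) :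
    Good S (addInput m st s) := by
  unfold addInput
  split_ifs
  · intro X hX
    simp only [List.cons_append, List.mem_cons] at hX
    rcases hX with rfl | hX
    · refine ⟨by simp, ?_⟩
      intro p hp
      simp only [List.mem_singleton] at hp
      exact ⟨s, hs, hp ▸ List.infix_refl _⟩
    · exact h X hX
  · exact h

theorem good_addInput_fold {S : List Word} {m : ℕ} (S' : List Word) {st : St} (h : Good S st)
    (hS : ∀ s ∈ S', s ∈ S) : Good S (S'.foldl (addInput m) st) := by
  induction S' generalizing st with
  | nil => exact h
  | cons s S' ih =>
    rw [List.foldl_cons]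
    exact ih (good_addInput h (hS s List.mem_cons_self)) (fun t ht => hS t (List.mem_cons_of_mem _ ht))

theorem good_merge {S : List Word} {st : St} (h : Good S st) :
    Good S ((mergeAll st.1).filter (fun X => !linkB X X),
      st.2 ++ (mergeAll st.1).filter (fun X => linkB X X)) := by
  have key : ∀ X ∈ mergeAll st.1, X ≠ [] ∧ ∀ p ∈ X, ∃ s ∈ S, p <:+: s := by
    intro X hX
    refine ⟨mergeAll_ne_nil (fun Y hY => (h Y (List.mem_append_left _ hY)).1) X hX, ?_⟩
    intro p hp
    have h1 : p ∈ (mergeAll st.1).flatten := List.mem_flatten.2 ⟨X, hX, hp⟩
    have h2 : p ∈ st.1.flatten := (mergeAll_flatten st.1).mem_iff.1 h1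
    obtain ⟨Y, hY, hpY⟩ := List.mem_flatten.1 h2
    exact (h Y (List.mem_append_left _ hY)).2 p hpY
  intro X hX
  simp only [List.mem_append, List.mem_filter] at hX
  rcases hX with ⟨hX, -⟩ | hX | ⟨hX, -⟩
  · exact key X hX
  · exact h X (List.mem_append_right _ hX)
  · exact key X hX

theorem good_level {S : List Word} {m : ℕ} {st : St} (h : Good S st) : Good S (level S m st) := by
  unfold level
  apply good_merge
  apply good_addInput_fold S _ (fun s hs => hs)
  exact good_issue_fold _ (good_ext h) (fun K hK => hK)

theorem good_stt (S : List Word) (i : ℕ) : Good S (stt S i) := by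
  induction i with
  | zero => intro X hX; simp [stt] at hX
  | succ i ih => exact good_level ih

end Sz

/-- **(D)** size bound for all states -/
theorem sttBd (S : List Word) : SttBd S := by
  intro i hi
  refine ⟨?_, Sz.good_stt S i⟩
  have h1 := Sz.pot_stt S i hi
  unfold Sz.pot Sz.nw at h1
  omega

end Crest.Agent.R287
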