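import Crest.Agent.R287.Alg
import Crest.Agent.R287.SttPT
import Crest.Agent.R287.AsmPT

/-!
# Row 287: the algorithm is polynomial time
-/

set_option autoImplicit false

namespace Crest.Agent.R287

open Crest.Agent.Lib.PT

variable {γ : Type} [PTCode γ]

theorem ptf_wcOf {P : γ → PL} {n : γ → ℕ} (hP : PTF P) (hn : PTF n) :
    PTF (fun c => wcOf (P c) (n c)) :=
  PTF.prodMk (ptf_nodes hP) (PTF.prodMk (PTU.toPTF (PTU.length hP))
    (PTF.prodMk (PTU.toPTF (ptu_levN hP)) hn))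

theorem ptf_wcsOf {Ps : γ → List PL} (hP : PTF Ps) : PTF (fun c => wcsOf (Ps c)) := by
  unfold wcsOf
  exact PTF.map (f := fun (_ : γ) (q : PL × ℕ) => wcOf q.1 q.2)
    (PTB.ptf_zipIdx hP (PTF.const 0)) (ptf_wcOf (ptf_fst PTF.snd) (ptf_snd PTF.snd))

/-- **The algorithm is polynomial time**, given the size bound of the process. -/
theorem ptf_alg (hb : ∀ S, SttBd S) : PTF alg :=
  Asm.ptf_asm (ptf_wcsOf (ptf_ringsOf hb PTF.id))

end Crest.Agent.R287
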