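import Crest.Agent.R287.Codec
import Crest.Agent.R287.MainPT
import Crest.Agent.R287.MainAsm
import Crest.Agent.R287.GeoGlue
import Crest.Agent.R287.InvSize
import Crest.Agent.R287.InvInputs

/-!
Row 287: S0432 from the two process facts.
-/

set_option autoImplicit false

namespace Crest.Agent.R287

/-- everything except the two process facts -/
theorem final_of
    (hR : ∀ S : List Word, ∀ P ∈ ringsOf S, IsPRing P)
    (hlb : ∀ (S : List Word) (T : Word), (∀ s ∈ S, s <:+: T) →
      ((ringsOf S).map List.length).sum ≤ T.length) :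
    ∃ f : List Bool → List Bool, Crest.Complexity.PolyTime f ∧
      ∀ S : List (List ℕ), ∃ T : List ℕ,
        f (Crest.Enc.natCode S.length ++ (S.map Crest.Enc.listCode).flatten) = Crest.Enc.listCode T ∧
        (∀ s ∈ S, s <:+: T) ∧
        ∀ T' : List ℕ, (∀ s ∈ S, s <:+: T') → T.length ≤ 2 * T'.length := by
  obtain ⟨h1, h2⟩ := main_correct hR ringsOf_cover hlb
    (fun S => geoHyp_wcsOf (ringsOf S) (hR S) (ringsOf_noCand_of S (hR S)))
  exact result_of_alg alg (ptf_alg sttBd) h1 h2

end Crest.Agent.R287
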