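import Crest.Agent.R287.SpecCand

/-! Row 287: the issued word is in `U(x_K)`. -/

set_option autoImplicit false

namespace Crest.Agent.R287

theorem inU_xw {K : PL} (hK : IsPRing K) (hw : wrapB K = true) :
    inU (bottom K) K.length (xw K) = true := by
  have hle : K.length ≤ levN K := by
    unfold wrapB at hw
    rw [decide_eq_true_iff] at hw
    exact hw.le
  obtain ⟨z, _, h2, h3⟩ := exists_xw hK hle
  rw [inU_iff hK h2 hle]
  refine ⟨z, z + ((toRing K hK).lev - (toRing K hK).w), le_rfl, le_rfl, h3, ?_⟩
  rw [lev_toRing hK, toRing_w]
  omega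

/-- the issued word is nonempty for a wrap, of length `levN K - K.length` -/
theorem length_xw' {K : PL} (hK : IsPRing K) (hw : wrapB K = true) :
    (xw K).length = levN K - K.length := by
  have hle : K.length ≤ levN K := by
    unfold wrapB at hw
    rw [decide_eq_true_iff] at hw
    exact hw.le
  obtain ⟨z, _, _, h3⟩ := exists_xw hK hle
  rw [h3, length_win, lev_toRing hK, toRing_w]
  omega

end Crest.Agent.R287
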