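import Crest.Agent.R287.LBDefs

/-!
# Row 287 (S0432): the lower-bound step (`lb_step : LBStepStatement`)

helper546's algorithm, helper781's Step A / Step B argument, made multiplicity-proof by the lower
envelope of all components in phase with `K`.  Proved on a local structure `LBS.Comp` and
transported to `Ring` at the end.
-/

set_option autoImplicit false

namespace Crest.Agent.R287.LBS

/-- A closed component: periodic text `u : ℤ → ℕ` with period `w`, staircase `H`. -/
structure Comp where
  u : ℤ → ℕ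
  w : ℕ
  H : ℤ → ℤ
  w_pos : 0 < w
  u_per : ∀ s, u (s + w) = u s
  H_mono : ∀ s, H s ≤ H (s + 1)
  H_per : ∀ s, H (s + w) = H s + w
  H_gt : ∀ s, s < H s

/-- The window of length `n` of the bi-infinite text `u` starting at `s`. -/
def win (u : ℤ → ℕ) (s : ℤ) (n : ℕ) : List ℕ :=
  (List.range n).map (fun k : ℕ => u (s + k))

/-- number of occurrences of `v` in the (linear) string `T`. -/
def occ (T v : List ℕ) : ℕ := T.tails.countP (fun t => decide (v <+: t))

/-- two components are linked: a common aligned window touched by both, not in phase. -/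
def Linked (A B : Comp) : Prop :=
  ∃ (s t : ℤ) (n : ℕ), win A.u s n = win B.u t n ∧
    A.H (s - 1) ≤ s + n ∧ B.H (t - 1) ≤ t + n ∧ ¬ ∀ r : ℤ, A.u (s + r) = B.u (t + r)

/-- number of windows under the staircase of `A` with content `v`. -/
noncomputable def Comp.cnt (A : Comp) (v : List ℕ) : ℕ :=
  ((Finset.Ico (0 : ℤ) A.w).filter
    (fun s => win A.u s v.length = v ∧ s + v.length ≤ A.H s)).card

/-- number of down-arcs leaving `v`. -/
noncomputable def Comp.dn (A : Comp) (v : List ℕ) : ℕ :=
  ((Finset.Ico (0 : ℤ) A.w).filter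
    (fun s => win A.u s v.length = v ∧ s + v.length = A.H s)).card

/-- number of up-arcs arriving at `v`. -/
noncomputable def Comp.up (A : Comp) (v : List ℕ) : ℕ :=
  ((Finset.Ico (0 : ℤ) A.w).filter
    (fun s => win A.u s v.length = v ∧ A.H (s - 1) < s + v.length ∧ s + v.length ≤ A.H s)).card

/-- the component visits a word of `U(x)`, `x = κ[0,m)`: a window `κ[i,j)`, `i ≤ 0`, `m ≤ j`
(`n = j - i`). -/
def VisitsU (A : Comp) (κ : ℤ → ℕ) (m : ℕ) : Prop :=
  ∃ (i s : ℤ) (n : ℕ), i ≤ 0 ∧ (m : ℤ) ≤ i + n ∧ win A.u s n = win κ i n ∧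
    A.H (s - 1) ≤ s + n ∧ s + n ≤ A.H s

/-! ### windows -/

@[simp] theorem win_length (u : ℤ → ℕ) (s : ℤ) (n : ℕ) : (win u s n).length = n := by
  simp [win]

@[simp] theorem win_zero (u : ℤ → ℕ) (s : ℤ) : win u s 0 = [] := by simp [win]

theorem win_getElem (u : ℤ → ℕ) (s : ℤ) (n k : ℕ) (hk : k < (win u s n).length) :
    (win u s n)[k] = u (s + k) := by
  simp [win]

theorem win_succ (u : ℤ → ℕ) (s : ℤ) (n : ℕ) : win u s (n + 1) = win u s n ++ [u (s + n)] := by
  simp [win, List.range_succ]

theorem win_succ' (u : ℤ → ℕ) (s : ℤ) (n : ℕ) : win u s (n + 1) = u s :: win u (s + 1) n := by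
  simp only [win, List.range_succ_eq_map, List.map_cons, List.map_map]
  congr 1
  · simp
  · apply List.map_congr_left
    intro k _
    simp only [Function.comp]
    congr 1
    push_cast
    ring

theorem win_add (u : ℤ → ℕ) (s : ℤ) (m n : ℕ) :
    win u s (m + n) = win u s m ++ win u (s + m) n := by
  induction n with
  | zero => simp
  | succ n ih =>
    rw [← Nat.add_assoc, win_succ, ih, win_succ, List.append_assoc]
    congr 3
    push_cast
    ring_nf

theorem win_eq_iff (u u' : ℤ → ℕ) (s t : ℤ) (n : ℕ) :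
    win u s n = win u' t n ↔ ∀ k : ℕ, k < n → u (s + k) = u' (t + k) := by
  constructor
  · intro h k hk
    have h1 : (win u s n)[k]'(by simpa using hk) = (win u' t n)[k]'(by simpa using hk) := by
      simp [h]
    simpa [win_getElem] using h1
  · intro h
    apply List.ext_getElem (by simp)
    intro k hk _
    rw [win_getElem, win_getElem]
    exact h k (by simpa using hk)

theorem win_congr {u u' : ℤ → ℕ} {s t : ℤ} (h : ∀ r : ℤ, u (s + r) = u' (t + r)) (i : ℤ) (n : ℕ) :
    win u (s + i) n = win u' (t + i) n := by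
  rw [win_eq_iff]
  intro k _
  have := h (i + k)
  rwa [← add_assoc, ← add_assoc] at this

/-! ### occurrences in a linear string -/

theorem occ_nil (v : List ℕ) : occ [] v = if v = [] then 1 else 0 := by
  by_cases h : v = [] <;> simp [occ, h]

theorem occ_cons (c : ℕ) (T v : List ℕ) :
    occ (c :: T) v = (if v <+: c :: T then 1 else 0) + occ T v := by
  by_cases h : v <+: c :: T
  · simp only [occ, List.tails_cons, h, if_true]
    rw [List.countP_cons_of_pos (by simpa using h)]
    omega
  · simp only [occ, List.tails_cons, h, if_false]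
    rw [List.countP_cons_of_neg (by simpa using h)]
    omega

theorem prefix_split (t v : List ℕ) (Λ : Finset ℕ) (hΛ : ∀ a ∈ t, a ∈ Λ) :
    (if v <+: t then 1 else 0) =
      (∑ b ∈ Λ, if v ++ [b] <+: t then 1 else 0) + (if v = t then 1 else 0) := by
  by_cases h : v <+: t
  · obtain ⟨r, rfl⟩ := h
    cases r with
    | nil =>
      have h1 : ∀ b, ¬ (v ++ [b] <+: v ++ []) := by
        intro b hb
        have := hb.length_le
        simp at this
      simp only [h1]
      simp
    | cons c r =>
      have hc : c ∈ Λ := hΛ c (by simp)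
      have h1 : ∀ b, (v ++ [b] <+: v ++ c :: r) ↔ b = c := by
        intro b
        rw [List.prefix_append_right_inj]
        simp
      simp only [h1]
      simp [hc]
  · have h1 : ∀ b, ¬ (v ++ [b] <+: t) := fun b hb => h ((List.prefix_append _ _).trans hb)
    have h2 : v ≠ t := fun hh => h (hh ▸ List.prefix_refl _)
    simp [h, h1, h2]

theorem occ_eq_sum_append (T v : List ℕ) (Λ : Finset ℕ) (hΛ : ∀ a ∈ T, a ∈ Λ) :
    occ T v = (∑ b ∈ Λ, occ T (v ++ [b])) + (if v <:+ T then 1 else 0) := by
  induction T with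
  | nil => simp [occ_nil]
  | cons c T ih =>
    have ih' := ih (fun a ha => hΛ a (List.mem_cons_of_mem _ ha))
    simp only [occ_cons, Finset.sum_add_distrib]
    rw [prefix_split (c :: T) v Λ hΛ, ih']
    have h3 : (if v <:+ c :: T then 1 else 0) =
        (if v = c :: T then 1 else 0) + (if v <:+ T then 1 else 0) := by
      by_cases h1 : v = c :: T
      · have h2 : ¬ v <:+ T := by
          intro h
          have := h.length_le
          rw [h1] at this
          simp at this
        have h4 : v <:+ c :: T := by rw [h1]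
        rw [if_pos h1, if_neg h2, if_pos h4]
      · by_cases h2 : v <:+ T
        · rw [if_neg h1, if_pos h2, if_pos (List.suffix_cons_iff.2 (Or.inr h2))]
        · have h4 : ¬ v <:+ c :: T := by
            rw [List.suffix_cons_iff]
            tauto
          rw [if_neg h1, if_neg h2, if_neg h4]
    rw [h3]
    ring

theorem sum_occ_cons_le (T v : List ℕ) (Λ : Finset ℕ) :
    (∑ a ∈ Λ, occ T (a :: v)) ≤ occ T v := by
  have key : ∀ T : List ℕ, (∑ a ∈ Λ, occ T (a :: v)) + (if v <+: T then 1 else 0) ≤ occ T v := by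
    intro T
    induction T with
    | nil => simp [occ_nil]
    | cons c T ih =>
      simp only [occ_cons, Finset.sum_add_distrib]
      have h1 : (∑ a ∈ Λ, if a :: v <+: c :: T then 1 else 0) ≤ (if v <+: T then 1 else 0) := by
        by_cases h : v <+: T
        · simp only [List.cons_prefix_cons, h, and_true, if_true]
          rw [Finset.sum_ite_eq' Λ c]
          split_ifs <;> simp
        · simp [List.cons_prefix_cons, h]
      omega
  have := key T
  omega

/-! ### counting windows of a component -/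

theorem H_mono' (A : Comp) {s t : ℤ} (h : s ≤ t) : A.H s ≤ A.H t := by
  obtain ⟨k, hk⟩ := Int.le.dest h
  induction k generalizing t with
  | zero => simp at hk; rw [hk]
  | succ k ih =>
    have h1 : A.H s ≤ A.H (s + k) := ih (by omega) rfl
    have h2 := A.H_mono (s + k)
    have h3 : t = s + k + 1 := by push_cast at hk; omega
    rw [h3]
    exact h1.trans h2

theorem u_per_mul (A : Comp) (s : ℤ) (k : ℤ) : A.u (s + k * A.w) = A.u s := by
  induction k using Int.induction_on with
  | zero => simp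
  | succ k ih =>
    rw [← ih, ← A.u_per (s + k * A.w)]
    congr 1; ring
  | pred k ih =>
    rw [← ih, ← A.u_per (s + (-k - 1) * A.w)]
    congr 1; ring

theorem H_per_mul (A : Comp) (s : ℤ) (k : ℤ) : A.H (s + k * A.w) = A.H s + k * A.w := by
  induction k using Int.induction_on with
  | zero => simp
  | succ k ih =>
    have h := A.H_per (s + k * A.w)
    have e : s + ((k : ℤ) + 1) * A.w = s + k * A.w + A.w := by ring
    rw [e, h, ih]; ring
  | pred k ih =>
    have h := A.H_per (s + (-k - 1) * A.w)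
    have e : s + (-(k : ℤ) - 1) * A.w + A.w = s + -k * A.w := by ring
    rw [e, ih] at h
    linarith

theorem win_per (A : Comp) (s : ℤ) (k : ℤ) (n : ℕ) : win A.u (s + k * A.w) n = win A.u s n := by
  rw [win_eq_iff]
  intro j _
  have := u_per_mul A (s + j) k
  rw [← this]
  congr 1; ring

/-- shifting a periodic predicate does not change its count. -/
theorem card_shift (w : ℕ) (P : ℤ → Prop) [DecidablePred P] (hP : ∀ s, P (s + w) ↔ P s) :
    ((Finset.Ico (0 : ℤ) w).filter (fun s => P (s + 1))).card =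
      ((Finset.Ico (0 : ℤ) w).filter P).card := by
  have h1 : ((Finset.Ico (0 : ℤ) w).filter (fun s => P (s + 1))).card =
      ((Finset.Ico (1 : ℤ) (w + 1)).filter P).card := by
    apply Finset.card_bij (fun s _ => s + 1)
    · intro s hs
      simp only [Finset.mem_filter, Finset.mem_Ico] at hs ⊢
      exact ⟨by omega, hs.2⟩
    · intro a _ b _ h
      simpa using h
    · intro b hb
      simp only [Finset.mem_filter, Finset.mem_Ico] at hb
      refine ⟨b - 1, ?_, by ring⟩
      simp only [Finset.mem_filter, Finset.mem_Ico]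
      refine ⟨by omega, ?_⟩
      rw [sub_add_cancel]
      exact hb.2
  rw [h1]
  rcases Nat.eq_zero_or_pos w with h0 | hw
  · subst h0; simp
  apply Finset.card_bij (fun (s : ℤ) _ => if s = (w : ℤ) then (0 : ℤ) else s)
  · intro s hs
    simp only [Finset.mem_filter, Finset.mem_Ico] at hs ⊢
    split_ifs with h
    · refine ⟨by omega, ?_⟩
      have := (hP 0)
      rw [zero_add] at this
      rw [← this, ← h]
      exact hs.2
    · exact ⟨by omega, hs.2⟩
  · intro a ha b hb h
    simp only [Finset.mem_filter, Finset.mem_Ico] at ha hb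
    split_ifs at h <;> omega
  · intro b hb
    simp only [Finset.mem_filter, Finset.mem_Ico] at hb
    by_cases h : b = 0
    · refine ⟨w, ?_, by simp [h]⟩
      simp only [Finset.mem_filter, Finset.mem_Ico]
      refine ⟨by omega, ?_⟩
      have := (hP 0)
      rw [zero_add] at this
      rw [this, ← h]
      exact hb.2
    · refine ⟨b, ?_, ?_⟩
      · simp only [Finset.mem_filter, Finset.mem_Ico]
        exact ⟨by omega, hb.2⟩
      · rw [if_neg (by omega)]

theorem cnt_eq_append (A : Comp) (v : List ℕ) (Λ : Finset ℕ) (hΛ : ∀ s, A.u s ∈ Λ) :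
    A.cnt v = (∑ b ∈ Λ, A.cnt (v ++ [b])) + A.dn v := by
  unfold Comp.cnt Comp.dn
  have hsplit : ((Finset.Ico (0 : ℤ) A.w).filter
      (fun s => win A.u s v.length = v ∧ s + v.length ≤ A.H s)) =
      ((Finset.Ico (0 : ℤ) A.w).filter
      (fun s => win A.u s v.length = v ∧ s + v.length + 1 ≤ A.H s)) ∪
      ((Finset.Ico (0 : ℤ) A.w).filter
      (fun s => win A.u s v.length = v ∧ s + v.length = A.H s)) := by
    ext s
    simp only [Finset.mem_filter, Finset.mem_union, Finset.mem_Ico]
    constructor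
    · rintro ⟨h1, h2, h3⟩
      rcases lt_or_eq_of_le h3 with h | h
      · left; exact ⟨h1, h2, by omega⟩
      · right; exact ⟨h1, h2, h⟩
    · rintro (⟨h1, h2, h3⟩ | ⟨h1, h2, h3⟩)
      · exact ⟨h1, h2, by omega⟩
      · exact ⟨h1, h2, by omega⟩
  rw [hsplit, Finset.card_union_of_disjoint]
  · congr 1
    rw [Finset.card_eq_sum_card_fiberwise (f := fun s => A.u (s + v.length)) (t := Λ)
      (fun s _ => hΛ _)]
    apply Finset.sum_congr rfl
    intro b _
    congr 1
    ext s
    simp only [Finset.mem_filter, Finset.mem_Ico, List.length_append, List.length_singleton,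
      win_succ, Nat.cast_add, Nat.cast_one]
    constructor
    · rintro ⟨⟨h1, h2, h3⟩, h4⟩
      refine ⟨h1, by rw [h2, h4], by omega⟩
    · rintro ⟨h1, h2, h3⟩
      have h5 := List.append_inj h2 (by simp)
      refine ⟨⟨h1, h5.1, by omega⟩, by simpa using h5.2⟩
  · rw [Finset.disjoint_left]
    intro s hs hs'
    simp only [Finset.mem_filter, Finset.mem_Ico] at hs hs'
    omega

theorem cnt_eq_cons (A : Comp) (v : List ℕ) (Λ : Finset ℕ) (hΛ : ∀ s, A.u s ∈ Λ) :
    A.cnt v = (∑ a ∈ Λ, A.cnt (a :: v)) + A.up v := by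
  unfold Comp.cnt Comp.up
  have hsplit : ((Finset.Ico (0 : ℤ) A.w).filter
      (fun s => win A.u s v.length = v ∧ s + v.length ≤ A.H s)) =
      ((Finset.Ico (0 : ℤ) A.w).filter
      (fun s => win A.u s v.length = v ∧ s + v.length ≤ A.H (s - 1))) ∪
      ((Finset.Ico (0 : ℤ) A.w).filter
      (fun s => win A.u s v.length = v ∧ A.H (s - 1) < s + v.length ∧
        s + v.length ≤ A.H s)) := by
    ext s
    have hm := A.H_mono (s - 1)
    rw [sub_add_cancel] at hm
    simp only [Finset.mem_filter, Finset.mem_union, Finset.mem_Ico]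
    constructor
    · rintro ⟨h1, h2, h3⟩
      by_cases h : s + v.length ≤ A.H (s - 1)
      · left; exact ⟨h1, h2, h⟩
      · right; exact ⟨h1, h2, by omega, h3⟩
    · rintro (⟨h1, h2, h3⟩ | ⟨h1, h2, h3, h4⟩)
      · exact ⟨h1, h2, by omega⟩
      · exact ⟨h1, h2, by omega⟩
  rw [hsplit, Finset.card_union_of_disjoint]
  · congr 1
    have hsh := card_shift A.w (fun s => win A.u s v.length = v ∧ s + v.length ≤ A.H (s - 1)) (by
      intro s
      have e1 := win_per A s 1 v.length
      have e2 := H_per_mul A (s - 1) 1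
      rw [one_mul] at e1 e2
      have e3 : s + (A.w : ℤ) - 1 = s - 1 + A.w := by ring
      rw [e1, e3, e2]
      constructor
      · rintro ⟨h1, h2⟩; exact ⟨h1, by omega⟩
      · rintro ⟨h1, h2⟩; exact ⟨h1, by omega⟩)
    rw [← hsh]
    rw [Finset.card_eq_sum_card_fiberwise (f := fun s => A.u s) (t := Λ)
      (fun s _ => hΛ _)]
    apply Finset.sum_congr rfl
    intro a _
    congr 1
    ext s
    simp only [Finset.mem_filter, Finset.mem_Ico, List.length_cons, win_succ', Nat.cast_add,
      Nat.cast_one, add_sub_cancel_right, List.cons.injEq]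
    constructor
    · rintro ⟨⟨h1, h2, h3⟩, h4⟩
      refine ⟨h1, ⟨h4, h2⟩, by omega⟩
    · rintro ⟨h1, h2, h3⟩
      refine ⟨⟨h1, h2.2, by omega⟩, h2.1⟩
  · rw [Finset.disjoint_left]
    intro s hs hs'
    simp only [Finset.mem_filter, Finset.mem_Ico] at hs hs'
    omega

theorem dn_pos {A : Comp} {v : List ℕ} (s : ℤ) (h1 : win A.u s v.length = v)
    (h2 : s + v.length = A.H s) : 0 < A.dn v := by
  unfold Comp.dn
  apply Finset.card_pos.2
  have hw : (0 : ℤ) < A.w := by exact_mod_cast A.w_pos
  refine ⟨s % A.w, ?_⟩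
  have e : s % A.w = s + (-(s / A.w)) * A.w := by
    have := Int.emod_add_mul_ediv s A.w
    linarith [this]
  simp only [Finset.mem_filter, Finset.mem_Ico]
  refine ⟨⟨Int.emod_nonneg _ hw.ne', Int.emod_lt_of_pos _ hw⟩, ?_, ?_⟩
  · rw [e, win_per]; exact h1
  · rw [e, H_per_mul, ← h2]; ring

theorem exists_of_dn_pos {A : Comp} {v : List ℕ} (h : 0 < A.dn v) :
    ∃ s : ℤ, win A.u s v.length = v ∧ s + v.length = A.H s := by
  unfold Comp.dn at h
  obtain ⟨s, hs⟩ := Finset.card_pos.1 h
  simp only [Finset.mem_filter, Finset.mem_Ico] at hs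
  exact ⟨s, hs.2.1, hs.2.2⟩

theorem exists_of_up_pos {A : Comp} {v : List ℕ} (h : 0 < A.up v) :
    ∃ s : ℤ, win A.u s v.length = v ∧ A.H (s - 1) < s + v.length ∧ s + v.length ≤ A.H s := by
  unfold Comp.up at h
  obtain ⟨s, hs⟩ := Finset.card_pos.1 h
  simp only [Finset.mem_filter, Finset.mem_Ico] at hs
  exact ⟨s, hs.2.1, hs.2.2.1, hs.2.2.2⟩

open Finset

variable {ι : Type*} [Fintype ι]

/-- total count `M`. -/
noncomputable def M (A : ι → Comp) (v : List ℕ) : ℕ := ∑ i, (A i).cnt v
/-- total number of down-arcs leaving `v`. -/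
noncomputable def Dn (A : ι → Comp) (v : List ℕ) : ℕ := ∑ i, (A i).dn v
/-- total number of up-arcs arriving at `v`. -/
noncomputable def Up (A : ι → Comp) (v : List ℕ) : ℕ := ∑ i, (A i).up v

/-- slack -/
noncomputable def EE (A : ι → Comp) (T : List ℕ) (v : List ℕ) : ℤ := (occ T v : ℤ) - M A v

theorem exists_letters (A : ι → Comp) (T : List ℕ) (c : ℕ) :
    ∃ Λ : Finset ℕ, c ∈ Λ ∧ (∀ a ∈ T, a ∈ Λ) ∧ ∀ i s, (A i).u s ∈ Λ := by
  classical
  refine ⟨insert c (T.toFinset ∪ univ.biUnion (fun i => (Finset.Ico (0 : ℤ) (A i).w).image (A i).u)),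
    by simp, ?_, ?_⟩
  · intro a ha
    simp [ha]
  · intro i s
    apply Finset.mem_insert_of_mem
    apply Finset.mem_union_right
    rw [Finset.mem_biUnion]
    refine ⟨i, Finset.mem_univ _, ?_⟩
    rw [Finset.mem_image]
    have hw : (0 : ℤ) < (A i).w := by exact_mod_cast (A i).w_pos
    refine ⟨s % (A i).w, ?_, ?_⟩
    · simp only [Finset.mem_Ico]
      exact ⟨Int.emod_nonneg _ hw.ne', Int.emod_lt_of_pos _ hw⟩
    · have e : s % (A i).w = s + (-(s / (A i).w)) * (A i).w := by
        have := Int.emod_add_mul_ediv s (A i).w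
        linarith [this]
      rw [e, u_per_mul]

theorem M_append (A : ι → Comp) (v : List ℕ) (Λ : Finset ℕ) (hΛ : ∀ i s, (A i).u s ∈ Λ) :
    M A v = (∑ b ∈ Λ, M A (v ++ [b])) + Dn A v := by
  unfold M Dn
  rw [Finset.sum_comm, ← Finset.sum_add_distrib]
  exact Finset.sum_congr rfl (fun i _ => cnt_eq_append (A i) v Λ (hΛ i))

theorem M_cons (A : ι → Comp) (v : List ℕ) (Λ : Finset ℕ) (hΛ : ∀ i s, (A i).u s ∈ Λ) :
    M A v = (∑ a ∈ Λ, M A (a :: v)) + Up A v := by
  unfold M Up
  rw [Finset.sum_comm, ← Finset.sum_add_distrib]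
  exact Finset.sum_congr rfl (fun i _ => cnt_eq_cons (A i) v Λ (hΛ i))

theorem EE_append (A : ι → Comp) (T v : List ℕ) (Λ : Finset ℕ) (hΛT : ∀ a ∈ T, a ∈ Λ)
    (hΛ : ∀ i s, (A i).u s ∈ Λ) :
    EE A T v + Dn A v = (∑ b ∈ Λ, EE A T (v ++ [b])) + (if v <:+ T then 1 else 0) := by
  have h1 := occ_eq_sum_append T v Λ hΛT
  have h2 := M_append A v Λ hΛ
  unfold EE
  rw [Finset.sum_sub_distrib, h1, h2]
  push_cast
  ring

theorem EE_cons (A : ι → Comp) (T v : List ℕ) (Λ : Finset ℕ)
    (hΛ : ∀ i s, (A i).u s ∈ Λ) :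
    (∑ a ∈ Λ, EE A T (a :: v)) ≤ EE A T v + Up A v := by
  have h1 := sum_occ_cons_le T v Λ
  have h2 := M_cons A v Λ hΛ
  unfold EE
  rw [Finset.sum_sub_distrib, h2]
  push_cast
  have h3 : (∑ a ∈ Λ, (occ T (a :: v) : ℤ)) ≤ occ T v := by exact_mod_cast h1
  linarith

section E

variable {A : ι → Comp} {T : List ℕ} {m : ℕ} (hM : ∀ v : List ℕ, m < v.length → M A v ≤ occ T v)
include hM

theorem EE_nonneg {v : List ℕ} (hv : m < v.length) : 0 ≤ EE A T v := by
  unfold EE
  have := hM v hv
  have h : (M A v : ℤ) ≤ occ T v := by exact_mod_cast this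
  linarith

theorem EE_snoc_le {v : List ℕ} (b : ℕ) (hv : m ≤ v.length) :
    EE A T (v ++ [b]) ≤ EE A T v + Dn A v := by
  obtain ⟨Λ, hb, hT, hu⟩ := exists_letters A T b
  rw [EE_append A T v Λ hT hu]
  have h1 : EE A T (v ++ [b]) ≤ ∑ b ∈ Λ, EE A T (v ++ [b]) :=
    Finset.single_le_sum (f := fun b => EE A T (v ++ [b]))
      (fun c _ => EE_nonneg hM (by simp; omega)) hb
  split_ifs <;> linarith

theorem not_suffix {v : List ℕ} (hv : m ≤ v.length) (h : EE A T v + Dn A v ≤ 0) :
    ¬ v <:+ T := by
  intro hs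
  obtain ⟨Λ, hb, hT, hu⟩ := exists_letters A T 0
  rw [EE_append A T v Λ hT hu, if_pos hs] at h
  have h1 : 0 ≤ ∑ b ∈ Λ, EE A T (v ++ [b]) :=
    Finset.sum_nonneg (fun c _ => EE_nonneg hM (by simp; omega))
  linarith

omit hM in
theorem EE_le_snoc {v : List ℕ} (c : ℕ) (hs : ¬ v <:+ T)
    (h : ∀ b, b ≠ c → EE A T (v ++ [b]) ≤ 0) :
    EE A T v + Dn A v ≤ EE A T (v ++ [c]) := by
  obtain ⟨Λ, hb, hT, hu⟩ := exists_letters A T c
  rw [EE_append A T v Λ hT hu, if_neg hs, add_zero, ← Finset.add_sum_erase _ _ hb]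
  have h1 : ∑ b ∈ Λ.erase c, EE A T (v ++ [b]) ≤ 0 :=
    Finset.sum_nonpos (fun b hb => h b (Finset.ne_of_mem_erase hb))
  linarith

theorem EE_cons_le {v : List ℕ} (a : ℕ) (hv : m ≤ v.length) :
    EE A T (a :: v) ≤ EE A T v + Up A v := by
  obtain ⟨Λ, hb, hT, hu⟩ := exists_letters A T a
  have h1 : EE A T (a :: v) ≤ ∑ a ∈ Λ, EE A T (a :: v) :=
    Finset.single_le_sum (f := fun a => EE A T (a :: v))
      (fun c _ => EE_nonneg hM (by simp; omega)) hb
  exact h1.trans (EE_cons A T v Λ hu)

end E

theorem Dn_pos_of {A : ι → Comp} {v : List ℕ} (C : ι) (s : ℤ) (h1 : win (A C).u s v.length = v)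
    (h2 : s + v.length = (A C).H s) : 0 < Dn A v := by
  unfold Dn
  have := dn_pos s h1 h2
  exact lt_of_lt_of_le this (Finset.single_le_sum (f := fun i => (A i).dn v)
    (fun _ _ => Nat.zero_le _) (Finset.mem_univ C))

theorem exists_of_Dn_pos {A : ι → Comp} {v : List ℕ} (h : 0 < Dn A v) :
    ∃ C, ∃ s : ℤ, win (A C).u s v.length = v ∧ s + v.length = (A C).H s := by
  unfold Dn at h
  obtain ⟨C, _, hC⟩ := Finset.exists_ne_zero_of_sum_ne_zero h.ne'
  obtain ⟨s, h1, h2⟩ := exists_of_dn_pos (Nat.pos_of_ne_zero hC)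
  exact ⟨C, s, h1, h2⟩

theorem exists_of_Up_pos {A : ι → Comp} {v : List ℕ} (h : 0 < Up A v) :
    ∃ C, ∃ s : ℤ, win (A C).u s v.length = v ∧ (A C).H (s - 1) < s + v.length ∧
      s + v.length ≤ (A C).H s := by
  unfold Up at h
  obtain ⟨C, _, hC⟩ := Finset.exists_ne_zero_of_sum_ne_zero h.ne'
  obtain ⟨s, h1, h2, h3⟩ := exists_of_up_pos (Nat.pos_of_ne_zero hC)
  exact ⟨C, s, h1, h2, h3⟩

/-! ### the lower envelope -/

/-- `(B, t)` is a member of the family in phase with `κ`. -/
def Phi (A : ι → Comp) (κ : ℤ → ℕ) (m : ℕ) (B : ι) (t : ℤ) : Prop :=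
  VisitsU (A B) κ m ∧ ∀ r, (A B).u (t + r) = κ r

/-- lower envelope -/
noncomputable def Hm (A : ι → Comp) (κ : ℤ → ℕ) (m : ℕ) (r : ℤ) : ℤ :=
  sInf {x : ℤ | ∃ B t, Phi A κ m B t ∧ (A B).H (t + r) - t = x}

/-- The hypotheses of the lower-bound step. -/
structure LBData (A : ι → Comp) (T : List ℕ) (κ : ℤ → ℕ) (w m : ℕ) : Prop where
  hw : 0 < w
  hκ : ∀ r, κ (r + w) = κ r
  hK : ∃ (K : ι) (t0 : ℤ), (∀ r, (A K).u (t0 + r) = κ r) ∧ (A K).H (t0 - 1) = t0 + (m + w)
  hl : ∀ B, VisitsU (A B) κ m → ∀ s, s + (m + w) ≤ (A B).H (s - 1)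
  hlink : ∀ B C, VisitsU (A B) κ m → VisitsU (A C) κ m → ¬ Linked (A B) (A C)
  hM : ∀ v : List ℕ, m < v.length → M A v ≤ occ T v

namespace LBData

variable {A : ι → Comp} {T : List ℕ} {κ : ℤ → ℕ} {w m : ℕ} (D : LBData A T κ w m)
include D

theorem phiK : ∃ (K : ι) (t0 : ℤ), Phi A κ m K t0 ∧ (A K).H (t0 - 1) = t0 + (m + w) := by
  obtain ⟨K, t0, h1, h2⟩ := D.hK
  refine ⟨K, t0, ⟨⟨0, t0, m + w, le_refl _, by push_cast; omega, ?_, ?_, ?_⟩, h1⟩, h2⟩
  · rw [win_eq_iff]
    intro k _
    rw [h1, zero_add]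
  · rw [h2]; push_cast; omega
  · have := (A K).H_mono (t0 - 1)
    rw [sub_add_cancel, h2] at this
    push_cast; omega

omit [Fintype ι] D in
theorem bdd (r : ℤ) : BddBelow {x : ℤ | ∃ B t, Phi A κ m B t ∧ (A B).H (t + r) - t = x} := by
  refine ⟨r, ?_⟩
  rintro x ⟨B, t, _, rfl⟩
  have := (A B).H_gt (t + r)
  omega

theorem Hm_att (r : ℤ) : ∃ B t, Phi A κ m B t ∧ (A B).H (t + r) - t = Hm A κ m r := by
  obtain ⟨K, t0, h1, _⟩ := D.phiK
  have hne : {x : ℤ | ∃ B t, Phi A κ m B t ∧ (A B).H (t + r) - t = x}.Nonempty :=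
    ⟨_, K, t0, h1, rfl⟩
  have := Int.csInf_mem hne (bdd r)
  exact this

omit [Fintype ι] D in
theorem Hm_le {B : ι} {t : ℤ} (h : Phi A κ m B t) (r : ℤ) :
    Hm A κ m r ≤ (A B).H (t + r) - t :=
  csInf_le (bdd r) ⟨B, t, h, rfl⟩

theorem Hm_gt (r : ℤ) : r < Hm A κ m r := by
  obtain ⟨B, t, _, h⟩ := D.Hm_att r
  have := (A B).H_gt (t + r)
  omega

theorem Hm_mono_one (r : ℤ) : Hm A κ m r ≤ Hm A κ m (r + 1) := by
  obtain ⟨B, t, hB, h⟩ := D.Hm_att (r + 1)
  have h1 := Hm_le hB r
  have h2 := (A B).H_mono (t + r)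
  rw [← add_assoc] at h
  omega

theorem Hm_mono {r s : ℤ} (h : r ≤ s) : Hm A κ m r ≤ Hm A κ m s := by
  obtain ⟨B, t, hB, h'⟩ := D.Hm_att s
  have h1 := Hm_le hB r
  have h2 := H_mono' (A B) (s := t + r) (t := t + s) (by omega)
  omega

theorem Hm_ge (r : ℤ) : r + (m + w) ≤ Hm A κ m (r - 1) := by
  obtain ⟨B, t, hB, h⟩ := D.Hm_att (r - 1)
  have h1 := D.hl B hB.1 (t + r)
  rw [add_sub_assoc] at h1
  omega

theorem Hm_neg_one_le : Hm A κ m (-1) ≤ m + w := by
  obtain ⟨K, t0, h1, h2⟩ := D.phiK
  have := Hm_le h1 (-1)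
  rw [← sub_eq_add_neg, h2] at this
  omega

theorem kper (r k : ℤ) : κ (r + k * w) = κ r := by
  induction k using Int.induction_on with
  | zero => simp
  | succ k ih =>
    rw [← ih, ← D.hκ (r + k * w)]
    congr 1; ring
  | pred k ih =>
    rw [← ih, ← D.hκ (r + (-k - 1) * w)]
    congr 1; ring

theorem winper (r k : ℤ) (n : ℕ) : win κ (r + k * w) n = win κ r n := by
  rw [win_eq_iff]
  intro j _
  rw [← D.kper (r + j) k]
  congr 1; ring

theorem phi_shift {B : ι} {t : ℤ} (h : Phi A κ m B t) (k : ℤ) : Phi A κ m B (t - k * w) := by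
  refine ⟨h.1, fun r => ?_⟩
  have := h.2 (r - k * w)
  have e : t - k * w + r = t + (r - k * w) := by ring
  rw [e, this, ← D.kper (r - k * w) k]
  congr 1; ring

theorem Hm_per (r k : ℤ) : Hm A κ m (r + k * w) = Hm A κ m r + k * w := by
  have key : ∀ r k : ℤ, Hm A κ m (r + k * w) ≤ Hm A κ m r + k * w := by
    intro r k
    obtain ⟨B, t, hB, h⟩ := D.Hm_att r
    have h1 := Hm_le (D.phi_shift hB k) (r + k * w)
    have e : t - k * w + (r + k * w) = t + r := by ring
    rw [e] at h1
    linarith
  apply le_antisymm (key r k)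
  have := key (r + k * w) (-k)
  have e : r + k * w + -k * w = r := by ring
  rw [e] at this
  linarith

/-- a component visiting a `κ`-window on or above the envelope is in phase. -/
theorem onP {C : ι} {t i : ℤ} {n : ℕ} (hn : Hm A κ m (i - 1) ≤ i + n)
    (hwin : win (A C).u t n = win κ i n) (h1 : (A C).H (t - 1) ≤ t + n)
    (h2 : t + n ≤ (A C).H t) : Phi A κ m C (t - i) := by
  have hwpos : (0 : ℤ) < w := by exact_mod_cast D.hw
  have hlen : (m + w : ℤ) ≤ n := by
    have := D.Hm_ge i
    omega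
  have hV : VisitsU (A C) κ m := by
    -- shift `i` into `(-w, 0]`
    obtain ⟨k, hk1, hk2⟩ : ∃ k : ℤ, i + k * w ≤ 0 ∧ -(w : ℤ) < i + k * w := by
      refine ⟨-(i / w) - (if i % w = 0 then 0 else 1), ?_, ?_⟩
      · have e := Int.emod_add_mul_ediv i w
        have e1 := Int.emod_nonneg i hwpos.ne'
        have e2 := Int.emod_lt_of_pos i hwpos
        split_ifs with h
        · have : i + (-(i / w) - 0) * w = i % w := by linarith
          rw [this, h]
        · have : i + (-(i / w) - 1) * w = i % w - w := by linarith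
          rw [this]; omega
      · have e := Int.emod_add_mul_ediv i w
        have e1 := Int.emod_nonneg i hwpos.ne'
        have e2 := Int.emod_lt_of_pos i hwpos
        split_ifs with h
        · have : i + (-(i / w) - 0) * w = i % w := by linarith
          rw [this, h]; omega
        · have : i + (-(i / w) - 1) * w = i % w - w := by linarith
          rw [this]
          have : 0 < i % w := lt_of_le_of_ne e1 (Ne.symm h)
          omega
    refine ⟨i + k * w, t, n, hk1, by omega, ?_, h1, h2⟩
    rw [D.winper]; exact hwin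
  refine ⟨hV, ?_⟩
  obtain ⟨B, t', hB, hH⟩ := D.Hm_att (i - 1)
  have hnl := D.hlink B C hB.1 hV
  by_contra hcon
  apply hnl
  refine ⟨t' + i, t, n, ?_, ?_, h1, ?_⟩
  · rw [hwin, win_eq_iff]
    intro k _
    rw [add_assoc, hB.2]
  · have e : t' + i - 1 = t' + (i - 1) := by ring
    rw [e]; omega
  · intro hall
    apply hcon
    intro r
    have := hall (r - i)
    have e1 : t' + i + (r - i) = t' + r := by ring
    have e2 : t + (r - i) = t - i + r := by ring
    rw [e1, e2, hB.2] at this
    exact this.symm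

theorem dn_zero {i : ℤ} {n : ℕ} (hn : Hm A κ m (i - 1) ≤ i + n) (hn' : i + n < Hm A κ m i) :
    Dn A (win κ i n) = 0 := by
  by_contra hne
  obtain ⟨C, s, h1, h2⟩ := exists_of_Dn_pos (Nat.pos_of_ne_zero hne)
  rw [win_length] at h1 h2
  have hm := (A C).H_mono (s - 1)
  rw [sub_add_cancel] at hm
  have hΦ := D.onP hn h1 (by omega) (by omega)
  have := Hm_le hΦ i
  rw [sub_add_cancel] at this
  omega

theorem up_zero {i : ℤ} {n : ℕ} (hn : i + n = Hm A κ m (i - 1)) :
    Up A (win κ i n) = 0 := by
  by_contra hne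
  obtain ⟨C, s, h1, h2, h3⟩ := exists_of_Up_pos (Nat.pos_of_ne_zero hne)
  rw [win_length] at h1 h2 h3
  have hΦ := D.onP (le_of_eq hn.symm) h1 (by omega) (by omega)
  have := Hm_le hΦ (i - 1)
  have e : s - i + (i - 1) = s - 1 := by ring
  rw [e] at this
  omega

theorem up_zero' {i : ℤ} {n : ℕ} (hn : Hm A κ m (i - 1) ≤ i + n) {b : ℕ} (hb : b ≠ κ (i + n)) :
    Up A (win κ i n ++ [b]) = 0 := by
  by_contra hne
  obtain ⟨C, s, h1, h2, h3⟩ := exists_of_Up_pos (Nat.pos_of_ne_zero hne)
  simp only [List.length_append, win_length, List.length_singleton, Nat.cast_add,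
    Nat.cast_one, win_succ] at h1 h2 h3
  have h5 := List.append_inj h1 (by simp)
  have hΦ := D.onP hn h5.1 (by omega) (by omega)
  have h6 := hΦ.2 (i + n)
  have e : s - i + (i + n) = s + n := by ring
  rw [e] at h6
  apply hb
  rw [← h6]
  simpa using h5.2.symm

section StepA

variable (hneg : ∀ (r : ℤ) (n : ℕ), r + n = Hm A κ m (r - 1) → Hm A κ m (r - 1) < Hm A κ m r →
  EE A T (win κ r n) ≤ 0)
include hneg

theorem claim1 (k : ℕ) : ∀ (r : ℤ) (n : ℕ), r + n = Hm A κ m (r - 1) →
    Hm A κ m (r - 1) < Hm A κ m (r + k) → EE A T (win κ r n) ≤ 0 := by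
  induction k with
  | zero =>
    intro r n h1 h2
    rw [Nat.cast_zero, add_zero] at h2
    exact hneg r n h1 h2
  | succ k ih =>
    intro r n h1 h2
    by_cases h3 : Hm A κ m (r - 1) < Hm A κ m r
    · exact hneg r n h1 h3
    · have h4 : Hm A κ m r = Hm A κ m (r - 1) := by
        have := D.Hm_mono (r := r - 1) (s := r) (by omega)
        omega
      have h5 := D.Hm_ge r
      have h6 := D.Hm_gt r
      obtain ⟨n', rfl⟩ : ∃ n', n = n' + 1 := ⟨n - 1, by omega⟩
      have hwpos : (0 : ℤ) < w := by exact_mod_cast D.hw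
      have h7 : r + 1 + n' = Hm A κ m (r + 1 - 1) := by
        rw [add_sub_cancel_right]; push_cast at h1; omega
      have h8 := ih (r + 1) n' h7 (by
        rw [add_sub_cancel_right, h4]
        have e : r + 1 + (k : ℤ) = r + ((k + 1 : ℕ) : ℤ) := by push_cast; ring
        rw [e]; exact h2)
      rw [win_succ']
      have h9 := EE_cons_le D.hM (v := win κ (r + 1) n') (κ r) (by
        rw [win_length]; push_cast at h1; omega)
      rw [D.up_zero h7] at h9
      push_cast at h9
      linarith

theorem claim2 (d : ℕ) : ∀ (r : ℤ) (n : ℕ), r + n = Hm A κ m (r - 1) + d →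
    r + n ≤ Hm A κ m r → EE A T (win κ r n) ≤ 0 := by
  induction d with
  | zero =>
    intro r n h1 h2
    rw [Nat.cast_zero, add_zero] at h1
    apply D.claim1 hneg (Hm A κ m (r - 1) - r).toNat r n h1
    have h3 := D.Hm_gt (r + ((Hm A κ m (r - 1) - r).toNat : ℤ))
    have h4 := Int.self_le_toNat (Hm A κ m (r - 1) - r)
    linarith
  | succ d ih =>
    intro r n h1 h2
    have h5 := D.Hm_ge r
    have hwpos : (0 : ℤ) < w := by exact_mod_cast D.hw
    obtain ⟨n', rfl⟩ : ∃ n', n = n' + 1 := ⟨n - 1, by push_cast at h1; omega⟩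
    push_cast at h1 h2
    have h3 := ih r n' (by omega) (by omega)
    rw [win_succ]
    have h4 := EE_snoc_le D.hM (v := win κ r n') (κ (r + n')) (by rw [win_length]; omega)
    rw [D.dn_zero (by omega) (by omega)] at h4
    push_cast at h4
    linarith

theorem claim3 (k : ℕ) : ∀ (i : ℤ) (n : ℕ), Hm A κ m (i - 1) ≤ i + n → i + n < Hm A κ m (i + k) →
    (¬ win κ i n <:+ T) ∧ ∀ b, b ≠ κ (i + n) → EE A T (win κ i n ++ [b]) ≤ 0 := by
  have base : ∀ (i : ℤ) (n : ℕ), Hm A κ m (i - 1) ≤ i + n → i + n < Hm A κ m i →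
      (¬ win κ i n <:+ T) ∧ ∀ b, b ≠ κ (i + n) → EE A T (win κ i n ++ [b]) ≤ 0 := by
    intro i n h1 h2
    have h5 := D.Hm_ge i
    have h3 := D.claim2 hneg (i + n - Hm A κ m (i - 1)).toNat i n
      (by rw [Int.toNat_of_nonneg (by omega)]; ring) (by omega)
    have h4 := D.dn_zero h1 h2
    constructor
    · apply not_suffix D.hM (by rw [win_length]; omega)
      rw [h4]; push_cast; linarith
    · intro b _
      have h6 := EE_snoc_le D.hM (v := win κ i n) b (by rw [win_length]; omega)
      rw [h4] at h6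
      push_cast at h6
      linarith
  induction k with
  | zero =>
    intro i n h1 h2
    rw [Nat.cast_zero, add_zero] at h2
    exact base i n h1 h2
  | succ k ih =>
    intro i n h1 h2
    by_cases h3 : i + n < Hm A κ m i
    · exact base i n h1 h3
    · have h4 := D.Hm_gt i
      have h5 := D.Hm_ge i
      obtain ⟨n', rfl⟩ : ∃ n', n = n' + 1 := ⟨n - 1, by omega⟩
      push_cast at h1 h2 h3 h5
      have h6 := ih (i + 1) n' (by rw [add_sub_cancel_right]; omega) (by
        have e : i + 1 + (k : ℤ) = i + ((k : ℤ) + 1) := by ring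
        rw [e]; omega)
      have e1 : i + 1 + (n' : ℤ) = i + ((n' + 1 : ℕ) : ℤ) := by push_cast; ring
      rw [e1] at h6
      constructor
      · intro hs
        rw [win_succ'] at hs
        exact h6.1 ((List.suffix_cons _ _).trans hs)
      · intro b hb
        rw [win_succ', List.cons_append]
        have h7 := EE_cons_le D.hM (v := win κ (i + 1) n' ++ [b]) (κ i) (by
          rw [List.length_append, win_length, List.length_singleton]; omega)
        rw [D.up_zero' (i := i + 1) (n := n') (by rw [add_sub_cancel_right]; omega)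
          (by rw [e1]; exact hb)] at h7
        have h8 := h6.2 b hb
        push_cast at h7
        linarith

theorem stepA_false : False := by
  have c3 : ∀ (i : ℤ) (n : ℕ), Hm A κ m (i - 1) ≤ i + n →
      (¬ win κ i n <:+ T) ∧ ∀ b, b ≠ κ (i + n) → EE A T (win κ i n ++ [b]) ≤ 0 := by
    intro i n h
    apply D.claim3 hneg n i n h
    exact D.Hm_gt _
  have h0 := D.Hm_gt 0
  have h1 := D.Hm_mono (r := -1) (s := 0) (by omega)
  have h2 := D.Hm_ge 0
  rw [zero_sub] at h2
  set n0 := (Hm A κ m 0).toNat with hn0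
  have hn0' : (n0 : ℤ) = Hm A κ m 0 := Int.toNat_of_nonneg (by omega)
  have hd : 0 < Dn A (win κ 0 n0) := by
    obtain ⟨B, t, hB, hH⟩ := D.Hm_att 0
    apply Dn_pos_of B t
    · rw [win_length, win_eq_iff]
      intro k _
      rw [hB.2, zero_add]
    · rw [win_length]
      rw [add_zero] at hH
      omega
  have key : ∀ k : ℕ, 1 ≤ EE A T (win κ 0 (n0 + 1 + k)) := by
    intro k
    induction k with
    | zero =>
      have h3 := c3 0 n0 (by rw [zero_sub]; omega)
      have h4 := EE_le_snoc (A := A) (T := T) (κ (0 + n0)) h3.1 h3.2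
      rw [← win_succ] at h4
      have h5 := EE_nonneg D.hM (v := win κ 0 n0) (by
        rw [win_length]
        have hwpos : (0 : ℤ) < w := by exact_mod_cast D.hw
        omega)
      have h6 : (1 : ℤ) ≤ Dn A (win κ 0 n0) := by exact_mod_cast hd
      rw [add_zero]
      linarith
    | succ k ih =>
      have h3 := c3 0 (n0 + 1 + k) (by rw [zero_sub]; push_cast; omega)
      have h4 := EE_le_snoc (A := A) (T := T) (κ (0 + (n0 + 1 + k : ℕ))) h3.1 h3.2
      rw [← win_succ] at h4
      rw [← Nat.add_assoc]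
      have h6 : (0 : ℤ) ≤ Dn A (win κ 0 (n0 + 1 + k)) := Int.natCast_nonneg _
      linarith
  have hfin := key T.length
  unfold EE at hfin
  have h7 : 0 < occ T (win κ 0 (n0 + 1 + T.length)) := by
    have : (0 : ℤ) ≤ M A (win κ 0 (n0 + 1 + T.length)) := Int.natCast_nonneg _
    have h8 : (0 : ℤ) < occ T (win κ 0 (n0 + 1 + T.length)) := by linarith
    exact_mod_cast h8
  unfold occ at h7
  rw [List.countP_pos_iff] at h7
  obtain ⟨t, ht1, ht2⟩ := h7
  have h9 := ((List.mem_tails _ _).1 ht1).length_le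
  have h10 := (of_decide_eq_true ht2).length_le
  rw [win_length] at h10
  omega

end StepA

theorem stepA : ∃ (r : ℤ) (n : ℕ), r + n = Hm A κ m (r - 1) ∧ Hm A κ m (r - 1) < Hm A κ m r ∧
    1 ≤ EE A T (win κ r n) := by
  by_contra hcon
  push Not at hcon
  exact D.stepA_false (fun r n h1 h2 => by
    have := hcon r n h1 h2
    omega)

/-! ### Step B -/

omit D in
/-- a bad window: some member of the family has it as an aligned window, touches it but does not
visit it. -/
def Bad (A : ι → Comp) (κ : ℤ → ℕ) (m : ℕ) (i : ℤ) (n : ℕ) : Prop :=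
  ∃ (C : ι) (t : ℤ), VisitsU (A C) κ m ∧ win (A C).u t n = win κ i n ∧
    (A C).H (t - 1) ≤ t + n ∧ (A C).H t < t + n

theorem not_bad_start {i : ℤ} {n : ℕ} (h1 : i + n = Hm A κ m (i - 1))
    (h2 : Hm A κ m (i - 1) < Hm A κ m i) : ¬ Bad A κ m i n := by
  rintro ⟨C, t, hC, hwin, h3, h4⟩
  obtain ⟨B, t', hB, hH⟩ := D.Hm_att (i - 1)
  have hnl := D.hlink B C hB.1 hC
  apply hnl
  refine ⟨t' + i, t, n, ?_, ?_, h3, ?_⟩
  · rw [hwin, win_eq_iff]
    intro k _
    rw [add_assoc, hB.2]
  · have e : t' + i - 1 = t' + (i - 1) := by ring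
    rw [e]; omega
  · intro hall
    have hΦ : Phi A κ m C (t - i) := by
      refine ⟨hC, fun r => ?_⟩
      have := hall (r - i)
      have e1 : t' + i + (r - i) = t' + r := by ring
      have e2 : t + (r - i) = t - i + r := by ring
      rw [e1, e2, hB.2] at this
      exact this.symm
    have := Hm_le hΦ i
    rw [sub_add_cancel] at this
    omega

theorem stepB {i0 : ℤ} (hi0 : -(w : ℤ) < i0) {j0 : ℤ} (hj0 : j0 ≤ m + w) (n : ℕ) :
    ∀ i : ℤ, i0 ≤ i → i ≤ 0 → (m : ℤ) ≤ i + n → i + n ≤ j0 → 1 ≤ EE A T (win κ i n) →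
      ¬ Bad A κ m i n → 1 ≤ EE A T (win κ 0 m) := by
  induction n with
  | zero =>
    intro i h1 h2 h3 h4 h5 _
    have e1 : i = 0 := by push_cast at h3; omega
    have e2 : m = 0 := by push_cast at h3; omega
    subst e1; subst e2; exact h5
  | succ n ih =>
    intro i h1 h2 h3 h4 h5 h6
    by_cases h0 : i = 0 ∧ n + 1 = m
    · obtain ⟨e1, e2⟩ := h0
      subst e1; rw [← e2]; exact h5
    -- left
    have hL : i < 0 → (1 ≤ EE A T (win κ 0 m)) ∨ ∃ (C : ι) (t : ℤ), VisitsU (A C) κ m ∧
        win (A C).u t n = win κ (i + 1) n ∧ (A C).H (t - 1) ≤ t + n - 1 ∧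
        (A C).u (t - 1) ≠ κ i := by
      intro hi
      by_cases hb : 1 ≤ EE A T (win κ (i + 1) n) ∧ ¬ Bad A κ m (i + 1) n
      · left
        exact ih (i + 1) (by omega) (by omega) (by push_cast at h3; omega)
          (by push_cast at h4; omega) hb.1 hb.2
      · right
        -- the next letter differs since the window itself is not bad
        have hne : ∀ (C : ι) (t : ℤ), VisitsU (A C) κ m → win (A C).u t n = win κ (i + 1) n →
            (A C).H (t - 1) ≤ t + n - 1 → (A C).u (t - 1) ≠ κ i := by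
          intro C t hC hwin hH hu
          apply h6
          refine ⟨C, t - 1, hC, ?_, ?_, ?_⟩
          · rw [win_succ', win_succ', hu, sub_add_cancel, hwin]
          · have := (A C).H_mono (t - 1 - 1)
            rw [sub_add_cancel] at this
            push_cast; omega
          · push_cast; omega
        by_cases hb1 : 1 ≤ EE A T (win κ (i + 1) n)
        · have hb2 : Bad A κ m (i + 1) n := by
            by_contra hcon; exact hb ⟨hb1, hcon⟩
          obtain ⟨C, t, hC, hwin, h7, h8⟩ := hb2
          have h9 := (A C).H_mono (t - 1)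
          rw [sub_add_cancel] at h9
          have h10 : (A C).H (t - 1) ≤ t + n - 1 := by omega
          exact ⟨C, t, hC, hwin, h10, hne C t hC hwin h10⟩
        · have h7 := EE_cons_le D.hM (v := win κ (i + 1) n) (κ i) (by
            rw [win_length]; push_cast at h3; omega)
          rw [← win_succ'] at h7
          have h8 : 0 < Up A (win κ (i + 1) n) := by
            by_contra hcon
            have : Up A (win κ (i + 1) n) = 0 := by omega
            rw [this] at h7
            push_cast at h7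
            omega
          obtain ⟨C, t, h9, h10, h11⟩ := exists_of_Up_pos h8
          rw [win_length] at h9 h10 h11
          have hC : VisitsU (A C) κ m :=
            ⟨i + 1, t, n, by omega, by push_cast at h3; omega, h9, by omega, h11⟩
          have h12 : (A C).H (t - 1) ≤ t + n - 1 := by omega
          exact ⟨C, t, hC, h9, h12, hne C t hC h9 h12⟩
    have hR : (m : ℤ) < i + (n + 1 : ℕ) → (1 ≤ EE A T (win κ 0 m)) ∨ ∃ (C : ι) (t : ℤ),
        VisitsU (A C) κ m ∧ win (A C).u t n = win κ i n ∧ (A C).H t ≤ t + n ∧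
        (A C).u (t + n) ≠ κ (i + n) := by
      intro hj
      push_cast at hj h4
      by_cases hb : 1 ≤ EE A T (win κ i n) ∧ ¬ Bad A κ m i n
      · left
        exact ih i h1 h2 (by omega) (by omega) hb.1 hb.2
      · right
        have hne : ∀ (C : ι) (t : ℤ), VisitsU (A C) κ m → win (A C).u t n = win κ i n →
            (A C).H t ≤ t + n → (A C).u (t + n) ≠ κ (i + n) := by
          intro C t hC hwin hH hu
          apply h6
          refine ⟨C, t, hC, ?_, ?_, ?_⟩
          · rw [win_succ, win_succ, hu, hwin]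
          · have := (A C).H_mono (t - 1)
            rw [sub_add_cancel] at this
            push_cast; omega
          · push_cast; omega
        by_cases hb1 : 1 ≤ EE A T (win κ i n)
        · have hb2 : Bad A κ m i n := by
            by_contra hcon; exact hb ⟨hb1, hcon⟩
          obtain ⟨C, t, hC, hwin, h7, h8⟩ := hb2
          exact ⟨C, t, hC, hwin, by omega, hne C t hC hwin (by omega)⟩
        · have h7 := EE_snoc_le D.hM (v := win κ i n) (κ (i + n)) (by
            rw [win_length]; omega)
          rw [← win_succ] at h7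
          have h8 : 0 < Dn A (win κ i n) := by
            by_contra hcon
            have : Dn A (win κ i n) = 0 := by omega
            rw [this] at h7
            push_cast at h7
            omega
          obtain ⟨C, t, h9, h10⟩ := exists_of_Dn_pos h8
          rw [win_length] at h9 h10
          have h11 := (A C).H_mono (t - 1)
          rw [sub_add_cancel] at h11
          have hC : VisitsU (A C) κ m :=
            ⟨i, t, n, by omega, by omega, h9, by omega, by omega⟩
          exact ⟨C, t, hC, h9, by omega, hne C t hC h9 (by omega)⟩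
    push_cast at h3 h4 hR
    rcases lt_or_eq_of_le h2 with hi | hi
    · rcases hL hi with h | ⟨C, t, hC, hwin, hH, hu⟩
      · exact h
      have hlC := D.hl C hC t
      rcases lt_or_eq_of_le h3 with hj | hj
      · rcases hR hj with h | ⟨C', t', hC', hwin', hH', hu'⟩
        · exact h
        exfalso
        have hwpos : (0 : ℤ) < w := by exact_mod_cast D.hw
        obtain ⟨q, rfl⟩ : ∃ q, n = q + 1 := ⟨n - 1, by omega⟩
        apply D.hlink C C' hC hC'
        refine ⟨t, t' + 1, q, ?_, ?_, ?_, ?_⟩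
        · rw [win_succ, win_succ] at hwin
          rw [win_succ', win_succ'] at hwin'
          have e1 := (List.append_inj hwin (by simp)).1
          have e2 := (List.cons.inj hwin').2
          rw [e1, e2]
        · push_cast at hH; omega
        · rw [add_sub_cancel_right]; push_cast at hH'; omega
        · intro hall
          apply hu
          have := hall (-1)
          rw [← sub_eq_add_neg, ← sub_eq_add_neg, add_sub_cancel_right] at this
          rw [this]
          rw [win_succ', win_succ'] at hwin'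
          exact (List.cons.inj hwin').1
      · exfalso; omega
    · subst hi
      rcases lt_or_eq_of_le h3 with hj | hj
      · rcases hR hj with h | ⟨C', t', hC', hwin', hH', hu'⟩
        · exact h
        exfalso
        have hlC := D.hl C' hC' (t' + 1)
        rw [add_sub_cancel_right] at hlC
        omega
      · exfalso
        apply h0
        exact ⟨rfl, by omega⟩

/-- **The lower-bound step.** -/
theorem main : M A (win κ 0 m) + 1 ≤ occ T (win κ 0 m) := by
  obtain ⟨r, n, h1, h2, h3⟩ := D.stepA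
  have hwpos : (0 : ℤ) < w := by exact_mod_cast D.hw
  obtain ⟨k, hk1, hk2⟩ : ∃ k : ℤ, r + k * w ≤ 0 ∧ -(w : ℤ) < r + k * w := by
    refine ⟨-(r / w) - (if r % w = 0 then 0 else 1), ?_, ?_⟩
    · have e := Int.emod_add_mul_ediv r w
      have e1 := Int.emod_nonneg r hwpos.ne'
      have e2 := Int.emod_lt_of_pos r hwpos
      split_ifs with h
      · have : r + (-(r / w) - 0) * w = r % w := by linarith
        rw [this, h]
      · have : r + (-(r / w) - 1) * w = r % w - w := by linarith
        rw [this]; omega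
    · have e := Int.emod_add_mul_ediv r w
      have e1 := Int.emod_nonneg r hwpos.ne'
      have e2 := Int.emod_lt_of_pos r hwpos
      split_ifs with h
      · have : r + (-(r / w) - 0) * w = r % w := by linarith
        rw [this, h]; omega
      · have : r + (-(r / w) - 1) * w = r % w - w := by linarith
        rw [this]
        have : 0 < r % w := lt_of_le_of_ne e1 (Ne.symm h)
        omega
  have e1 : Hm A κ m (r + k * w - 1) = Hm A κ m (r - 1) + k * w := by
    have e : r + k * w - 1 = r - 1 + k * w := by ring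
    rw [e, D.Hm_per]
  have e2 := D.Hm_per r k
  have h1' : r + k * w + n = Hm A κ m (r + k * w - 1) := by rw [e1, ← h1]; ring
  have h2' : Hm A κ m (r + k * w - 1) < Hm A κ m (r + k * w) := by rw [e1, e2]; linarith
  have h3' : 1 ≤ EE A T (win κ (r + k * w) n) := by rw [D.winper]; exact h3
  have h4 : Hm A κ m (r + k * w - 1) ≤ m + w := by
    have := D.Hm_mono (r := r + k * w - 1) (s := -1) (by omega)
    exact this.trans D.Hm_neg_one_le
  have h5 := D.Hm_ge (r + k * w)
  have := D.stepB (i0 := r + k * w) hk2 (j0 := r + k * w + n) (by rw [h1']; exact h4) n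
    (r + k * w) le_rfl hk1 (by omega) le_rfl h3' (D.not_bad_start h1' h2')
  unfold EE at this
  have h6 : (M A (win κ 0 m) : ℤ) + 1 ≤ occ T (win κ 0 m) := by linarith
  exact_mod_cast h6

end LBData

end Crest.Agent.R287.LBS

namespace Crest.Agent.R287

/-! ### transport to `Ring` -/

/-- a ring as an `LBS.Comp` -/
def toComp (R : Ring) : LBS.Comp where
  u := R.κ
  w := R.w
  H := R.F
  w_pos := R.wpos
  u_per := R.κper
  H_mono := fun s => R.mono (by omega)
  H_per := R.Fper
  H_gt := R.Fgt

theorem win_conv (u : ℤ → ℕ) (s : ℤ) (n : ℕ) : LBS.win u s n = win u s (s + n) := by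
  unfold LBS.win win
  have : (s + (n : ℤ) - s).toNat = n := by omega
  rw [this]

theorem occ_conv (T : List ℕ) {v : List ℕ} (hv : v ≠ []) : LBS.occ T v = occ v T := by
  induction T with
  | nil => rw [LBS.occ_nil, if_neg hv]; rfl
  | cons c T ih => rw [LBS.occ_cons, ih]; rfl

theorem cnt_conv (R : Ring) (v : List ℕ) : (toComp R).cnt v = R.M v := by
  unfold LBS.Comp.cnt Ring.M cnt
  rw [Finset.card_filter]
  symm
  apply Finset.sum_bij (fun (n : ℕ) _ => (n : ℤ))
  · intro n hn
    rw [Finset.mem_range] at hn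
    rw [Finset.mem_Ico]
    exact ⟨by omega, by exact_mod_cast hn⟩
  · intro a _ b _ h
    exact_mod_cast h
  · intro b hb
    rw [Finset.mem_Ico] at hb
    have hb2 : b < (R.w : ℤ) := hb.2
    refine ⟨b.toNat, ?_, by omega⟩
    rw [Finset.mem_range]
    omega
  · intro n _
    rw [win_conv]
    rfl

theorem M_conv {ι : Type} [Fintype ι] (R : ι → Ring) (v : List ℕ) :
    LBS.M (fun i => toComp (R i)) v = Mtot R v := by
  unfold LBS.M Mtot
  exact Finset.sum_congr rfl (fun i _ => cnt_conv (R i) v)

theorem linked_conv {R R' : Ring} (h : LBS.Linked (toComp R) (toComp R')) : R.Linked R' := by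
  obtain ⟨s, t, n, h1, h2, h3, h4⟩ := h
  rw [win_conv, win_conv] at h1
  exact ⟨s, t, n, h1, h2, h3, h4⟩

/-- **The lower-bound step**, in the frozen form. -/
theorem lb_step : LBStepStatement := by
  intro ι _ R K z T hC hM
  have hwrap : ((R K).w : ℤ) < (R K).lev := hC.wrapK
  set lv := (R K).lev with hlv
  obtain ⟨m, hm⟩ : ∃ m : ℕ, lv - (R K).w = m := ⟨(lv - (R K).w).toNat, by omega⟩
  have hlev : lv = m + (R K).w := by omega
  have hwin : ∀ (i : ℤ) (n : ℕ), LBS.win (fun r => (R K).κ (z + r)) i n =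
      win (R K).κ (z + i) (z + i + n) := by
    intro i n
    rw [← win_conv]
    unfold LBS.win
    apply List.map_congr_left
    intro k _
    simp only [add_assoc]
  have hV : ∀ B, LBS.VisitsU (toComp (R B)) (fun r => (R K).κ (z + r)) m →
      VisU R K z (lv - (R K).w) B := by
    rintro B ⟨i, s, n, h1, h2, h3, h4, h5⟩
    refine ⟨z + i, z + i + n, s, by omega, by omega, ?_, ?_, ?_⟩
    · have e : z + i + (n : ℤ) - (z + i) = n := by ring
      rw [e, ← win_conv, ← hwin]
      exact h3
    · have e : s + (z + i + (n : ℤ) - (z + i)) = s + n := by ring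
      rw [e]; exact h4
    · have e : s + (z + i + (n : ℤ) - (z + i)) = s + n := by ring
      rw [e]; exact h5
  have hlen : (win (R K).κ z (z + (lv - (R K).w))).length = m := by
    rw [length_win]; omega
  have D : LBS.LBData (fun i => toComp (R i)) T (fun r => (R K).κ (z + r)) (R K).w m := by
    refine ⟨(R K).wpos, ?_, ⟨K, z, fun r => rfl, ?_⟩, ?_, ?_, ?_⟩
    · intro r
      have := (R K).κper (z + r)
      rw [← this, add_assoc]
    · have := hC.bot
      rw [← hlv, hlev] at this
      exact this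
    · intro B hB s
      have h1 := (hC.wrap B (hV B hB)).2
      have h2 := (R B).lev_le s
      have h3 : lv ≤ (R B).F (s - 1) - s := le_trans h1 h2
      have h4 : (toComp (R B)).H (s - 1) = (R B).F (s - 1) := rfl
      rw [h4]; omega
    · intro B C hB hCC hL
      exact hC.unlinked B C (hV B hB) (hV C hCC) (linked_conv hL)
    · intro v hv
      rw [M_conv, occ_conv T (by intro e; rw [e] at hv; simp at hv)]
      exact hM v (by rw [hlen]; exact hv)
  have := D.main
  have e0 : LBS.win (fun r => (R K).κ (z + r)) 0 m = win (R K).κ z (z + (lv - (R K).w)) := by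
    rw [hwin, hm, add_zero]
  rw [e0, M_conv, occ_conv] at this
  · exact this
  · intro e
    have h1 := congrArg List.length e
    rw [hlen] at h1
    simp at h1
    omega

end Crest.Agent.R287
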