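import Crest.Agent.R287.Core
import Crest.Agent.R287.PRing
import Crest.Agent.R287.CandB
import Crest.Agent.R287.LBStep
import Crest.Agent.R287.CoreMerge

/-!
# Row 287: counting part of the correctness of the one-pass algorithm
-/

set_option autoImplicit false

namespace Crest.Agent.R287.IC

open Finset

/-- all words of a state -/
def wordsS (st : St) : List Word := st.1.flatten ++ st.2.flatten

/-- number of words of `W` having `v` as a prefix -/
def Ms (W : List Word) (v : Word) : ℕ := W.countP fun p => decide (v <+: p)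

theorem Ms_perm {W W' : List Word} (h : W.Perm W') (v : Word) : Ms W v = Ms W' v := h.countP_eq _

theorem Ms_append (W W' : List Word) (v : Word) : Ms (W ++ W') v = Ms W v + Ms W' v := by
  simp [Ms, List.countP_append]

@[simp] theorem Ms_nil (v : Word) : Ms [] v = 0 := rfl

theorem Ms_cons (p : Word) (W : List Word) (v : Word) :
    Ms (p :: W) v = (if v <+: p then 1 else 0) + Ms W v := by
  unfold Ms
  rw [List.countP_cons]
  by_cases h : v <+: p <;> simp [h]; omega

theorem Ms_eq_zero {W : List Word} {v : Word} (h : ∀ p ∈ W, p.length < v.length) : Ms W v = 0 := by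
  unfold Ms
  rw [List.countP_eq_zero]
  intro p hp
  have := h p hp
  simp only [decide_eq_true_eq]
  intro hc
  have := hc.length_le
  omega

/-- right recursion -/
theorem Ms_right (A : Finset ℕ) {W : List Word} (hA : ∀ p ∈ W, ∀ c ∈ p, c ∈ A) (v : Word) :
    Ms W v = ∑ b ∈ A, Ms W (v ++ [b]) + W.count v := by
  induction W with
  | nil => simp
  | cons p W ih =>
    have ih' := ih (fun q hq => hA q (List.mem_cons_of_mem _ hq))
    have hp := prefix_split (y := v) A (hA p List.mem_cons_self)
    rw [Ms_cons, ih', hp]
    simp only [Ms_cons, Finset.sum_add_distrib]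
    rw [List.count_cons]
    have : (if (p == v) = true then 1 else 0) = (if v = p then 1 else 0) := by
      by_cases h : v = p
      · simp [h]
      · have h' : ¬ p = v := fun e => h e.symm
        simp [h, h']
    omega

/-- left recursion for the tails -/
theorem countP_tail (A : Finset ℕ) {W : List Word} (hA : ∀ p ∈ W, ∀ c ∈ p, c ∈ A)
    (hne : ∀ p ∈ W, p ≠ []) (v : Word) :
    W.countP (fun p => decide (v <+: p.tail)) = ∑ a ∈ A, Ms W (a :: v) := by
  induction W with
  | nil => simp
  | cons p W ih =>
    have ih' := ih (fun q hq => hA q (List.mem_cons_of_mem _ hq))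
      (fun q hq => hne q (List.mem_cons_of_mem _ hq))
    rw [List.countP_cons, ih']
    simp only [Ms_cons, Finset.sum_add_distrib]
    cases p with
    | nil => exact absurd rfl (hne _ List.mem_cons_self)
    | cons c p =>
      have hc : c ∈ A := hA (c :: p) List.mem_cons_self c List.mem_cons_self
      have : ∀ a, ((a :: v) <+: (c :: p)) ↔ (a = c ∧ v <+: p) := by
        intro a; rw [List.cons_prefix_cons]
      simp only [this, List.tail_cons]
      by_cases h : v <+: p
      · simp [h, hc]; omega
      · simp [h]

/-- counting the successors in a chain -/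
theorem Ms_next {L : List Word} {e : Word} (hc : List.IsChain (fun p q : Word => p.tail <+: q) (L ++ [e]))
    {v : Word} (hl : ∀ p ∈ L, v.length + 1 ≤ p.length) :
    Ms (L ++ [e]).tail v = L.countP (fun p => decide (v <+: p.tail)) := by
  induction L with
  | nil => simp
  | cons p L ih =>
    have key : ∀ q : Word, p.tail <+: q → ((v <+: q) ↔ (v <+: p.tail)) := by
      intro q hq
      have h1 := hl p List.mem_cons_self
      constructor
      · intro h
        exact List.prefix_of_prefix_length_le h hq (by simp; omega)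
      · intro h; exact h.trans hq
    rw [List.cons_append, List.tail_cons, List.countP_cons]
    cases L with
    | nil =>
      simp only [List.nil_append, List.cons_append, List.isChain_cons_cons] at hc ⊢
      rw [Ms_cons]
      simp only [key e hc.1, Ms_nil, List.countP_nil]
      by_cases h : v <+: p.tail <;> simp [h]
    | cons q L =>
      simp only [List.cons_append, List.isChain_cons_cons] at hc
      have ih' := ih (by simpa using hc.2) (fun r hr => hl r (List.mem_cons_of_mem _ hr))
      rw [List.cons_append, List.tail_cons] at ih'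
      rw [List.cons_append, Ms_cons, ih']
      simp only [key q hc.1]
      by_cases h : v <+: p.tail <;> simp [h]; omega

/-! ### structure of the states -/

/-- open chain whose last word has length `m` (the others are at least as long) -/
structure OpenAt (m : ℕ) (X : PL) : Prop where
  ne : X ≠ []
  chain : X.IsChain (fun p q : Word => p.tail <+: q)
  len : ∀ p ∈ X, m ≤ p.length
  last : (lastW X).length = m

/-- ring with words of length at least `m` -/
structure RingAt (m : ℕ) (P : PL) : Prop where
  ring : IsPRing P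
  len : ∀ p ∈ P, m ≤ p.length

structure Mid (m : ℕ) (st : St) : Prop where
  opens : ∀ X ∈ st.1, OpenAt m X
  rings : ∀ P ∈ st.2, RingAt m P

def LinkFree (st : St) : Prop := ∀ X ∈ st.1, ∀ Y ∈ st.1, linkB X Y = false

theorem lastW_eq {X : PL} (h : X ≠ []) : lastW X = X.getLast h := by
  unfold lastW
  rw [List.getLastD_eq_getLast?, List.getLast?_eq_some_getLast h]
  rfl

theorem chain_ext {X : PL} (hc : X.IsChain (fun p q : Word => p.tail <+: q)) (hne : X ≠ []) :
    (X ++ [(lastW X).tail]).IsChain (fun p q : Word => p.tail <+: q) := by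
  rw [List.isChain_append]
  refine ⟨hc, List.isChain_singleton _, ?_⟩
  intro x hx y hy
  rw [List.getLast?_eq_some_getLast hne] at hx
  simp only [Option.mem_def, Option.some.injEq, List.head?_cons] at hx hy
  subst hx; subst hy
  rw [lastW_eq hne]

theorem OpenAt.ext {m : ℕ} {X : PL} (h : OpenAt (m + 1) X) : OpenAt m (ext X) where
  ne := by simp [Crest.Agent.R287.ext]
  chain := chain_ext h.chain h.ne
  len := by
    intro p hp
    unfold Crest.Agent.R287.ext at hp
    rw [List.mem_append, List.mem_singleton] at hp
    rcases hp with hp | rfl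
    · have := h.len p hp; omega
    · rw [List.length_tail, h.last]; omega
  last := by
    unfold Crest.Agent.R287.ext
    rw [lastW_concat, List.length_tail, h.last]; omega

theorem RingAt.mono {m m' : ℕ} (hm : m' ≤ m) {P : PL} (h : RingAt m P) : RingAt m' P :=
  ⟨h.ring, fun p hp => hm.trans (h.len p hp)⟩

theorem Mid.ext {m : ℕ} {st : St} (h : Mid (m + 1) st) : Mid m (st.1.map ext, st.2) where
  opens := by
    intro X hX
    obtain ⟨Y, hY, rfl⟩ := List.mem_map.1 hX
    exact (h.opens Y hY).ext
  rings := fun P hP => (h.rings P hP).mono (Nat.le_succ m)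

theorem Mid.add {m : ℕ} {st : St} (h : Mid m st) {x : Word} (hx : x.length = m) :
    Mid m ([x] :: st.1, st.2) where
  opens := by
    intro X hX
    rcases List.mem_cons.1 hX with rfl | hX
    · exact ⟨by simp, List.isChain_singleton _, by simp [hx], by simp [lastW, hx]⟩
    · exact h.opens X hX
  rings := h.rings

/-! ### the extension step -/

theorem flatten_map_ext (l : List PL) :
    ((l.map ext).flatten).Perm (l.flatten ++ l.map (fun X => (lastW X).tail)) := by
  induction l with
  | nil => simp
  | cons X l ih =>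
    simp only [List.map_cons, List.flatten_cons, ext, List.append_assoc]
    refine List.Perm.append_left X ?_
    rw [List.singleton_append]
    refine (List.Perm.cons _ ih).trans ?_
    exact (List.perm_middle).symm

theorem wordsS_ext (st : St) :
    (wordsS (st.1.map ext, st.2)).Perm (wordsS st ++ st.1.map (fun X => (lastW X).tail)) := by
  unfold wordsS
  refine (List.Perm.append_right _ (flatten_map_ext st.1)).trans ?_
  rw [List.append_assoc, List.append_assoc]
  exact List.Perm.append_left _ List.perm_append_comm

theorem linkB_eq_false {X Y : PL} : linkB X Y = false ↔ ¬ (lastW X).tail <+: headW Y := by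
  unfold linkB
  rw [← Bool.not_eq_true, List.isPrefixOf_iff_prefix]

/-- count in an extended open chain -/
theorem Ms_ext_open {m : ℕ} {X : PL} (h : OpenAt (m + 1) X) {v : Word} (hv : v.length = m)
    (hh : ¬ v <+: headW X) : Ms (ext X) v = X.countP (fun p => decide (v <+: p.tail)) := by
  have hn := Ms_next (chain_ext h.chain h.ne) (v := v)
    (fun p hp => by have := h.len p hp; omega)
  cases X with
  | nil => exact absurd rfl h.ne
  | cons x X' =>
    rw [← hn]
    unfold ext
    rw [List.cons_append, List.tail_cons, Ms_cons]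
    have : ¬ v <+: x := by simpa [headW] using hh
    simp [this]

/-- count in a ring -/
theorem Ms_ring {m : ℕ} {P : PL} (h : RingAt (m + 1) P) {v : Word} (hv : v.length = m) :
    Ms P v = P.countP (fun p => decide (v <+: p.tail)) := by
  have hn := Ms_next h.ring.2.2 (v := v) (fun p hp => by have := h.len p hp; omega)
  cases P with
  | nil => exact absurd rfl h.ring.1
  | cons x P' =>
    rw [← hn, List.cons_append, List.tail_cons]
    apply Ms_perm
    simpa using (List.perm_append_singleton x P').symm

theorem Ms_flatten_congr {l l' : List PL} {v : Word} (f : Word → Bool)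
    (h : List.Forall₂ (fun X Y : PL => Ms Y v = X.countP f) l l') :
    Ms l'.flatten v = l.flatten.countP f := by
  induction h with
  | nil => rfl
  | cons h1 _ ih => rw [List.flatten_cons, List.flatten_cons, Ms_append, List.countP_append, h1, ih]

theorem ext_step {m : ℕ} {st : St} (h : Mid (m + 1) st) (hG : LinkFree st) {T : List ℕ}
    (hocc : ∀ v : Word, m + 1 ≤ v.length → Ms (wordsS st) v ≤ occ v T) (v : Word) (hv0 : v ≠ [])
    (hv : m ≤ v.length) : Ms (wordsS (st.1.map ext, st.2)) v ≤ occ v T := by
  have hperm := Ms_perm (wordsS_ext st) v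
  rw [Ms_append] at hperm
  have hlen1 : ∀ p ∈ wordsS st, m + 1 ≤ p.length := by
    intro p hp
    unfold wordsS at hp
    rw [List.mem_append, List.mem_flatten, List.mem_flatten] at hp
    rcases hp with ⟨X, hX, hp⟩ | ⟨X, hX, hp⟩
    · exact (h.opens X hX).len p hp
    · exact (h.rings X hX).len p hp
  have hlen2 : ∀ p ∈ st.1.map (fun X => (lastW X).tail), p.length = m := by
    intro p hp
    obtain ⟨X, hX, rfl⟩ := List.mem_map.1 hp
    rw [List.length_tail, (h.opens X hX).last]; omega
  rcases Nat.eq_or_lt_of_le hv with hv | hv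
  · -- length `m`
    set A : Finset ℕ := T.toFinset ∪ (wordsS st).flatten.toFinset with hAdef
    have hAT : ∀ c ∈ T, c ∈ A := fun c hc => by simp [hAdef, hc]
    have hAW : ∀ p ∈ wordsS st, ∀ c ∈ p, c ∈ A := fun p hp c hc => by
      rw [hAdef, Finset.mem_union, List.mem_toFinset, List.mem_toFinset]
      right
      exact List.mem_flatten.2 ⟨p, hp, hc⟩
    by_cases hD : ∃ X ∈ st.1, (lastW X).tail = v
    · obtain ⟨X, hX, hXv⟩ := hD
      have hU : ∀ Y ∈ st.1, ¬ v <+: headW Y := by
        intro Y hY
        rw [← hXv]
        exact linkB_eq_false.1 (hG X hX Y hY)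
      have e1 : Ms (wordsS (st.1.map ext, st.2)) v =
          (wordsS st).countP (fun p => decide (v <+: p.tail)) := by
        unfold wordsS
        rw [Ms_append, List.countP_append]
        congr 1
        · apply Ms_flatten_congr
          rw [List.forall₂_map_right_iff]
          exact List.forall₂_same.2 fun Y hY => Ms_ext_open (h.opens Y hY) hv.symm (hU Y hY)
        · apply Ms_flatten_congr
          exact List.forall₂_same.2 fun Y hY => Ms_ring (h.rings Y hY) hv.symm
      rw [e1, countP_tail A hAW (fun p hp => by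
        have := hlen1 p hp
        intro e; rw [e] at this; simp at this) v, occ_eq_prefix A hAT hv0]
      have : ∑ a ∈ A, Ms (wordsS st) (a :: v) ≤ ∑ a ∈ A, occ (a :: v) T :=
        Finset.sum_le_sum fun a _ => hocc _ (by simp only [List.length_cons]; omega)
      omega
    · have e2 : Ms (st.1.map (fun X => (lastW X).tail)) v = 0 := by
        unfold Ms
        rw [List.countP_eq_zero]
        intro p hp
        simp only [decide_eq_true_eq]
        intro hpre
        have := hpre.eq_of_length (by rw [hlen2 p hp, hv])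
        obtain ⟨X, hX, rfl⟩ := List.mem_map.1 hp
        exact hD ⟨X, hX, this.symm⟩
      have e3 : (wordsS st).count v = 0 := by
        rw [List.count_eq_zero]
        intro hmem
        have := hlen1 v hmem
        omega
      rw [hperm, e2, Ms_right A hAW, e3, occ_eq_suffix A hAT hv0]
      have : ∑ b ∈ A, Ms (wordsS st) (v ++ [b]) ≤ ∑ b ∈ A, occ (v ++ [b]) T :=
        Finset.sum_le_sum fun b _ => hocc _ (by
          simp only [List.length_append, List.length_singleton]; omega)
      omega
  · have e2 : Ms (st.1.map (fun X => (lastW X).tail)) v = 0 :=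
      Ms_eq_zero fun p hp => by rw [hlen2 p hp]; exact hv
    rw [hperm, e2, Nat.add_zero]
    exact hocc v hv

/-! ### adding words -/

theorem wordsS_add (st : St) (x : Word) : wordsS ([x] :: st.1, st.2) = x :: wordsS st := by
  simp [wordsS]

theorem add_step {m : ℕ} {st : St} {x : Word} (hx : x.length = m) {T : List ℕ}
    (h : ∀ v : Word, v ≠ [] → m ≤ v.length → Ms (wordsS st) v ≤ occ v T)
    (hx' : Ms (wordsS st) x + 1 ≤ occ x T) (v : Word) (hv0 : v ≠ []) (hv : m ≤ v.length) :
    Ms (wordsS ([x] :: st.1, st.2)) v ≤ occ v T := by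
  rw [wordsS_add, Ms_cons]
  by_cases hvx : v <+: x
  · have : v = x := hvx.eq_of_length (by have := hvx.length_le; omega)
    subst this
    rw [if_pos hvx]
    omega
  · rw [if_neg hvx]
    have := h v hv0 hv
    omega

theorem occursB_iff (st : St) (s : Word) : occursB st s = true ↔ ∃ p ∈ wordsS st, s <:+: p := by
  unfold occursB wordsS
  simp only [List.any_eq_true, List.isPrefixOf_iff_prefix, List.mem_append, List.mem_flatten,
    List.mem_tails]
  constructor
  · rintro ⟨X, hX, p, hp, q, hq, hs⟩
    refine ⟨p, ?_, hs.isInfix.trans hq.isInfix⟩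
    rcases hX with hX | hX
    · exact Or.inl ⟨X, hX, hp⟩
    · exact Or.inr ⟨X, hX, hp⟩
  · rintro ⟨p, hp, hs⟩
    obtain ⟨q, hq, hs'⟩ := List.infix_iff_prefix_suffix.1 hs
    rcases hp with ⟨X, hX, hp⟩ | ⟨X, hX, hp⟩
    · exact ⟨X, Or.inl hX, p, hp, q, hs', hq⟩
    · exact ⟨X, Or.inr hX, p, hp, q, hs', hq⟩

theorem addInput_step {m : ℕ} (hm : 1 ≤ m) {st : St} {s : Word} {T : List ℕ} (hs : s <:+: T)
    (hM : Mid m st)
    (h : ∀ v : Word, v ≠ [] → m ≤ v.length → Ms (wordsS st) v ≤ occ v T) :
    Mid m (addInput m st s) ∧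
      ∀ v : Word, v ≠ [] → m ≤ v.length → Ms (wordsS (addInput m st s)) v ≤ occ v T := by
  unfold addInput
  by_cases hc : (decide (s.length = m) && !occursB st s) = true
  · rw [if_pos hc]
    simp only [Bool.and_eq_true, decide_eq_true_eq, Bool.not_eq_true'] at hc
    refine ⟨hM.add hc.1, add_step hc.1 h ?_⟩
    have h0 : Ms (wordsS st) s = 0 := by
      unfold Ms
      rw [List.countP_eq_zero]
      intro p hp
      simp only [decide_eq_true_eq]
      intro hpre
      have := (occursB_iff st s).2 ⟨p, hp, hpre.isInfix⟩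
      rw [this] at hc
      simp at hc
    rw [h0]
    have hs0 : s ≠ [] := by
      intro e; rw [e] at hc; simp at hc; omega
    have := occ_pos hs0 hs
    omega
  · rw [if_neg hc]
    exact ⟨hM, h⟩

theorem addInputs_step {m : ℕ} (hm : 1 ≤ m) {T : List ℕ} (S : List Word) (hS : ∀ s ∈ S, s <:+: T)
    {st : St} (hM : Mid m st)
    (h : ∀ v : Word, v ≠ [] → m ≤ v.length → Ms (wordsS st) v ≤ occ v T) :
    Mid m (S.foldl (addInput m) st) ∧
      ∀ v : Word, v ≠ [] → m ≤ v.length → Ms (wordsS (S.foldl (addInput m) st)) v ≤ occ v T := by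
  induction S generalizing st with
  | nil => exact ⟨hM, h⟩
  | cons s S ih =>
    rw [List.foldl_cons]
    obtain ⟨h1, h2⟩ := addInput_step hm (hS s List.mem_cons_self) hM h
    exact ih (fun t ht => hS t (List.mem_cons_of_mem _ ht)) h1 h2

/-! ### the family of rings of a state -/

theorem tails_dropLast_cons (a : ℕ) (l : Word) :
    (a :: l).tails.dropLast = (a :: l) :: l.tails.dropLast := by
  rw [List.tails_cons]
  exact List.dropLast_cons_of_ne_nil (by
    intro e
    have : l.tails.length = 0 := by rw [e]; rfl
    simp at this)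

theorem mem_tails_dropLast {l p : Word} (h : p ∈ l.tails.dropLast) :
    p ≠ [] ∧ p.length ≤ l.length := by
  induction l with
  | nil => simp at h
  | cons a l ih =>
    rw [tails_dropLast_cons, List.mem_cons] at h
    rcases h with rfl | h
    · simp
    · have := ih h
      exact ⟨this.1, by simp only [List.length_cons]; omega⟩

theorem chain_tails (e h : Word) :
    (e :: (e.tail.tails.dropLast ++ [h])).IsChain (fun p q : Word => p.tail <+: q) := by
  induction e with
  | nil => simp
  | cons a e ih =>
    cases e with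
    | nil => simp
    | cons b e =>
      rw [List.tail_cons, tails_dropLast_cons, List.cons_append, List.isChain_cons_cons]
      exact ⟨List.prefix_refl _, ih⟩

theorem isPRing_closeR' {X : PL} (hne : X ≠ []) (hpos : ∀ p ∈ X, p ≠ [])
    (hc : X.IsChain (fun p q : Word => p.tail <+: q)) : IsPRing (closeR X) := by
  refine ⟨by simp [closeR, hne], ?_, ?_⟩
  · intro p hp
    unfold closeR at hp
    rw [List.mem_append] at hp
    rcases hp with hp | hp
    · exact hpos p hp
    · exact (mem_tails_dropLast hp).1
  · obtain ⟨X', e, rfl⟩ : ∃ X' e, X = X' ++ [e] := ⟨X.dropLast, X.getLast hne,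
      (List.dropLast_append_getLast hne).symm⟩
    unfold closeR
    rw [lastW_concat]
    have h2 := chain_tails e (((X' ++ [e]) ++ e.tail.tails.dropLast).headD [])
    have := List.IsChain.append_overlap (l₁ := X') (l₂ := [e])
      (l₃ := e.tail.tails.dropLast ++ [((X' ++ [e]) ++ e.tail.tails.dropLast).headD []]) hc
      (by simpa using h2) (by simp)
    simpa using this

theorem Ms_closeR {X : PL} {v : Word} (hv : (lastW X).length ≤ v.length) (hv0 : v ≠ []) :
    Ms (closeR X) v = Ms X v := by
  unfold closeR
  rw [Ms_append, Ms_eq_zero (W := (lastW X).tail.tails.dropLast), Nat.add_zero]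
  intro p hp
  have h1 := (mem_tails_dropLast hp).2
  rw [List.length_tail] at h1
  have : 0 < v.length := List.length_pos_iff.mpr hv0
  omega

theorem Ms_famS {m : ℕ} {st : St} (h : Mid m st) {v : Word} (hv : m ≤ v.length) (hv0 : v ≠ []) :
    Ms (famS st).flatten v = Ms (wordsS st) v := by
  unfold famS wordsS
  rw [List.flatten_append, Ms_append, Ms_append, Nat.add_comm]
  congr 1
  have := Ms_flatten_congr (v := v) (l := st.1) (l' := st.1.map closeR)
    (fun p => decide (v <+: p)) (by
      rw [List.forall₂_map_right_iff]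
      exact List.forall₂_same.2 fun Y hY => Ms_closeR (by rw [(h.opens Y hY).last]; exact hv) hv0)
  exact this

theorem famS_isPRing {m : ℕ} (hm : 1 ≤ m) {st : St} (h : Mid m st) : ∀ P ∈ famS st, IsPRing P := by
  intro P hP
  unfold famS at hP
  rw [List.mem_append, List.mem_map] at hP
  rcases hP with hP | ⟨X, hX, rfl⟩
  · exact (h.rings P hP).ring
  · have hX' := h.opens X hX
    refine isPRing_closeR' hX'.ne (fun p hp e => ?_) hX'.chain
    have := hX'.len p hp
    rw [e] at this
    simp at this
    omega

theorem Mtot_fin (l : List PL) (h : ∀ i : Fin l.length, IsPRing l[i]) (v : Word) :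
    Mtot (fun i : Fin l.length => toRing l[i] (h i)) v = Ms l.flatten v := by
  unfold Mtot
  have h1 : ∀ i : Fin l.length, (toRing l[i] (h i)).M v = Ms l[i] v := fun i =>
    M_eq_countP (h i) v
  rw [Finset.sum_congr rfl fun i _ => h1 i]
  clear h1
  clear h
  induction l with
  | nil => simp
  | cons X l ih =>
    rw [List.flatten_cons, Ms_append, ← ih]
    exact Fin.sum_univ_succ (fun i : Fin (l.length + 1) => Ms (X :: l)[i] v)

/-- the lower bound step for a family given as a list -/
theorem step_list (fam : List PL) (hfam : ∀ P ∈ fam, IsPRing P) {K : PL} (hK : K ∈ fam)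
    (hc : candB fam K = true) {T : List ℕ}
    (h : ∀ v : Word, (xw K).length < v.length → Ms fam.flatten v ≤ occ v T) :
    Ms fam.flatten (xw K) + 1 ≤ occ (xw K) T := by
  obtain ⟨k, hk, rfl⟩ := List.getElem_of_mem hK
  have hP : ∀ i : Fin fam.length, IsPRing fam[i] := fun i => hfam _ (List.getElem_mem i.2)
  obtain ⟨z, hz, hx⟩ := cand_of_candB (fun i : Fin fam.length => fam[i]) hP fam
    (fun c => List.getElem_mem c.2) ⟨k, hk⟩ hc
  have key := lb_step (Fin fam.length) (fun i : Fin fam.length => toRing fam[i] (hP i)) ⟨k, hk⟩ z T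
    hz
  have hx' : xw fam[k] = win (toRing fam[k] (hP ⟨k, hk⟩)).κ z
        (z + ((toRing fam[k] (hP ⟨k, hk⟩)).lev - (toRing fam[k] (hP ⟨k, hk⟩)).w)) := hx
  simp only [Fin.getElem_fin] at key
  rw [← hx'] at key
  have hM : ∀ v, Mtot (fun i : Fin fam.length => toRing fam[i] (hP i)) v = Ms fam.flatten v :=
    Mtot_fin fam hP
  simp only [Fin.getElem_fin] at hM
  rw [hM] at key
  apply key
  intro y hy
  rw [hM]
  exact h y hy

theorem length_xw {K : PL} (hK : IsPRing K) (hw : K.length ≤ levN K) :
    (xw K).length = levN K - K.length := by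
  obtain ⟨z, hz, hb⟩ := exists_bottom hK
  unfold xw
  rw [List.length_take, hb, length_win]
  omega

theorem issue_step {m : ℕ} (hm : 1 ≤ m) {st : St} {K : PL} (hM : Mid m st) (hK : K ∈ st.2)
    {T : List ℕ} (h : ∀ v : Word, v ≠ [] → m ≤ v.length → Ms (wordsS st) v ≤ occ v T) :
    Mid m (issue m st K) ∧ (issue m st K).2 = st.2 ∧
      ∀ v : Word, v ≠ [] → m ≤ v.length → Ms (wordsS (issue m st K)) v ≤ occ v T := by
  unfold issue
  by_cases hc : (decide (levN K = m + K.length) && candB (famS st) K) = true
  · rw [if_pos hc]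
    simp only [Bool.and_eq_true, decide_eq_true_eq] at hc
    have hx : (xw K).length = m := by
      rw [length_xw (hM.rings K hK).ring (by omega), hc.1]; omega
    refine ⟨hM.add hx, rfl, add_step hx h ?_⟩
    have hx0 : xw K ≠ [] := by
      intro e; rw [e] at hx; simp at hx; omega
    rw [← Ms_famS hM hx.ge hx0]
    refine step_list (famS st) (famS_isPRing hm hM) (List.mem_append_left _ hK) hc.2 ?_
    intro v hv
    have hv0 : v ≠ [] := by
      intro e; rw [e] at hv; simp at hv
    rw [Ms_famS hM (by omega) hv0]
    exact h v hv0 (by omega)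
  · rw [if_neg hc]
    exact ⟨hM, rfl, h⟩

theorem issues_step {m : ℕ} (hm : 1 ≤ m) {T : List ℕ} (L : List PL) {st : St} (hM : Mid m st)
    (hL : ∀ K ∈ L, K ∈ st.2)
    (h : ∀ v : Word, v ≠ [] → m ≤ v.length → Ms (wordsS st) v ≤ occ v T) :
    Mid m (L.foldl (issue m) st) ∧ (L.foldl (issue m) st).2 = st.2 ∧
      ∀ v : Word, v ≠ [] → m ≤ v.length → Ms (wordsS (L.foldl (issue m) st)) v ≤ occ v T := by
  induction L generalizing st with
  | nil => exact ⟨hM, rfl, h⟩
  | cons K L ih =>
    rw [List.foldl_cons]
    obtain ⟨h1, h2, h3⟩ := issue_step hm hM (hL K List.mem_cons_self) h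
    obtain ⟨h4, h5, h6⟩ := ih h1 (fun K' hK' => by rw [h2]; exact hL K' (List.mem_cons_of_mem _ hK'))
      h3
    exact ⟨h4, h5.trans h2, h6⟩

/-! ### the level -/

theorem wordsS_merge (st : St) :
    (wordsS ((mergeAll st.1).filter (fun X => !linkB X X),
      st.2 ++ (mergeAll st.1).filter (fun X => linkB X X))).Perm (wordsS st) := by
  unfold wordsS
  simp only [List.flatten_append]
  have h1 : ((mergeAll st.1).filter (fun X => !linkB X X) ++
      (mergeAll st.1).filter (fun X => linkB X X)).Perm (mergeAll st.1) := by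
    have := List.filter_append_perm (fun X => linkB X X) (mergeAll st.1)
    exact List.perm_append_comm.trans this
  have h2 := (h1.flatten).trans (mergeAll_flatten st.1)
  rw [List.flatten_append] at h2
  refine List.Perm.trans ?_ (List.Perm.append_right _ h2)
  rw [List.append_assoc]
  exact List.Perm.append_left _ List.perm_append_comm

theorem level_step {m : ℕ} (hm : 1 ≤ m) (S : List Word) {T : List ℕ} (hS : ∀ s ∈ S, s <:+: T)
    {st : St} (hM : Mid (m + 1) st) (hG : LinkFree st)
    (h : ∀ v : Word, v ≠ [] → m + 1 ≤ v.length → Ms (wordsS st) v ≤ occ v T) :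
    ∀ v : Word, v ≠ [] → m ≤ v.length → Ms (wordsS (level S m st)) v ≤ occ v T := by
  have h1 : ∀ v : Word, v ≠ [] → m ≤ v.length → Ms (wordsS (st.1.map ext, st.2)) v ≤ occ v T :=
    fun v hv0 hv => ext_step hM hG (fun u hu => h u (by intro e; rw [e] at hu; simp at hu) hu) v hv0 hv
  obtain ⟨h2, -, h3⟩ := issues_step hm (st.2) hM.ext (fun K hK => hK) h1
  obtain ⟨-, h4⟩ := addInputs_step hm S hS h2 h3
  intro v hv0 hv
  have := h4 v hv0 hv
  unfold level
  simp only
  rw [Ms_perm (wordsS_merge _)]
  exact this

/-! ### all levels -/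

theorem count_stt (S : List Word) {T : List ℕ} (hS : ∀ s ∈ S, s <:+: T)
    (hI : ∀ i ≤ maxLen S, Mid (maxLen S - i + 1) (stt S i) ∧ LinkFree (stt S i)) :
    ∀ i ≤ maxLen S, ∀ v : Word, v ≠ [] → maxLen S - i + 1 ≤ v.length →
      Ms (wordsS (stt S i)) v ≤ occ v T := by
  intro i
  induction i with
  | zero => intro _ v _ _; simp [stt, wordsS]
  | succ i ih =>
    intro hi v hv0 hv
    obtain ⟨h1, h2⟩ := hI i (by omega)
    have h3 := ih (by omega)
    have hm : maxLen S - (i + 1) + 1 = maxLen S - i := by omega
    rw [hm] at hv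
    have e : stt S (i + 1) = level S (maxLen S - i) (stt S i) := rfl
    rw [e]
    exact level_step (by omega) S hS h1 h2 h3 v hv0 hv

theorem length_eq_sum_Ms (A : Finset ℕ) {W : List Word} (hA : ∀ p ∈ W, ∀ c ∈ p, c ∈ A)
    (hne : ∀ p ∈ W, p ≠ []) : W.length = ∑ a ∈ A, Ms W [a] := by
  have := countP_tail A hA hne []
  rw [← this]
  symm
  rw [List.countP_eq_length]
  intro p _
  simp

theorem length_le_of_Ms {W : List Word} (hne : ∀ p ∈ W, p ≠ []) {T : List ℕ}
    (h : ∀ v : Word, v ≠ [] → Ms W v ≤ occ v T) : W.length ≤ T.length := by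
  set A : Finset ℕ := T.toFinset ∪ W.flatten.toFinset with hAdef
  have hAT : ∀ c ∈ T, c ∈ A := fun c hc => by simp [hAdef, hc]
  have hAW : ∀ p ∈ W, ∀ c ∈ p, c ∈ A := fun p hp c hc => by
    rw [hAdef, Finset.mem_union, List.mem_toFinset, List.mem_toFinset]
    right
    exact List.mem_flatten.2 ⟨p, hp, hc⟩
  rw [length_eq_sum_Ms A hAW hne, ← sum_occ_singleton A hAT]
  exact Finset.sum_le_sum fun a _ => h [a] (by simp)

theorem sum_le_of_struct (S : List Word) {T : List ℕ} (hS : ∀ s ∈ S, s <:+: T)
    (hI : ∀ i ≤ maxLen S, Mid (maxLen S - i + 1) (stt S i) ∧ LinkFree (stt S i)) :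
    ((stt S (maxLen S)).1 ++ (stt S (maxLen S)).2).flatten.length ≤ T.length := by
  have h1 := count_stt S hS hI (maxLen S) le_rfl
  have h2 := (hI (maxLen S) le_rfl).1
  rw [List.flatten_append]
  refine length_le_of_Ms (W := wordsS (stt S (maxLen S))) ?_ ?_
  · intro p hp e
    unfold wordsS at hp
    rw [List.mem_append, List.mem_flatten, List.mem_flatten] at hp
    rcases hp with ⟨X, hX, hp⟩ | ⟨X, hX, hp⟩
    · have := (h2.opens X hX).len p hp
      rw [e] at this; simp at this
    · have := (h2.rings X hX).len p hp
      rw [e] at this; simp at this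
  · intro v hv0
    refine h1 v hv0 ?_
    have := List.length_pos_iff.mpr hv0
    omega

end Crest.Agent.R287.IC
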