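import Crest.Agent.R287.Core
import Crest.Agent.R287.PRing

/-!
# Row 287: counting over the family of rings of a state (for `InvCount.lean`)
-/

set_option autoImplicit false

namespace Crest.Agent.R287

/-- (F1) -/
theorem Mtot_toRing_eq_countP (l : List PL) (h : ∀ i : Fin l.length, IsPRing l[i]) (v : List ℕ) :
    Mtot (fun i : Fin l.length => toRing l[i] (h i)) v
      = l.flatten.countP (fun p => decide (v <+: p)) := by
  unfold Mtot
  simp_rw [M_eq_countP]
  rw [List.countP_flatten]
  exact Fin.sum_univ_fun_getElem l (fun P => P.countP (fun p => decide (v <+: p)))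

/-- the nonempty suffixes of `t` -/
theorem tails_dropLast_cons (a : ℕ) (t : List ℕ) :
    (a :: t).tails.dropLast = (a :: t) :: t.tails.dropLast := by
  rw [List.tails_cons, List.dropLast_cons_of_ne_nil]
  intro h
  have := congrArg List.length h
  simp at this

theorem tails_dropLast_nil : ([] : List ℕ).tails.dropLast = [] := by simp

theorem mem_tails_dropLast {t q : List ℕ} : q ∈ t.tails.dropLast ↔ q <:+ t ∧ q ≠ [] := by
  induction t with
  | nil => simp
  | cons a t ih =>
    rw [tails_dropLast_cons, List.mem_cons, ih, List.suffix_cons_iff]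
    constructor
    · rintro (rfl | ⟨h1, h2⟩)
      · exact ⟨Or.inl rfl, by simp⟩
      · exact ⟨Or.inr h1, h2⟩
    · rintro ⟨rfl | h1, h2⟩
      · exact Or.inl rfl
      · exact Or.inr ⟨h1, h2⟩

theorem isChain_tails_dropLast (t : List ℕ) : ∀ (p h : List ℕ), p.tail = t →
    List.IsChain (fun p q : List ℕ => p.tail <+: q) (p :: (t.tails.dropLast ++ [h])) := by
  induction t with
  | nil =>
    intro p h hp
    rw [tails_dropLast_nil]
    simp [hp]
  | cons a t ih =>
    intro p h hp
    rw [tails_dropLast_cons, List.cons_append, List.isChain_cons_cons]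
    exact ⟨by rw [hp], ih (a :: t) h rfl⟩

theorem exists_eq_append_lastW {X : PL} (hX : X ≠ []) : ∃ X', X = X' ++ [lastW X] := by
  refine ⟨X.dropLast, ?_⟩
  rw [lastW, List.getLastD_eq_getLast?, List.getLast?_eq_some_getLast hX, Option.getD_some,
    List.dropLast_append_getLast]

/-- (F2) closing an open chain through the empty word gives a ring -/
theorem isPRing_closeR {X : PL} (hX : X ≠ [])
    (hch : List.IsChain (fun p q : List ℕ => p.tail <+: q) X) (hpos : ∀ p ∈ X, p ≠ []) :
    IsPRing (closeR X) := by
  refine ⟨by simp [closeR, hX], ?_, ?_⟩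
  · intro p hp
    rcases List.mem_append.1 hp with hp | hp
    · exact hpos p hp
    · exact (mem_tails_dropLast.1 hp).2
  · obtain ⟨X', hX'⟩ := exists_eq_append_lastW hX
    have e : closeR X ++ [(closeR X).headD []]
        = X' ++ lastW X :: ((lastW X).tail.tails.dropLast ++ [(closeR X).headD []]) := by
      rw [closeR]
      nth_rewrite 1 [hX']
      simp
    rw [e, List.isChain_split]
    refine ⟨by rw [← hX']; exact hch, ?_⟩
    exact isChain_tails_dropLast _ _ _ rfl

theorem length_lt_of_mem_tails_dropLast {X : PL} {q : List ℕ}
    (hq : q ∈ (lastW X).tail.tails.dropLast) : q.length < (lastW X).length := by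
  obtain ⟨h1, h2⟩ := mem_tails_dropLast.1 hq
  have h3 := h1.length_le
  have h4 := List.length_pos_iff.2 h2
  rw [List.length_tail] at h3
  omega

/-- words of `closeR X` not coming from `X` are shorter than the last word -/
theorem mem_closeR {X : PL} {q : List ℕ} (hq : q ∈ closeR X) :
    q ∈ X ∨ (q.length < (lastW X).length ∧ q <:+ (lastW X).tail ∧ q ≠ []) := by
  rcases List.mem_append.1 hq with h | h
  · exact Or.inl h
  · exact Or.inr ⟨length_lt_of_mem_tails_dropLast h, mem_tails_dropLast.1 h⟩

theorem subset_closeR (X : PL) : X ⊆ closeR X := List.subset_append_left _ _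

/-- (F2) covered occurrences of long words are not changed by closing -/
theorem countP_closeR {X : PL} {v : List ℕ} (hv : (lastW X).length ≤ v.length) :
    (closeR X).countP (fun p => decide (v <+: p)) = X.countP (fun p => decide (v <+: p)) := by
  rw [closeR, List.countP_append]
  have : (lastW X).tail.tails.dropLast.countP (fun p => decide (v <+: p)) = 0 := by
    rw [List.countP_eq_zero]
    intro q hq
    have h1 := length_lt_of_mem_tails_dropLast hq
    simp only [decide_eq_true_eq]
    intro h2
    have := h2.length_le
    omega
  omega

theorem countP_flatten_map_closeR (l : List PL) (v : List ℕ)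
    (h : ∀ X ∈ l, (lastW X).length ≤ v.length) :
    (l.map closeR).flatten.countP (fun p => decide (v <+: p))
      = l.flatten.countP (fun p => decide (v <+: p)) := by
  induction l with
  | nil => rfl
  | cons X l ih =>
    rw [List.map_cons, List.flatten_cons, List.flatten_cons, List.countP_append,
      List.countP_append, countP_closeR (h X (by simp)), ih (fun Y hY => h Y (by simp [hY]))]

/-- covered occurrences of `v` in the family of rings of a state -/
theorem countP_famS (st : St) (v : List ℕ) (h : ∀ X ∈ st.1, (lastW X).length ≤ v.length) :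
    (famS st).flatten.countP (fun p => decide (v <+: p))
      = (st.1.flatten ++ st.2.flatten).countP (fun p => decide (v <+: p)) := by
  rw [famS, List.flatten_append, List.countP_append, List.countP_append,
    countP_flatten_map_closeR _ _ h]
  omega

/-- total count of the family of a state -/
theorem Mtot_famS (st : St) (hf : ∀ i : Fin (famS st).length, IsPRing (famS st)[i]) (v : List ℕ)
    (h : ∀ X ∈ st.1, (lastW X).length ≤ v.length) :
    Mtot (fun i : Fin (famS st).length => toRing (famS st)[i] (hf i)) v
      = (st.1.flatten ++ st.2.flatten).countP (fun p => decide (v <+: p)) := by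
  rw [Mtot_toRing_eq_countP, countP_famS st v h]

end Crest.Agent.R287
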