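import Crest.Agent.R287.Core

/-!
# Row 287: evolution of the one-pass process, no candidate is left

`Evo m st st'`: closed rings persist, and every open chain of `st` is a block of an open chain of
`st'` or of a closed ring of `st'` whose last word has length `≤ m`.
-/

set_option autoImplicit false

namespace Crest.Agent.R287.IFin

theorem lastW_append {X Y : PL} (h : Y ≠ []) : lastW (X ++ Y) = lastW Y := by
  unfold lastW
  cases Y with
  | nil => exact absurd rfl h
  | cons a l =>
    rw [List.getLastD_eq_getLast?, List.getLastD_eq_getLast?, List.getLast?_append]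
    simp [List.getLast?_cons]

theorem lastW_mem {X : PL} (h : X ≠ []) : lastW X ∈ X := by
  unfold lastW
  rw [List.getLastD_eq_getLast?, List.getLast?_eq_some_getLast h]
  exact List.getLast_mem h

/-- `X` is a block of `Z`; the word before the block (if any) has length `≤ m` -/
def Blk (m : ℕ) (X Z : PL) : Prop :=
  ∃ pre post, Z = pre ++ X ++ post ∧ (pre = [] ∨ (lastW pre).length ≤ m)

theorem Blk.refl (m : ℕ) (X : PL) : Blk m X X := ⟨[], [], by simp, Or.inl rfl⟩

theorem Blk.trans {m : ℕ} {X Y Z : PL} (h : Blk m X Y) (h' : Blk m Y Z) : Blk m X Z := by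
  obtain ⟨p, q, rfl, hp⟩ := h
  obtain ⟨p', q', rfl, hp'⟩ := h'
  refine ⟨p' ++ p, q ++ q', by simp, ?_⟩
  by_cases hpe : p = []
  · subst hpe
    simpa using hp'
  · right
    rw [lastW_append hpe]
    exact hp.resolve_left hpe

theorem blk_ext (m : ℕ) (X : PL) : Blk m X (ext X) := ⟨[], [(lastW X).tail], by simp [ext], Or.inl rfl⟩

/-! ### merging -/

theorem pick_fst (p : PL → Bool) (acc : List PL) :
    ((pick p acc).1 = [] ∧ (pick p acc).2 = acc) ∨
    ((pick p acc).1 ∈ acc ∧ p (pick p acc).1 = true ∧
      ∃ A B, acc = A ++ (pick p acc).1 :: B ∧ (pick p acc).2 = A ++ B) := by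
  unfold pick
  cases hf : acc.find? p with
  | none =>
    left
    refine ⟨rfl, ?_⟩
    rw [List.find?_eq_none] at hf
    exact List.eraseP_of_forall_not (fun a ha => by simpa using hf a ha)
  | some Y =>
    right
    have h1 := List.mem_of_find?_eq_some hf
    have h2 := List.find?_some hf
    refine ⟨h1, h2, ?_⟩
    simp only [Option.getD_some]
    rw [List.find?_eq_some_iff_append] at hf
    obtain ⟨_, A, B, rfl, hA⟩ := hf
    refine ⟨A, B, rfl, ?_⟩
    rw [List.eraseP_append_right _ (fun a ha => by simpa using hA a ha)]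
    simp [h2]

theorem pick_mem (p : PL → Bool) (acc : List PL) {Z : PL} (hZ : Z ∈ acc) :
    Z = (pick p acc).1 ∨ Z ∈ (pick p acc).2 := by
  rcases pick_fst p acc with ⟨_, h2⟩ | ⟨_, _, A, B, h3, h4⟩
  · right; rw [h2]; exact hZ
  · rw [h3] at hZ
    rw [h4]
    simp only [List.mem_append, List.mem_cons] at hZ ⊢
    tauto

theorem pick_snd_subset (p : PL → Bool) (acc : List PL) {Z : PL} (hZ : Z ∈ (pick p acc).2) :
    Z ∈ acc := by
  rcases pick_fst p acc with ⟨_, h2⟩ | ⟨_, _, A, B, h3, h4⟩
  · rwa [h2] at hZ
  · rw [h4] at hZ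
    rw [h3]
    simp only [List.mem_append, List.mem_cons] at hZ ⊢
    tauto

/-- facts about `mergeAll` needed for the evolution -/
theorem mergeAll_spec (m : ℕ) (l : List PL) (hl : ∀ X ∈ l, X ≠ [] ∧ (lastW X).length ≤ m) :
    (∀ Z ∈ mergeAll l, Z ≠ [] ∧ (lastW Z).length ≤ m ∧ ∃ Y ∈ l, lastW Z = lastW Y) ∧
    ∀ X ∈ l, ∃ Z ∈ mergeAll l, Blk m X Z := by
  induction l with
  | nil => simp [mergeAll]
  | cons X l ih =>
    have hX := hl X (by simp)
    obtain ⟨ih1, ih2⟩ := ih (fun Y hY => hl Y (by simp [hY]))
    have hmc : mergeAll (X :: l) = insertOpen X (mergeAll l) := rfl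
    rw [hmc]
    set acc := mergeAll l with hacc
    unfold insertOpen
    simp only
    set r := pick (fun Y => linkB X Y) acc with hr
    set q := pick (fun Z => linkB Z (X ++ r.1)) r.2 with hq
    have hX1 : X ++ r.1 ≠ [] := by simp [hX.1]
    -- last of the new member
    have hr1 : r.1 = [] ∨ r.1 ∈ acc := by
      rcases pick_fst (fun Y => linkB X Y) acc with h | h
      · left; exact h.1
      · right; exact h.1
    have hr2 : ∀ Z ∈ r.2, Z ∈ acc := fun Z hZ => pick_snd_subset _ _ hZ
    have hq1 : q.1 = [] ∨ q.1 ∈ acc := by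
      rcases pick_fst (fun Z => linkB Z (X ++ r.1)) r.2 with h | h
      · left; exact h.1
      · right; exact hr2 _ h.1
    have hq2 : ∀ Z ∈ q.2, Z ∈ acc := fun Z hZ => hr2 _ (pick_snd_subset _ _ hZ)
    have hlastX1 : (lastW (X ++ r.1)).length ≤ m ∧ ∃ Y ∈ X :: l, lastW (X ++ r.1) = lastW Y := by
      by_cases hre : r.1 = []
      · rw [hre, List.append_nil]
        exact ⟨hX.2, X, by simp, rfl⟩
      · rw [lastW_append hre]
        obtain ⟨_, h2, Y, hY, h3⟩ := ih1 _ (hr1.resolve_left hre)
        exact ⟨h2, Y, by simp [hY], h3⟩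
    constructor
    · intro Z hZ
      rw [List.mem_cons] at hZ
      rcases hZ with rfl | hZ
      · refine ⟨by simp [hX.1], ?_⟩
        rw [lastW_append hX1]
        exact hlastX1
      · obtain ⟨h1, h2, Y, hY, h3⟩ := ih1 Z (hq2 Z hZ)
        exact ⟨h1, h2, Y, by simp [hY], h3⟩
    · intro Y hY
      rw [List.mem_cons] at hY
      have hnew : ∀ W, (W = X ∨ W = r.1 ∨ W = q.1) → Blk m W (q.1 ++ (X ++ r.1)) := by
        intro W hW
        have hqlast : q.1 = [] ∨ (lastW q.1).length ≤ m := by
          rcases hq1 with h | h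
          · exact Or.inl h
          · exact Or.inr (ih1 _ h).2.1
        rcases hW with rfl | rfl | rfl
        · exact ⟨q.1, r.1, by simp, hqlast⟩
        · refine ⟨q.1 ++ X, [], by simp, ?_⟩
          right
          rw [lastW_append hX.1]
          exact hX.2
        · exact ⟨[], X ++ r.1, by simp, Or.inl rfl⟩
      rcases hY with rfl | hY
      · exact ⟨q.1 ++ (Y ++ r.1), by simp, hnew Y (Or.inl rfl)⟩
      · obtain ⟨Z, hZ, hYZ⟩ := ih2 Y hY
        rcases pick_mem (fun Y => linkB X Y) acc hZ with h | h
        · exact ⟨_, List.mem_cons_self, hYZ.trans (hnew Z (Or.inr (Or.inl h)))⟩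
        · rcases pick_mem (fun Z => linkB Z (X ++ r.1)) r.2 h with h' | h'
          · exact ⟨_, List.mem_cons_self, hYZ.trans (hnew Z (Or.inr (Or.inr h')))⟩
          · exact ⟨Z, by simp only [List.mem_cons]; right; exact h', hYZ⟩

/-! ### evolution -/

/-- all open chains are nonempty and their last words have length `n` -/
def LastInv (n : ℕ) (st : St) : Prop := ∀ X ∈ st.1, X ≠ [] ∧ (lastW X).length = n

/-- evolution relation -/
structure Evo (m : ℕ) (st st' : St) : Prop where
  rings : ∀ P ∈ st.2, P ∈ st'.2
  opens : ∀ X ∈ st.1, (∃ Z ∈ st'.1, Blk m X Z) ∨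
    ∃ V ∈ st'.2, Blk m X V ∧ V ≠ [] ∧ (lastW V).length ≤ m

theorem Evo.refl (m : ℕ) (st : St) : Evo m st st :=
  ⟨fun _ h => h, fun X hX => Or.inl ⟨X, hX, Blk.refl m X⟩⟩

theorem Evo.trans {m : ℕ} {st st' st'' : St} (h : Evo m st st') (h' : Evo m st' st'') :
    Evo m st st'' := by
  refine ⟨fun P hP => h'.rings _ (h.rings _ hP), fun X hX => ?_⟩
  rcases h.opens X hX with ⟨Z, hZ, hXZ⟩ | ⟨V, hV, hXV, hl⟩
  · rcases h'.opens Z hZ with ⟨Z', hZ', hZZ'⟩ | ⟨V, hV, hZV, hl⟩
    · exact Or.inl ⟨Z', hZ', hXZ.trans hZZ'⟩
    · exact Or.inr ⟨V, hV, hXZ.trans hZV, hl⟩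
  · exact Or.inr ⟨V, h'.rings _ hV, hXV, hl⟩

theorem evo_ext (m : ℕ) (st : St) : Evo m st (st.1.map ext, st.2) :=
  ⟨fun _ h => h, fun X hX => Or.inl ⟨ext X, List.mem_map_of_mem hX, blk_ext m X⟩⟩

theorem evo_issue (m m' : ℕ) (st : St) (K : PL) : Evo m st (issue m' st K) := by
  unfold issue
  split_ifs
  · exact ⟨fun _ h => h, fun X hX => Or.inl ⟨X, List.mem_cons_of_mem _ hX, Blk.refl m X⟩⟩
  · exact Evo.refl m st

theorem evo_addInput (m m' : ℕ) (st : St) (s : Word) : Evo m st (addInput m' st s) := by
  unfold addInput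
  split_ifs
  · exact ⟨fun _ h => h, fun X hX => Or.inl ⟨X, List.mem_cons_of_mem _ hX, Blk.refl m X⟩⟩
  · exact Evo.refl m st

theorem evo_foldl {α : Type*} (m : ℕ) (f : St → α → St) (hf : ∀ st a, Evo m st (f st a))
    (l : List α) (st : St) : Evo m st (l.foldl f st) := by
  induction l generalizing st with
  | nil => exact Evo.refl m st
  | cons a l ih => exact (hf st a).trans (ih _)

theorem issue_snd (m : ℕ) (st : St) (K : PL) : (issue m st K).2 = st.2 := by
  unfold issue; split_ifs <;> rfl

theorem addInput_snd (m : ℕ) (st : St) (s : Word) : (addInput m st s).2 = st.2 := by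
  unfold addInput; split_ifs <;> rfl

theorem foldl_snd {α : Type*} (f : St → α → St) (hf : ∀ st a, (f st a).2 = st.2)
    (l : List α) (st : St) : (l.foldl f st).2 = st.2 := by
  induction l generalizing st with
  | nil => rfl
  | cons a l ih => rw [List.foldl_cons, ih, hf]

/-! ### lengths -/

theorem foldr_min_le (l : List ℕ) (b : ℕ) : l.foldr min b ≤ b ∧ ∀ a ∈ l, l.foldr min b ≤ a := by
  induction l with
  | nil => simp
  | cons c l ih =>
    simp only [List.foldr_cons]
    refine ⟨(min_le_right _ _).trans ih.1, ?_⟩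
    intro a ha
    rw [List.mem_cons] at ha
    rcases ha with rfl | ha
    · exact min_le_left _ _
    · exact (min_le_right _ _).trans (ih.2 a ha)

theorem foldr_min_mem (l : List ℕ) (b : ℕ) : l.foldr min b = b ∨ l.foldr min b ∈ l := by
  induction l with
  | nil => simp
  | cons c l ih =>
    simp only [List.foldr_cons]
    rcases min_choice c (l.foldr min b) with h | h
    · right; rw [h]; simp
    · rw [h]
      rcases ih with h' | h'
      · left; exact h'
      · right; simp [h']

theorem levN_le {P : PL} {p : Word} (hp : p ∈ P) : levN P ≤ p.length - 1 := by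
  unfold levN
  exact (foldr_min_le _ _).2 _ (List.mem_map_of_mem (f := fun p : Word => p.length - 1) hp)

theorem exists_levN {P : PL} (hP : P ≠ []) (h1 : 1 ≤ levN P) :
    ∃ p ∈ P, p.length - 1 = levN P := by
  rcases foldr_min_mem (P.map fun p => p.length - 1) (headW P).length with h | h
  · exfalso
    cases P with
    | nil => exact hP rfl
    | cons a l =>
      have h2 : levN (a :: l) = (headW (a :: l)).length := h
      have h3 := levN_le (P := a :: l) (p := a) (by simp)
      simp only [headW, List.headD_cons] at h2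
      omega
  · rw [List.mem_map] at h
    obtain ⟨p, hp, h2⟩ := h
    exact ⟨p, hp, h2⟩

theorem length_bottom {P : PL} (hP : P ≠ []) (h1 : 1 ≤ levN P) : (bottom P).length = levN P := by
  obtain ⟨p, hp, h2⟩ := exists_levN hP h1
  unfold bottom
  cases hf : P.find? fun p => p.length - 1 == levN P with
  | none =>
    rw [List.find?_eq_none] at hf
    exact absurd (by simpa using h2) (hf p hp)
  | some q =>
    have h3 := List.find?_some hf
    simp only [beq_iff_eq] at h3
    simp only [Option.getD_some, List.length_tail]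
    exact h3

theorem length_xw {P : PL} {m : ℕ} (hm : 1 ≤ m) (h : levN P = m + P.length) :
    (xw P).length = m := by
  have hP : P ≠ [] := by
    rintro rfl
    simp [levN, headW] at h
    omega
  unfold xw
  rw [List.length_take, length_bottom hP (by omega)]
  omega

theorem lastInv_ext {n : ℕ} {st : St} (h : LastInv (n + 1) st) : LastInv n (st.1.map ext, st.2) := by
  intro X hX
  rw [List.mem_map] at hX
  obtain ⟨Y, hY, rfl⟩ := hX
  obtain ⟨h1, h2⟩ := h Y hY
  refine ⟨by simp [ext], ?_⟩
  unfold ext
  rw [lastW_append (by simp)]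
  simp [lastW] at h2 ⊢
  omega

theorem lastInv_issue {m : ℕ} (hm : 1 ≤ m) {st : St} (h : LastInv m st) (K : PL) :
    LastInv m (issue m st K) := by
  unfold issue
  split_ifs with hc
  · intro X hX
    rw [List.mem_cons] at hX
    rcases hX with rfl | hX
    · simp only [Bool.and_eq_true, decide_eq_true_eq] at hc
      exact ⟨by simp, by simpa [lastW] using length_xw hm hc.1⟩
    · exact h X hX
  · exact h

theorem lastInv_addInput {m : ℕ} {st : St} (h : LastInv m st) (s : Word) :
    LastInv m (addInput m st s) := by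
  unfold addInput
  split_ifs with hc
  · intro X hX
    rw [List.mem_cons] at hX
    rcases hX with rfl | hX
    · simp only [Bool.and_eq_true, decide_eq_true_eq] at hc
      exact ⟨by simp, by simpa [lastW] using hc.1⟩
    · exact h X hX
  · exact h

theorem lastInv_foldl {α : Type*} {m : ℕ} (f : St → α → St)
    (hf : ∀ st a, LastInv m st → LastInv m (f st a))
    (l : List α) (st : St) (h : LastInv m st) : LastInv m (l.foldl f st) := by
  induction l generalizing st with
  | nil => exact h
  | cons a l ih => exact ih _ (hf st a h)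

/-- the state inside level `m` after the extension of the open chains -/
def stExt (st : St) : St := (st.1.map ext, st.2)
/-- the state inside level `m` after issuing -/
def stIss (m : ℕ) (st : St) : St := (stExt st).2.foldl (issue m) (stExt st)
/-- the state inside level `m` after adding the inputs -/
def stInp (S : List Word) (m : ℕ) (st : St) : St := S.foldl (addInput m) (stIss m st)
/-- the merged open chains -/
def stOp (S : List Word) (m : ℕ) (st : St) : List PL := mergeAll (stInp S m st).1

theorem level_eq (S : List Word) (m : ℕ) (st : St) :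
    level S m st = ((stOp S m st).filter (fun X => !linkB X X),
      (stInp S m st).2 ++ (stOp S m st).filter (fun X => linkB X X)) := rfl

theorem stInp_snd (S : List Word) (m : ℕ) (st : St) : (stInp S m st).2 = st.2 := by
  unfold stInp stIss
  rw [foldl_snd _ (addInput_snd m), foldl_snd _ (issue_snd m)]
  rfl

theorem lastInv_stInp {m : ℕ} (hm : 1 ≤ m) (S : List Word) {st : St} (h : LastInv (m + 1) st) :
    LastInv m (stInp S m st) :=
  lastInv_foldl _ (fun _ s h => lastInv_addInput h s) _ _
    (lastInv_foldl _ (fun _ K h => lastInv_issue hm h K) _ _ (lastInv_ext h))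

theorem evo_close {m m' : ℕ} (hm : m' ≤ m) (S : List Word) (st : St)
    (h : LastInv m' (stInp S m' st)) : Evo m (stInp S m' st) (level S m' st) := by
  have hspec := mergeAll_spec m (stInp S m' st).1 (fun X hX => ⟨(h X hX).1, by rw [(h X hX).2]; exact hm⟩)
  rw [level_eq]
  refine ⟨fun P hP => List.mem_append_left _ hP, fun X hX => ?_⟩
  obtain ⟨Z, hZ, hXZ⟩ := hspec.2 X hX
  by_cases hl : linkB Z Z = true
  · right
    exact ⟨Z, List.mem_append_right _ (List.mem_filter.mpr ⟨hZ, hl⟩), hXZ, (hspec.1 Z hZ).1,
      (hspec.1 Z hZ).2.1⟩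
  · left
    exact ⟨Z, List.mem_filter.mpr ⟨hZ, by simpa using hl⟩, hXZ⟩

theorem lastInv_level {m : ℕ} (hm : 1 ≤ m) (S : List Word) {st : St} (h : LastInv (m + 1) st) :
    LastInv m (level S m st) := by
  have h1 := lastInv_stInp hm S h
  have hspec := mergeAll_spec m (stInp S m st).1 (fun X hX => ⟨(h1 X hX).1, (h1 X hX).2.le⟩)
  rw [level_eq]
  intro X hX
  simp only [List.mem_filter] at hX
  obtain ⟨h2, _, Y, hY, h3⟩ := hspec.1 X hX.1
  exact ⟨h2, by rw [h3]; exact (h1 Y hY).2⟩

theorem evo_level_mid {m m' : ℕ} (hm' : 1 ≤ m') (hm : m' ≤ m) (S : List Word) (st : St)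
    (h : LastInv (m' + 1) st) : Evo m st (level S m' st) := by
  have h1 : Evo m st (stInp S m' st) :=
    ((evo_ext m st).trans (evo_foldl m _ (fun st K => evo_issue m m' st K) _ _)).trans
      (evo_foldl m _ (fun st s => evo_addInput m m' st s) _ _)
  exact h1.trans (evo_close hm S st (lastInv_stInp hm' S h))

/-- rings created at level `m` have level `< m` -/
theorem ring_level {m : ℕ} (hm : 1 ≤ m) (S : List Word) {st : St} (h : LastInv (m + 1) st) {P : PL}
    (hP : P ∈ (level S m st).2) : P ∈ st.2 ∨ levN P < m := by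
  have h1 := lastInv_stInp hm S h
  have hspec := mergeAll_spec m (stInp S m st).1 (fun X hX => ⟨(h1 X hX).1, (h1 X hX).2.le⟩)
  rw [level_eq] at hP
  simp only [List.mem_append, List.mem_filter] at hP
  rcases hP with hP | ⟨hP, _⟩
  · left; rwa [stInp_snd] at hP
  · right
    obtain ⟨h2, h3, _⟩ := hspec.1 P hP
    have := levN_le (lastW_mem h2)
    omega

/-! ### the states `stt` -/

theorem lastInv_stt (S : List Word) : ∀ i, i ≤ maxLen S → LastInv (maxLen S - i + 1) (stt S i) := by
  intro i
  induction i with
  | zero => intro _ X hX; simp [stt] at hX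
  | succ i ih =>
    intro hi
    have e : maxLen S - (i + 1) + 1 = maxLen S - i := by omega
    rw [e]
    exact lastInv_level (by omega) S (ih (by omega))

theorem evo_stt (S : List Word) (m : ℕ) (i : ℕ) (hi : maxLen S - i ≤ m) :
    ∀ j, i ≤ j → j ≤ maxLen S → Evo m (stt S i) (stt S j) := by
  intro j hij
  induction j, hij using Nat.le_induction with
  | base => intro _; exact Evo.refl _ _
  | succ j hij ih =>
    intro hj
    exact (ih (by omega)).trans (evo_level_mid (by omega) (by omega) S _ (lastInv_stt S j (by omega)))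

theorem ring_stt (S : List Word) (K : PL) (i : ℕ) (hi : maxLen S - i ≤ levN K) :
    ∀ j, i ≤ j → j ≤ maxLen S → K ∈ (stt S j).2 → K ∈ (stt S i).2 := by
  intro j hij
  induction j, hij using Nat.le_induction with
  | base => intro _ h; exact h
  | succ j hij ih =>
    intro hj hK
    rcases ring_level (by omega) S (lastInv_stt S j (by omega)) hK with h | h
    · exact ih (by omega) h
    · omega

/-! ### vertices of blocks -/

theorem mem_column' (p q v : Word) : v ∈ column p q ↔ v <+: q ∧ p.length - 1 ≤ v.length := by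
  unfold column
  simp only [List.mem_map, List.mem_range]
  constructor
  · rintro ⟨k, hk, rfl⟩
    refine ⟨List.take_prefix _ _, ?_⟩
    rw [List.length_take]
    omega
  · rintro ⟨h1, h2⟩
    have h3 := h1.length_le
    refine ⟨v.length - (p.length - 1), by omega, ?_⟩
    have e : p.length - 1 + (v.length - (p.length - 1)) = v.length := by omega
    rw [e]
    exact (List.prefix_iff_eq_take.mp h1).symm

theorem mem_nodes (P : PL) (v : Word) :
    v ∈ nodes P ↔ ∃ (s : ℕ) (p q : Word), (lastW P :: P)[s]? = some p ∧ P[s]? = some q ∧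
      v <+: q ∧ p.length - 1 ≤ v.length := by
  unfold nodes
  simp only [List.mem_flatMap]
  constructor
  · rintro ⟨⟨p, q⟩, hpq, hv⟩
    rw [List.mem_iff_getElem?] at hpq
    obtain ⟨s, hs⟩ := hpq
    rw [List.getElem?_zip_eq_some] at hs
    rw [mem_column'] at hv
    exact ⟨s, p, q, hs.1, hs.2, hv⟩
  · rintro ⟨s, p, q, hp, hq, h1, h2⟩
    refine ⟨(p, q), ?_, (mem_column' _ _ _).mpr ⟨h1, h2⟩⟩
    rw [List.mem_iff_getElem?]
    exact ⟨s, List.getElem?_zip_eq_some.mpr ⟨hp, hq⟩⟩

theorem length_lt_of_mem_closure {t q : Word} {m : ℕ} (ht : t.length < m)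
    (hq : q ∈ t.tails.dropLast) : q.length < m := by
  have h1 : q ∈ t.tails := List.mem_of_mem_dropLast hq
  rw [List.mem_tails] at h1
  have := h1.length_le
  omega

/-- the vertices of length `≥ m` of `closeR X` are vertices of every ring containing `X` -/
theorem nodes_block {m : ℕ} (hm : 1 ≤ m) {X V : PL} (hX : (lastW X).length ≤ m)
    (hXV : Blk m X V) (hV : (lastW V).length ≤ m) {v : Word} (hv : v ∈ nodes (closeR X))
    (hl : m ≤ v.length) : v ∈ nodes V := by
  rw [mem_nodes] at hv ⊢
  obtain ⟨s, p, q, hp, hq, h1, h2⟩ := hv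
  obtain ⟨pre, post, rfl, hpre⟩ := hXV
  have hsX : s < X.length := by
    by_contra hc
    have hmem : q ∈ (lastW X).tail.tails.dropLast := by
      unfold closeR at hq
      rw [List.getElem?_append_right (by omega)] at hq
      exact List.mem_of_getElem? hq
    have h3 := length_lt_of_mem_closure (t := (lastW X).tail) (m := m)
      (by rw [List.length_tail]; omega) hmem
    have h4 := h1.length_le
    omega
  have hXs : X[s]? = some q := by
    unfold closeR at hq
    rwa [List.getElem?_append_left hsX] at hq
  have hq' : (pre ++ X ++ post)[pre.length + s]? = some q := by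
    rw [List.append_assoc, List.getElem?_append_right (by omega)]
    rw [Nat.add_sub_cancel_left, List.getElem?_append_left hsX]
    exact hXs
  cases s with
  | zero =>
    rcases List.eq_nil_or_concat' pre with rfl | ⟨pre', a, rfl⟩
    · exact ⟨0, lastW ([] ++ X ++ post), q, by simp, by simpa using hq', h1, by omega⟩
    · refine ⟨(pre' ++ [a]).length + 0, a, q, ?_, hq', h1, ?_⟩
      · have hlen : (pre' ++ [a]).length + 0 = pre'.length + 1 := by simp
        rw [hlen, List.getElem?_cons_succ, List.append_assoc, List.append_assoc,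
          List.getElem?_append_right (by omega)]
        simp
      · have h5 : (lastW (pre' ++ [a])).length ≤ m := hpre.resolve_left (by simp)
        rw [lastW_append (by simp)] at h5
        simp only [lastW, List.getLastD_eq_getLast?, List.getLast?_singleton, Option.getD_some] at h5
        omega
  | succ s =>
    refine ⟨pre.length + (s + 1), p, q, ?_, hq', h1, h2⟩
    rw [List.getElem?_cons_succ] at hp
    unfold closeR at hp
    rw [List.getElem?_append_left (by omega)] at hp
    have e : pre.length + (s + 1) = (pre.length + s) + 1 := by omega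
    rw [e, List.getElem?_cons_succ, List.append_assoc, List.getElem?_append_right (by omega),
      Nat.add_sub_cancel_left, List.getElem?_append_left (by omega)]
    exact hp

/-! ### no candidate is left -/

theorem length_of_inU {z v : Word} {w : ℕ} (h : inU z w v = true) : z.length - w ≤ v.length := by
  unfold inU at h
  rw [List.any_eq_true] at h
  obtain ⟨r, _, h2⟩ := h
  simp only [Bool.and_eq_true, decide_eq_true_eq] at h2
  omega

theorem visU_iff (K A : PL) :
    visU K A = true ↔ ∃ v ∈ nodes A, inU (bottom K) K.length v = true := by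
  unfold visU
  rw [List.any_eq_true]

theorem candB_iff (fam : List PL) (K : PL) : candB fam K = true ↔ wrapB K = true ∧
    (∀ A ∈ fam, visU K A = true → wrapB A = true ∧ levN K ≤ levN A) ∧
    (∀ A ∈ fam, visU K A = true → ∀ B ∈ fam, visU K B = true → linkedB A B = false) := by
  unfold candB
  simp only [Bool.and_eq_true, List.all_eq_true, Bool.or_eq_true, Bool.not_eq_true',
    decide_eq_true_eq, List.mem_filter]
  constructor
  · rintro ⟨⟨h1, h2⟩, h3⟩
    refine ⟨h1, fun A hA hv => ?_, fun A hA hv B hB hv' => h3 A ⟨hA, hv⟩ B ⟨hB, hv'⟩⟩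
    rcases h2 A hA with h | h
    · rw [hv] at h; exact absurd h (by simp)
    · exact h
  · rintro ⟨h1, h2, h3⟩
    refine ⟨⟨h1, fun A hA => ?_⟩, fun A hA B hB => h3 A hA.1 hA.2 B hB.1 hB.2⟩
    by_cases hv : visU K A = true
    · exact Or.inr (h2 A hA hv)
    · left; simpa using hv

/-- transfer of the candidate condition from the final family to a state -/
theorem candB_of_final {m : ℕ} (hm : 1 ≤ m) {st : St} {F : List PL} {K : PL}
    (hK : levN K = m + K.length) (hlast : LastInv m st)
    (hrings : ∀ P ∈ st.2, P ∈ F)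
    (hopens : ∀ X ∈ st.1, ∃ V ∈ F, Blk m X V ∧ V ≠ [] ∧ (lastW V).length ≤ m)
    (h : candB F K = true) : candB (famS st) K = true := by
  rw [candB_iff] at h ⊢
  obtain ⟨h1, h2, h3⟩ := h
  have hKne : K ≠ [] := by
    rintro rfl
    simp [levN, headW] at hK
    omega
  have hbot := length_bottom hKne (by omega)
  have key : ∀ A ∈ famS st, visU K A = true → A ∈ F := by
    intro A hA hv
    unfold famS at hA
    rw [List.mem_append, List.mem_map] at hA
    rcases hA with hA | ⟨X, hX, rfl⟩
    · exact hrings A hA
    · exfalso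
      rw [visU_iff] at hv
      obtain ⟨v, hv, hu⟩ := hv
      have hlen := length_of_inU hu
      rw [hbot] at hlen
      obtain ⟨V, hV, hXV, hne, hl⟩ := hopens X hX
      have hvV := nodes_block hm (hlast X hX).2.le hXV hl hv (by omega)
      have := (h2 V hV ((visU_iff K V).mpr ⟨v, hvV, hu⟩)).2
      have h5 := levN_le (lastW_mem hne)
      omega
  exact ⟨h1, fun A hA hv => h2 A (key A hA hv) hv,
    fun A hA hv B hB hv' => h3 A (key A hA hv) hv B (key B hB hv') hv'⟩

theorem lastW_singleton (x : Word) : lastW [x] = x := by simp [lastW]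

theorem self_mem_nodes_closeR {x : Word} : x ∈ nodes (closeR [x]) := by
  rw [mem_nodes]
  refine ⟨0, lastW (closeR [x]), x, by simp, by simp [closeR], List.prefix_refl _, ?_⟩
  unfold closeR
  rw [lastW_singleton]
  by_cases h : x.tail.tails.dropLast = []
  · rw [h, List.append_nil, lastW_singleton]
    omega
  · rw [lastW_append h]
    have h1 := lastW_mem h
    have h2 := List.mem_of_mem_dropLast h1
    rw [List.mem_tails] at h2
    have h3 := h2.length_le
    rw [List.length_tail] at h3
    omega

/-- at the end there are no open chains -/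
theorem opens_final_nil (S : List Word) : (stt S (maxLen S)).1 = [] := by
  by_contra hc
  obtain ⟨X, hX⟩ := List.exists_mem_of_ne_nil _ hc
  have h1 := lastInv_stt S (maxLen S) le_rfl X hX
  have h2 : linkB X X = true := by
    unfold linkB
    have : (lastW X).tail = [] := by
      rw [← List.length_eq_zero_iff, List.length_tail]
      omega
    rw [this]
    simp
  cases hL : maxLen S with
  | zero =>
    rw [hL] at hX
    simp [stt] at hX
  | succ n =>
    rw [hL] at hX
    have h3 : X ∈ (level S (maxLen S - n) (stt S n)).1 := hX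
    rw [level_eq] at h3
    simp only [List.mem_filter, Bool.not_eq_true'] at h3
    rw [h2] at h3
    exact absurd h3.2 (by simp)

/-- **no candidate is left**.  `hU`: the issued word of a wrapping ring belongs to `U`. -/
theorem no_cand_of (S : List Word) (K : PL) (hK : K ∈ ringsOf S)
    (hU : wrapB K = true → inU (bottom K) K.length (xw K) = true) :
    candB (ringsOf S) K = false := by
  by_contra hc
  have hcand : candB (ringsOf S) K = true := by simpa using hc
  have hw : wrapB K = true := ((candB_iff _ _).mp hcand).1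
  have hw' : K.length < levN K := by simpa [wrapB] using hw
  have hKne : K ≠ [] := by
    rintro rfl
    simp [levN, headW] at hw'
  -- the level of the demand
  obtain ⟨m, hm⟩ : ∃ m, levN K = m + K.length := ⟨levN K - K.length, by omega⟩
  have hm1 : 1 ≤ m := by omega
  have hKpos : 0 < K.length := List.length_pos_iff.mpr hKne
  -- `levN K < maxLen S`
  have hmax : levN K < maxLen S := by
    by_contra hcm
    have := ring_stt S K 0 (by omega) (maxLen S) (Nat.zero_le _) le_rfl hK
    simp [stt] at this
  -- the state before level `m`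
  set i := maxLen S - m with hi
  have hi' : maxLen S - i = m := by omega
  have hKi : K ∈ (stt S i).2 :=
    ring_stt S K i (by omega) (maxLen S) (by omega) le_rfl hK
  have hlastI : LastInv (m + 1) (stt S i) := by
    have := lastInv_stt S i (by omega)
    rwa [hi'] at this
  -- later evolution
  have hev : ∀ st, Evo m st (level S m (stt S i)) →
      (∀ P ∈ st.2, P ∈ ringsOf S) ∧
      (∀ X ∈ st.1, ∃ V ∈ ringsOf S, Blk m X V ∧ V ≠ [] ∧ (lastW V).length ≤ m) := by
    intro st hst
    have h1 : level S m (stt S i) = stt S (i + 1) := by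
      show _ = level S (maxLen S - i) (stt S i)
      rw [hi']
    rw [h1] at hst
    have h2 := hst.trans (evo_stt S m (i + 1) (by omega) (maxLen S) (by omega) le_rfl)
    refine ⟨h2.rings, fun X hX => ?_⟩
    rcases h2.opens X hX with ⟨Z, hZ, _⟩ | h
    · rw [opens_final_nil] at hZ
      exact absurd hZ (by simp)
    · exact h
  -- the fold over the rings
  obtain ⟨A, B, hAB⟩ := List.append_of_mem hKi
  set stK := A.foldl (issue m) (stExt (stt S i)) with hstK
  have hIss : stIss m (stt S i) = B.foldl (issue m) (issue m stK K) := by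
    unfold stIss
    have : (stExt (stt S i)).2 = A ++ K :: B := hAB
    rw [this, List.foldl_append, List.foldl_cons]
  have hlastK : LastInv m stK :=
    lastInv_foldl _ (fun _ K h => lastInv_issue hm1 h K) _ _ (lastInv_ext hlastI)
  have hevIss : Evo m (stIss m (stt S i)) (level S m (stt S i)) := by
    refine Evo.trans (evo_foldl m _ (fun st s => evo_addInput m m st s) S _) ?_
    exact evo_close le_rfl S _ (lastInv_stInp hm1 S hlastI)
  have hev2 : Evo m (issue m stK K) (level S m (stt S i)) := by
    have := evo_foldl m _ (fun st K => evo_issue m m st K) B (issue m stK K)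
    rw [← hIss] at this
    exact this.trans hevIss
  have hev1 : Evo m stK (level S m (stt S i)) := (evo_issue m m stK K).trans hev2
  obtain ⟨hr1, ho1⟩ := hev _ hev1
  have hcK : candB (famS stK) K = true := candB_of_final hm1 hm hlastK hr1 ho1 hcand
  -- so it was issued
  have hiss : issue m stK K = ([xw K] :: stK.1, stK.2) := by
    unfold issue
    rw [if_pos]
    simp [hm, hcK]
  rw [hiss] at hev2
  obtain ⟨_, ho2⟩ := hev _ hev2
  obtain ⟨V, hV, hXV, hne, hl⟩ := ho2 [xw K] (by simp)
  have hxl := length_xw hm1 hm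
  have hxV : xw K ∈ nodes V :=
    nodes_block hm1 (by simp [lastW, hxl]) hXV hl self_mem_nodes_closeR (by omega)
  have := (((candB_iff _ _).mp hcand).2.1 V hV ((visU_iff K V).mpr ⟨xw K, hxV, hU hw⟩)).2
  have h5 := levN_le (lastW_mem hne)
  omega

end Crest.Agent.R287.IFin
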