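import Crest.Agent.R287.Core
import Crest.Agent.R287.PRing

/-!
Row 287: the word tests of `Core.lean` in terms of `Ring`: nodes, level, bottom, `xw`, `inU`, `visU`.
-/

set_option autoImplicit false

namespace Crest.Agent.R287

variable {P : PL} (h : IsPRing P)

/-! ### nodes -/

theorem zip_lastW (P : PL) : (lastW P :: P).zip P = cycPairs P := by
  unfold cycPairs lastW
  apply List.ext_getElem
  · simp only [List.length_zip, List.length_cons, List.length_dropLast]
    omega
  · intro n h1 h2
    simp only [List.getElem_zip]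
    cases n with
    | zero => simp
    | succ m => simp

include h in
theorem mem_nodes (v : Word) : v ∈ nodes P ↔ v ∈ visWords P := by
  unfold nodes visWords
  rw [zip_lastW]
  rw [List.mem_flatMap, List.mem_flatMap]
  have key : ∀ q ∈ cycPairs P, (v ∈ column q.1 q.2 ↔
      v ∈ (List.range (q.2.length + 2 - q.1.length)).map (fun k => q.2.take (q.1.length - 1 + k))) := by
    intro q hq
    rw [mem_cycPairs h.1] at hq
    obtain ⟨i, rfl⟩ := hq
    have h1 : 0 < (pz P (i - 1)).length := List.length_pos_iff.mpr (h.2.1 _ (pz_mem h.1 (i - 1)))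
    unfold column
    have e : (pz P i).length + 1 - ((pz P (i - 1)).length - 1) =
        (pz P i).length + 2 - (pz P (i - 1)).length := by omega
    simp only [e]
  constructor
  · rintro ⟨q, hq, hv⟩; exact ⟨q, hq, (key q hq).mp hv⟩
  · rintro ⟨q, hq, hv⟩; exact ⟨q, hq, (key q hq).mpr hv⟩

theorem mem_nodes_iff (v : Word) :
    v ∈ nodes P ↔ ∃ i : ℤ, win (toRing P h).κ i (i + v.length) = v ∧
      (toRing P h).Vis i (i + v.length) := by
  rw [mem_nodes h, mem_visWords_iff h]

/-- a visited window is a node -/
theorem win_mem_nodes {i j : ℤ} (hv : (toRing P h).Vis i j) : win (toRing P h).κ i j ∈ nodes P := by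
  rw [mem_nodes_iff h]
  have hij : i ≤ j := by
    have := (toRing P h).Fgt (i - 1)
    have := hv.1
    omega
  have e : i + ((win (toRing P h).κ i j).length : ℤ) = j := by rw [length_win]; omega
  exact ⟨i, by rw [e], by rw [e]; exact hv⟩

/-! ### level -/

theorem foldr_min_le (l : List ℕ) (a : ℕ) : l.foldr min a ≤ a ∧ ∀ x ∈ l, l.foldr min a ≤ x := by
  induction l with
  | nil => simp
  | cons b l ih =>
    simp only [List.foldr_cons, List.mem_cons]
    refine ⟨le_trans (min_le_right _ _) ih.1, ?_⟩
    rintro x (rfl | hx)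
    · exact min_le_left _ _
    · exact le_trans (min_le_right _ _) (ih.2 x hx)

theorem foldr_min_mem (l : List ℕ) (a : ℕ) : l.foldr min a = a ∨ l.foldr min a ∈ l := by
  induction l with
  | nil => simp
  | cons b l ih =>
    simp only [List.foldr_cons, List.mem_cons]
    rcases min_choice b (l.foldr min a) with hm | hm
    · right; left; exact hm
    · rw [hm]
      rcases ih with h1 | h1
      · left; exact h1
      · right; right; exact h1

include h in
theorem levN_le (p : Word) (hp : p ∈ P) : levN P + 1 ≤ p.length := by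
  have h1 := (foldr_min_le (P.map fun p => p.length - 1) (headW P).length).2 (p.length - 1)
    (List.mem_map.mpr ⟨p, hp, rfl⟩)
  have h2 := List.length_pos_iff.mpr (h.2.1 p hp)
  unfold levN
  omega

include h in
theorem exists_levN : ∃ p ∈ P, p.length = levN P + 1 := by
  obtain ⟨a, l, rfl⟩ := List.exists_cons_of_ne_nil h.1
  have ha := List.length_pos_iff.mpr (h.2.1 a (by simp))
  rcases foldr_min_mem ((a :: l).map fun p => p.length - 1) (headW (a :: l)).length with h1 | h1
  · have h2 := (foldr_min_le ((a :: l).map fun p => p.length - 1) (headW (a :: l)).length).2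
      (a.length - 1) (by simp)
    rw [h1] at h2
    simp only [headW, List.headD_cons] at h2
    omega
  · obtain ⟨p, hp, hpe⟩ := List.mem_map.mp h1
    refine ⟨p, hp, ?_⟩
    have := List.length_pos_iff.mpr (h.2.1 p hp)
    unfold levN
    omega

theorem lev_toRing : (toRing P h).lev = levN P := by
  apply le_antisymm
  · obtain ⟨p, hp, hpl⟩ := exists_levN h
    have := (le_lev_iff h (toRing P h).lev).mp le_rfl p hp
    omega
  · rw [le_lev_iff h]
    intro p hp
    have := levN_le h p hp
    omega

theorem wrapB_iff : wrapB P = true ↔ (toRing P h).Wrap := by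
  unfold wrapB Ring.Wrap
  rw [decide_eq_true_iff, lev_toRing h, toRing_w]
  omega

/-! ### bottom and the issued word -/

theorem tail_pz_eq_win (i : ℤ) :
    (pz P (i - 1)).tail = win (toRing P h).κ i ((toRing P h).F (i - 1)) := by
  have hpos := List.length_pos_iff.mpr (h.2.1 _ (pz_mem h.1 (i - 1)))
  rw [pz_eq_win h (i - 1), win_cons _ (by rw [toRing_F]; omega), sub_add_cancel, List.tail_cons]

/-- the bottom of a P-list is the window at a column of minimal level -/
theorem exists_bottom : ∃ z : ℤ, (toRing P h).F (z - 1) = z + levN P ∧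
    bottom P = win (toRing P h).κ z (z + levN P) := by
  obtain ⟨p, hp, hpl⟩ := exists_levN h
  have hsome : ∃ q, P.find? (fun p => p.length - 1 == levN P) = some q := by
    cases hf : P.find? (fun p => p.length - 1 == levN P) with
    | some q => exact ⟨q, rfl⟩
    | none =>
      rw [List.find?_eq_none] at hf
      exact absurd (by simp [hpl]) (hf p hp)
  obtain ⟨q, hq⟩ := hsome
  have hq1 := List.mem_of_find?_eq_some hq
  have hq2 := List.find?_some hq
  have hql : q.length = levN P + 1 := by
    have := List.length_pos_iff.mpr (h.2.1 q hq1)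
    have : q.length - 1 = levN P := by simpa using hq2
    omega
  obtain ⟨n, hn, hnq⟩ := List.getElem_of_mem hq1
  have hpz : pz P (((n : ℤ) + 1) - 1) = q := by
    rw [add_sub_cancel_right, pz_nat hn, List.getD_eq_getElem?_getD, List.getElem?_eq_getElem hn]
    simpa using hnq
  have hF : (toRing P h).F (((n : ℤ) + 1) - 1) = ((n : ℤ) + 1) + levN P := by
    rw [toRing_F, hpz, hql]; push_cast; ring
  refine ⟨(n : ℤ) + 1, hF, ?_⟩
  unfold bottom
  rw [hq, Option.getD_some, ← hpz, tail_pz_eq_win h, hF]

theorem take_win (κ : ℤ → ℕ) (i j : ℤ) (n : ℕ) (hn : (n : ℤ) ≤ j - i) :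
    (win κ i j).take n = win κ i (i + n) := by
  rw [win_append κ (i := i) (j := i + n) (by omega) (by omega)]
  rw [List.take_append_of_le_length (by simp)]
  rw [List.take_of_length_le (by simp)]

/-- the position `z` of the bottom and the word issued for a wrap -/
theorem exists_xw (hw : P.length ≤ levN P) : ∃ z : ℤ, (toRing P h).F (z - 1) = z + (toRing P h).lev ∧
    bottom P = win (toRing P h).κ z (z + levN P) ∧
    xw P = win (toRing P h).κ z (z + ((toRing P h).lev - (toRing P h).w)) := by
  obtain ⟨z, hz1, hz2⟩ := exists_bottom h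
  refine ⟨z, by rw [hz1, lev_toRing h], hz2, ?_⟩
  unfold xw
  rw [hz2, take_win _ _ _ _ (by omega), lev_toRing h, toRing_w]
  congr 1
  omega

/-! ### the text -/

theorem length_txt (P : PL) : (txt P).length = P.length := by simp [txt]

theorem perWin_txt (i n : ℕ) : perWin (txt P) i n = win (toRing P h).κ i (i + n) := by
  unfold perWin win
  have e : ((i : ℤ) + n - i).toNat = n := by omega
  rw [e]
  apply List.map_congr_left
  intro t _
  rw [toRing_κ, length_txt]
  have hl : 0 < P.length := List.length_pos_iff.mpr h.1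
  have hlt : (i + t) % P.length < P.length := Nat.mod_lt _ hl
  have hz : pz P ((i : ℤ) + (t : ℤ)) = P.getD ((i + t) % P.length) [] := by
    unfold pz
    have : (((i : ℤ) + t) % (P.length : ℤ)).toNat = (i + t) % P.length := by
      have : ((i : ℤ) + t) % (P.length : ℤ) = (((i + t) % P.length : ℕ) : ℤ) := by push_cast; rfl
      rw [this, Int.toNat_natCast]
    rw [this]
  rw [hz]
  unfold txt
  rw [List.getD_eq_getElem?_getD, List.getD_eq_getElem?_getD, List.getElem?_map,
    List.getElem?_eq_getElem hlt]
  simp

include h in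
theorem prevW_eq (s : ℕ) : prevW P s = pz P ((s : ℤ) - 1) := by
  have hl : 0 < P.length := List.length_pos_iff.mpr h.1
  unfold prevW pz
  congr 1
  have e : ((s : ℤ) - 1) % (P.length : ℤ) = (((s + P.length - 1) % P.length : ℕ) : ℤ) := by
    have : (((s + P.length - 1) % P.length : ℕ) : ℤ) = (((s + P.length - 1 : ℕ) : ℤ)) % P.length := by
      push_cast; rfl
    rw [this]
    have : ((s + P.length - 1 : ℕ) : ℤ) = ((s : ℤ) - 1) + P.length := by omega
    rw [this, Int.add_emod_right]
  rw [e, Int.toNat_natCast]

/-! ### `U(x_K)` -/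

theorem perWin_take {K : PL} (hK : IsPRing K) {z : ℤ}
    (hz : bottom K = win (toRing K hK).κ z (z + levN K)) (hw : K.length ≤ levN K) (r n : ℕ)
    (hr : r ≤ K.length) : perWin ((bottom K).take K.length) (K.length - r) n =
      win (toRing K hK).κ (z - r) (z - r + n) := by
  have hl : 0 < K.length := List.length_pos_iff.mpr hK.1
  have hT : (bottom K).take K.length = win (toRing K hK).κ z (z + K.length) := by
    rw [hz, take_win _ _ _ _ (by omega)]
  rw [hT]
  unfold perWin
  have hlen : (win (toRing K hK).κ z (z + K.length)).length = K.length := by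
    rw [length_win]; omega
  rw [hlen]
  unfold win
  have e : (z - (r : ℤ) + n - (z - r)).toNat = n := by omega
  rw [e]
  apply List.map_congr_left
  intro t _
  have hlt : (K.length - r + t) % K.length < K.length := Nat.mod_lt _ hl
  have h1 : ((List.range (z + (K.length : ℤ) - z).toNat).map
      (fun k : ℕ => (toRing K hK).κ (z + (k : ℤ)))).getD ((K.length - r + t) % K.length) 0 =
      (toRing K hK).κ (z + (((K.length - r + t) % K.length : ℕ) : ℤ)) := by
    have e2 : (z + (K.length : ℤ) - z).toNat = K.length := by omega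
    rw [e2, List.getD_eq_getElem?_getD, List.getElem?_map, List.getElem?_range hlt]
    simp
  rw [h1]
  have hq : ((K.length - r + t : ℕ) : ℤ) = (((K.length - r + t) % K.length : ℕ) : ℤ) +
      (((K.length - r + t) / K.length : ℕ) : ℤ) * (toRing K hK).w := by
    rw [toRing_w]
    have := Nat.mod_add_div (K.length - r + t) K.length
    have h2 : (((K.length - r + t) % K.length + K.length * ((K.length - r + t) / K.length) : ℕ) : ℤ) =
      ((K.length - r + t : ℕ) : ℤ) := by rw [this]
    rw [← h2]; push_cast; ring
  have h3 : (toRing K hK).κ (z + ((K.length - r + t : ℕ) : ℤ)) =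
      (toRing K hK).κ (z + (((K.length - r + t) % K.length : ℕ) : ℤ)) := by
    rw [hq, ← add_assoc, Ring.κper']
  rw [← h3]
  have h4 : z + ((K.length - r + t : ℕ) : ℤ) = (z - r + t) + (1 : ℤ) * (toRing K hK).w := by
    rw [toRing_w]; omega
  rw [h4, Ring.κper']

theorem inU_iff {K : PL} (hK : IsPRing K) {z : ℤ}
    (hz : bottom K = win (toRing K hK).κ z (z + levN K)) (hw : K.length ≤ levN K) (v : Word) :
    inU (bottom K) K.length v = true ↔
      ∃ i j : ℤ, i ≤ z ∧ z + ((toRing K hK).lev - (toRing K hK).w) ≤ j ∧
        v = win (toRing K hK).κ i j ∧ i ≤ j := by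
  have hlen : (bottom K).length = levN K := by rw [hz, length_win]; omega
  have hl : 0 < K.length := List.length_pos_iff.mpr hK.1
  unfold inU
  rw [List.any_eq_true]
  simp only [List.mem_range, Bool.and_eq_true, decide_eq_true_iff, beq_iff_eq, hlen]
  rw [lev_toRing hK, toRing_w]
  constructor
  · rintro ⟨r, hr, h1, h2⟩
    rw [perWin_take hK hz hw r _ hr.le] at h2
    refine ⟨z - r, z - r + v.length, by omega, by omega, h2, by omega⟩
  · rintro ⟨i, j, h1, h2, h3, hij⟩
    -- normalise `i`
    have hw' : (0 : ℤ) < K.length := by exact_mod_cast hl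
    have h0 := Int.emod_nonneg (z - i) hw'.ne'
    have h1' := Int.emod_lt_of_pos (z - i) hw'
    have he : (z - i) % (K.length : ℤ) + ((z - i) / K.length) * K.length = z - i := by
      rw [mul_comm]; exact Int.emod_add_mul_ediv (z - i) _
    have hk : 0 ≤ (z - i) / (K.length : ℤ) := Int.ediv_nonneg (by omega) (by omega)
    obtain ⟨r, hr⟩ := Int.eq_ofNat_of_zero_le h0
    have hvl : (v.length : ℤ) = j - i := by rw [h3, length_win]; omega
    refine ⟨r, by omega, ?_, ?_⟩
    · have hki : 0 ≤ ((z - i) / (K.length : ℤ)) * K.length := mul_nonneg hk (by omega)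
      omega
    · rw [perWin_take hK hz hw r _ (by omega)]
      have h5 : win (toRing K hK).κ (i + ((z - i) / (K.length : ℤ)) * (toRing K hK).w)
          (j + ((z - i) / (K.length : ℤ)) * (toRing K hK).w) = win (toRing K hK).κ i j :=
        Ring.win_per' _ _ _ _
      rw [h3, ← h5, toRing_w]
      congr 1
      · omega
      · rw [length_win]; omega

theorem visU_iff {K A : PL} (hK : IsPRing K) (hA : IsPRing A) {z : ℤ}
    (hz : bottom K = win (toRing K hK).κ z (z + levN K)) (hw : K.length ≤ levN K) :
    visU K A = true ↔ ∃ i j t : ℤ, i ≤ z ∧ z + ((toRing K hK).lev - (toRing K hK).w) ≤ j ∧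
      win (toRing A hA).κ t (t + (j - i)) = win (toRing K hK).κ i j ∧
      (toRing A hA).Vis t (t + (j - i)) := by
  unfold visU
  rw [List.any_eq_true]
  constructor
  · rintro ⟨v, hv, hu⟩
    rw [inU_iff hK hz hw] at hu
    obtain ⟨i, j, h1, h2, h3, hij⟩ := hu
    obtain ⟨t, h4, h5⟩ := (mem_nodes_iff hA v).mp hv
    have hvl : (v.length : ℤ) = j - i := by rw [h3, length_win]; omega
    rw [hvl] at h4 h5
    exact ⟨i, j, t, h1, h2, by rw [h4, h3], h5⟩
  · rintro ⟨i, j, t, h1, h2, h3, h4⟩
    refine ⟨win (toRing A hA).κ t (t + (j - i)), win_mem_nodes hA h4, ?_⟩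
    rw [inU_iff hK hz hw]
    refine ⟨i, j, h1, h2, h3, ?_⟩
    rw [lev_toRing hK, toRing_w] at h2
    omega

end Crest.Agent.R287
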