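import Crest.Agent.R287.Core
import Crest.Agent.R287.PRing
import Crest.Agent.R287.SpecCand

/-!
# Row 287: structural invariants of the one-pass algorithm

`IsOpen m X`, `IsRingGe m P`, link-freeness, merging, stages of a level, blocks.
-/

set_option autoImplicit false

namespace Crest.Agent.R287

/-! ### head and last -/

theorem lastW_append' {X Y : PL} (h : Y ≠ []) : lastW (X ++ Y) = lastW Y := by
  unfold lastW
  obtain ⟨a, l, rfl⟩ := List.exists_cons_of_ne_nil h
  rw [List.getLastD_eq_getLast?, List.getLastD_eq_getLast?, List.getLast?_append]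
  simp [List.getLast?_cons]

theorem headW_append' {X Y : PL} (h : X ≠ []) : headW (X ++ Y) = headW X := by
  obtain ⟨a, l, rfl⟩ := List.exists_cons_of_ne_nil h
  rfl

theorem lastW_mem' {X : PL} (h : X ≠ []) : lastW X ∈ X := by
  unfold lastW
  rw [List.getLastD_eq_getLast?, List.getLast?_eq_some_getLast h]
  exact List.getLast_mem h

theorem headW_mem' {X : PL} (h : X ≠ []) : headW X ∈ X := by
  obtain ⟨a, l, rfl⟩ := List.exists_cons_of_ne_nil h
  simp [headW]

theorem lastW_concat' (X : PL) (s : Word) : lastW (X ++ [s]) = s := by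
  rw [lastW_append' (by simp)]; rfl

/-- open chain at level `m` -/
structure IsOpen (m : ℕ) (X : PL) : Prop where
  ne : X ≠ []
  chain : List.IsChain (fun p q : Word => p.tail <+: q) X
  len : ∀ p ∈ X, m < p.length
  last : (lastW X).length = m + 1

/-- ring all of whose words are longer than `m` -/
structure IsRingGe (m : ℕ) (P : PL) : Prop where
  ring : IsPRing P
  len : ∀ p ∈ P, m < p.length

theorem IsRingGe.mono {m n : ℕ} {P : PL} (h : IsRingGe m P) (hn : n ≤ m) : IsRingGe n P :=
  ⟨h.ring, fun p hp => lt_of_le_of_lt hn (h.len p hp)⟩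

theorem isOpen_singleton {m : ℕ} {s : Word} (h : s.length = m + 1) : IsOpen m [s] :=
  ⟨by simp, List.isChain_singleton _, by simp [h], h⟩

theorem IsOpen.append {m : ℕ} {X Y : PL} (hX : IsOpen m X) (hY : IsOpen m Y)
    (h : linkB X Y = true) : IsOpen m (X ++ Y) := by
  refine ⟨by simp [hX.ne], ?_, ?_, ?_⟩
  · rw [List.isChain_append]
    refine ⟨hX.chain, hY.chain, ?_⟩
    intro p hp q hq
    have e1 : lastW X = p := by
      unfold lastW; rw [List.getLastD_eq_getLast?, Option.mem_def.mp hp]; rfl
    have e2 : headW Y = q := by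
      unfold headW; rw [List.headD_eq_head?_getD, Option.mem_def.mp hq]; rfl
    unfold linkB at h
    rw [e1, e2] at h
    exact List.isPrefixOf_iff_prefix.mp h
  · intro p hp
    rcases List.mem_append.mp hp with hp | hp
    · exact hX.len p hp
    · exact hY.len p hp
  · rw [lastW_append' hY.ne]; exact hY.last

theorem IsOpen.ext {m : ℕ} {X : PL} (hm : 1 ≤ m) (hX : IsOpen m X) :
    IsOpen (m - 1) (R287.ext X) := by
  have hlen : (lastW X).tail.length = m := by rw [List.length_tail, hX.last]; omega
  refine ⟨by simp [R287.ext], ?_, ?_, ?_⟩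
  · unfold R287.ext
    rw [List.isChain_append]
    refine ⟨hX.chain, List.isChain_singleton _, ?_⟩
    intro p hp q hq
    have e1 : lastW X = p := by
      unfold lastW; rw [List.getLastD_eq_getLast?, Option.mem_def.mp hp]; rfl
    simp only [List.head?_cons, Option.mem_def, Option.some.injEq] at hq
    rw [← hq, e1]
  · intro p hp
    unfold R287.ext at hp
    rcases List.mem_append.mp hp with hp | hp
    · have := hX.len p hp; omega
    · simp only [List.mem_singleton] at hp; rw [hp, hlen]; omega
  · unfold R287.ext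
    rw [lastW_concat', hlen]; omega

/-- an open chain that links to itself is a ring -/
theorem IsOpen.close {m : ℕ} {X : PL} (hX : IsOpen m X) (h : linkB X X = true) :
    IsRingGe m X := by
  refine ⟨⟨hX.ne, ?_, ?_⟩, hX.len⟩
  · intro p hp e
    have := hX.len p hp
    rw [e] at this; simp at this
  · rw [List.isChain_append]
    refine ⟨hX.chain, List.isChain_singleton _, ?_⟩
    intro p hp q hq
    have e1 : lastW X = p := by
      unfold lastW; rw [List.getLastD_eq_getLast?, Option.mem_def.mp hp]; rfl
    simp only [List.head?_cons, Option.mem_def, Option.some.injEq] at hq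
    unfold linkB at h
    rw [e1] at h
    have := List.isPrefixOf_iff_prefix.mp h
    rw [← hq]; exact this

/-! ### merging -/

/-- no links between members at different positions -/
def Free (l : List PL) : Prop :=
  l.Pairwise fun X Y => linkB X Y = false ∧ linkB Y X = false

theorem pick_none' {p : PL → Bool} {acc : List PL} (h : ∀ Y ∈ acc, p Y = false) :
    pick p acc = ([], acc) := by
  unfold pick
  have h1 : acc.find? p = none := by
    rw [List.find?_eq_none]; intro x hx; simp [h x hx]
  have h2 : acc.eraseP p = acc := by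
    rw [List.eraseP_of_forall_not]; intro x hx; simp [h x hx]
  rw [h1, h2]; rfl

theorem pick_some' {p : PL → Bool} {acc : List PL} (h : ∃ Y ∈ acc, p Y = true) :
    ∃ Y l₁ l₂, acc = l₁ ++ Y :: l₂ ∧ p Y = true ∧ pick p acc = (Y, l₁ ++ l₂) := by
  obtain ⟨Y, hY, hp⟩ := h
  obtain ⟨a, l₁, l₂, h1, h2, h3, h4⟩ := List.exists_of_eraseP hY hp
  refine ⟨a, l₁, l₂, h3, h2, ?_⟩
  unfold pick
  rw [h4]
  have : acc.find? p = some a := by
    rw [h3, List.find?_append]
    have : l₁.find? p = none := by
      rw [List.find?_eq_none]; intro x hx; exact h1 x hx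
    rw [this]
    simp [h2]
  rw [this]; rfl

/-- specification of one insertion -/
theorem insertOpen_cases (X : PL) (acc : List PL) :
    ∃ A B rest, insertOpen X acc = (A ++ (X ++ B)) :: rest ∧
      ((B = [] ∧ (∀ Y ∈ acc, linkB X Y = false)) ∨ (B ∈ acc ∧ linkB X B = true)) ∧
      ((A = [] ∧ (∀ Z ∈ rest, linkB Z (X ++ B) = false)) ∨
        (A ∈ acc ∧ linkB A (X ++ B) = true)) ∧
      acc.Perm ((if A = [] then [] else [A]) ++ ((if B = [] then [] else [B]) ++ rest)) ∨
      [] ∈ acc := by
  unfold insertOpen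
  by_cases hnil : [] ∈ acc
  · exact ⟨[], [], [], Or.inr hnil⟩
  by_cases h1 : ∃ Y ∈ acc, linkB X Y = true
  · obtain ⟨Y, l₁, l₂, e1, hY, hp⟩ := pick_some' (p := fun Y => linkB X Y) h1
    rw [hp]
    have hperm : acc.Perm (Y :: (l₁ ++ l₂)) := by rw [e1]; exact List.perm_middle
    have hYm : Y ∈ acc := by rw [e1]; simp
    have hYne : Y ≠ [] := fun e => hnil (e ▸ hYm)
    by_cases h2 : ∃ Z ∈ l₁ ++ l₂, linkB Z (X ++ Y) = true
    · obtain ⟨Z, k₁, k₂, e2, hZ, hq⟩ := pick_some' (p := fun Z => linkB Z (X ++ Y)) h2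
      have hZm : Z ∈ acc := by
        have : Z ∈ l₁ ++ l₂ := by rw [e2]; simp
        rw [e1]
        rcases List.mem_append.mp this with h | h
        · exact List.mem_append_left _ h
        · exact List.mem_append_right _ (List.mem_cons_of_mem _ h)
      have hZne : Z ≠ [] := fun e => hnil (e ▸ hZm)
      refine ⟨Z, Y, k₁ ++ k₂, Or.inl ⟨by simp only [hq], Or.inr ⟨hYm, hY⟩, Or.inr ⟨hZm, hZ⟩, ?_⟩⟩
      rw [if_neg hZne, if_neg hYne]
      refine hperm.trans ?_
      rw [e2]
      exact (List.Perm.cons Y List.perm_middle).trans (List.Perm.swap _ _ _)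
    · push Not at h2
      have h2' : ∀ Z ∈ l₁ ++ l₂, linkB Z (X ++ Y) = false := fun Z hZ => by
        simpa using h2 Z hZ
      have hq := pick_none' (p := fun Z => linkB Z (X ++ Y)) h2'
      refine ⟨[], Y, l₁ ++ l₂, Or.inl ⟨by simp only [hq], Or.inr ⟨hYm, hY⟩, Or.inl ⟨rfl, h2'⟩, ?_⟩⟩
      rw [if_pos rfl, if_neg hYne]
      exact hperm
  · push Not at h1
    have h1' : ∀ Y ∈ acc, linkB X Y = false := fun Y hY => by simpa using h1 Y hY
    have hp := pick_none' (p := fun Y => linkB X Y) h1'
    rw [hp]
    by_cases h2 : ∃ Z ∈ acc, linkB Z (X ++ []) = true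
    · obtain ⟨Z, k₁, k₂, e2, hZ, hq⟩ := pick_some' (p := fun Z => linkB Z (X ++ [])) h2
      have hZm : Z ∈ acc := by rw [e2]; simp
      have hZne : Z ≠ [] := fun e => hnil (e ▸ hZm)
      refine ⟨Z, [], k₁ ++ k₂, Or.inl ⟨by simp only [hq], Or.inl ⟨rfl, h1'⟩, Or.inr ⟨hZm, hZ⟩, ?_⟩⟩
      rw [if_neg hZne, if_pos rfl, e2]
      exact List.perm_middle
    · push Not at h2
      have h2' : ∀ Z ∈ acc, linkB Z (X ++ []) = false := fun Z hZ => by simpa using h2 Z hZ
      have hq := pick_none' (p := fun Z => linkB Z (X ++ [])) h2'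
      refine ⟨[], [], acc, Or.inl ⟨by simp only [hq], Or.inl ⟨rfl, h1'⟩, Or.inl ⟨rfl, h2'⟩, ?_⟩⟩
      rw [if_pos rfl]
      exact List.Perm.refl _

theorem free_cons {X : PL} {l : List PL} :
    Free (X :: l) ↔ (∀ Y ∈ l, linkB X Y = false ∧ linkB Y X = false) ∧ Free l :=
  List.pairwise_cons

theorem Free.perm {l l' : List PL} (h : Free l) (hp : l.Perm l') : Free l' :=
  (hp.pairwise_iff (fun hxy => ⟨hxy.2, hxy.1⟩)).mp h

theorem insertOpen_specO {k : ℕ} {X : PL} {acc : List PL} (hX : IsOpen k X)
    (hacc : ∀ Y ∈ acc, IsOpen k Y) (hfree : Free acc) :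
    (∀ Y ∈ insertOpen X acc, IsOpen k Y) ∧ Free (insertOpen X acc) := by
  obtain ⟨A, B, rest, hc⟩ := insertOpen_cases X acc
  have hnil : [] ∉ acc := fun h => (hacc _ h).ne rfl
  obtain ⟨e, hB, hA, hperm⟩ := hc.resolve_right hnil
  rw [e]
  have hXne := hX.ne
  have hfr : Free ((if A = [] then [] else [A]) ++ ((if B = [] then [] else [B]) ++ rest)) :=
    hfree.perm hperm
  have hmem : ∀ Y ∈ (if A = [] then [] else [A]) ++ ((if B = [] then [] else [B]) ++ rest),
      IsOpen k Y := fun Y hY => hacc Y (hperm.mem_iff.mpr hY)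
  have hXB : IsOpen k (X ++ B) := by
    rcases hB with ⟨rfl, _⟩ | ⟨hBm, hBl⟩
    · rw [List.append_nil]; exact hX
    · exact hX.append (hacc B hBm) hBl
  have hAXB : IsOpen k (A ++ (X ++ B)) := by
    rcases hA with ⟨rfl, _⟩ | ⟨hAm, hAl⟩
    · exact hXB
    · exact (hacc A hAm).append hXB hAl
  have hrest : ∀ Y ∈ rest, IsOpen k Y := fun Y hY =>
    hmem Y (List.mem_append_right _ (List.mem_append_right _ hY))
  have hfrest : Free rest := by
    have h1 := (List.pairwise_append.mp hfr).2.1
    exact (List.pairwise_append.mp h1).2.1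
  -- the end of `X ++ B` is not linked to any head in `rest`
  have hend : ∀ Y ∈ rest, linkB (A ++ (X ++ B)) Y = false := by
    intro Y hY
    have e1 : linkB (A ++ (X ++ B)) Y = linkB (X ++ B) Y := by
      unfold linkB; rw [lastW_append' hXB.ne]
    rw [e1]
    rcases hB with ⟨rfl, hB⟩ | ⟨hBm, _⟩
    · rw [List.append_nil]
      exact hB Y (hperm.mem_iff.mpr
        (List.mem_append_right _ (List.mem_append_right _ hY)))
    · have hBne : B ≠ [] := (hacc B hBm).ne
      have e2 : linkB (X ++ B) Y = linkB B Y := by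
        unfold linkB; rw [lastW_append' hBne]
      rw [e2]
      have h1 := (List.pairwise_append.mp hfr).2.1
      have h2 := (List.pairwise_append.mp h1).2.2 B (by rw [if_neg hBne]; simp) Y hY
      exact h2.1
  have hbeg : ∀ Y ∈ rest, linkB Y (A ++ (X ++ B)) = false := by
    intro Y hY
    rcases hA with ⟨rfl, hA⟩ | ⟨hAm, _⟩
    · exact hA Y hY
    · have hAne : A ≠ [] := (hacc A hAm).ne
      have e2 : linkB Y (A ++ (X ++ B)) = linkB Y A := by
        unfold linkB; rw [headW_append' hAne]
      rw [e2]
      have h2 := (List.pairwise_append.mp hfr).2.2 A (by rw [if_neg hAne]; simp) Y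
        (List.mem_append_right _ hY)
      exact h2.2
  refine ⟨?_, ?_⟩
  · intro Y hY
    rcases List.mem_cons.mp hY with rfl | hY
    · exact hAXB
    · exact hrest Y hY
  · rw [free_cons]
    exact ⟨fun Y hY => ⟨hend Y hY, hbeg Y hY⟩, hfrest⟩

theorem mergeAll_spec {k : ℕ} {l : List PL} (hl : ∀ X ∈ l, IsOpen k X) :
    (∀ Y ∈ mergeAll l, IsOpen k Y) ∧ Free (mergeAll l) := by
  unfold mergeAll
  induction l with
  | nil => exact ⟨by simp, List.Pairwise.nil⟩
  | cons X l ih =>
    obtain ⟨h1, h2⟩ := ih (fun Y hY => hl Y (List.mem_cons_of_mem _ hY))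
    exact insertOpen_specO (hl X List.mem_cons_self) h1 h2

/-- `X` is a block of `Z`, the word before it has length at most `n` -/
def BlockO (n : ℕ) (X Z : PL) : Prop :=
  ∃ A B, Z = A ++ X ++ B ∧ (A ≠ [] → (lastW A).length ≤ n)

theorem BlockO.refl (n : ℕ) (X : PL) : BlockO n X X := ⟨[], [], by simp, fun h => absurd rfl h⟩

theorem BlockO.trans {n : ℕ} {X Y Z : PL} (h1 : BlockO n X Y) (h2 : BlockO n Y Z) :
    BlockO n X Z := by
  obtain ⟨A, B, rfl, hA⟩ := h1
  obtain ⟨A', B', rfl, hA'⟩ := h2
  refine ⟨A' ++ A, B ++ B', by simp, ?_⟩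
  intro h
  by_cases hAe : A = []
  · subst hAe
    rw [List.append_nil] at h ⊢
    exact hA' h
  · rw [lastW_append' hAe]; exact hA hAe

theorem BlockO.mono {n n' : ℕ} {X Z : PL} (h : BlockO n X Z) (hn : n ≤ n') : BlockO n' X Z := by
  obtain ⟨A, B, e, hA⟩ := h
  exact ⟨A, B, e, fun h => (hA h).trans hn⟩

theorem BlockO.append (n : ℕ) (X B : PL) : BlockO n X (X ++ B) :=
  ⟨[], B, by simp, fun h => absurd rfl h⟩

theorem BlockO.prepend {k : ℕ} {A : PL} (hA : IsOpen k A) (X : PL) : BlockO (k + 1) X (A ++ X) :=
  ⟨A, [], by simp, fun _ => by rw [hA.last]⟩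

theorem block_insertOpen {k : ℕ} {X : PL} {acc : List PL} (hX : IsOpen k X)
    (hacc : ∀ Y ∈ acc, IsOpen k Y) :
    ∀ Y ∈ X :: acc, ∃ Z ∈ insertOpen X acc, BlockO (k + 1) Y Z := by
  obtain ⟨A, B, rest, hc⟩ := insertOpen_cases X acc
  have hnil : [] ∉ acc := fun h => (hacc _ h).ne rfl
  obtain ⟨e, hB, hA, hperm⟩ := hc.resolve_right hnil
  rw [e]
  have hAX : BlockO (k + 1) (X ++ B) (A ++ (X ++ B)) := by
    rcases hA with ⟨rfl, _⟩ | ⟨hAm, _⟩
    · exact BlockO.refl _ _
    · exact BlockO.prepend (hacc A hAm) _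
  intro Y hY
  rcases List.mem_cons.mp hY with rfl | hY
  · exact ⟨_, List.mem_cons_self, (BlockO.append _ _ _).trans hAX⟩
  · have hY' := hperm.mem_iff.mp hY
    rcases List.mem_append.mp hY' with h | h
    · by_cases hAe : A = []
      · rw [if_pos hAe] at h; simp at h
      · rw [if_neg hAe] at h
        simp only [List.mem_singleton] at h
        subst h
        exact ⟨_, List.mem_cons_self, BlockO.append _ _ _⟩
    · rcases List.mem_append.mp h with h | h
      · by_cases hBe : B = []
        · rw [if_pos hBe] at h; simp at h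
        · rw [if_neg hBe] at h
          simp only [List.mem_singleton] at h
          subst h
          exact ⟨_, List.mem_cons_self, (BlockO.prepend hX _).trans hAX⟩
      · exact ⟨Y, List.mem_cons_of_mem _ h, BlockO.refl _ _⟩

theorem block_mergeAll {k : ℕ} {l : List PL} (hl : ∀ X ∈ l, IsOpen k X) :
    ∀ X ∈ l, ∃ Z ∈ mergeAll l, BlockO (k + 1) X Z := by
  unfold mergeAll
  induction l with
  | nil => simp
  | cons X l ih =>
    have hl' : ∀ Y ∈ l, IsOpen k Y := fun Y hY => hl Y (List.mem_cons_of_mem _ hY)
    have h1 := (mergeAll_spec hl').1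
    intro Y hY
    have hb := block_insertOpen (hl X List.mem_cons_self) h1
    rcases List.mem_cons.mp hY with rfl | hY
    · exact hb Y List.mem_cons_self
    · obtain ⟨Z, hZ, hZb⟩ := ih hl' Y hY
      obtain ⟨Z', hZ', hZb'⟩ := hb Z (List.mem_cons_of_mem _ hZ)
      exact ⟨Z', hZ', hZb.trans hZb'⟩

/-! ### the stages of a level -/

def lvl1 (st : St) : St := (st.1.map ext, st.2)
def lvl2 (m : ℕ) (st : St) : St := (lvl1 st).2.foldl (issue m) (lvl1 st)
def lvl3 (S : List Word) (m : ℕ) (st : St) : St := S.foldl (addInput m) (lvl2 m st)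

theorem issue_snd (m : ℕ) (st : St) (K : PL) : (issue m st K).2 = st.2 := by
  unfold issue; split <;> rfl

theorem addInput_snd (m : ℕ) (st : St) (s : Word) : (addInput m st s).2 = st.2 := by
  unfold addInput; split <;> rfl

theorem foldl_issue_snd (m : ℕ) (l : List PL) (st : St) : (l.foldl (issue m) st).2 = st.2 := by
  induction l generalizing st with
  | nil => rfl
  | cons K l ih => rw [List.foldl_cons, ih, issue_snd]

theorem foldl_addInput_snd (m : ℕ) (l : List Word) (st : St) :
    (l.foldl (addInput m) st).2 = st.2 := by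
  induction l generalizing st with
  | nil => rfl
  | cons K l ih => rw [List.foldl_cons, ih, addInput_snd]

theorem lvl1_snd (st : St) : (lvl1 st).2 = st.2 := rfl
theorem lvl2_snd (m : ℕ) (st : St) : (lvl2 m st).2 = st.2 := by
  unfold lvl2; rw [foldl_issue_snd, lvl1_snd]
theorem lvl3_snd (S : List Word) (m : ℕ) (st : St) : (lvl3 S m st).2 = st.2 := by
  unfold lvl3; rw [foldl_addInput_snd, lvl2_snd]

theorem level_eq (S : List Word) (m : ℕ) (st : St) :
    level S m st = ((mergeAll (lvl3 S m st).1).filter (fun X => !linkB X X),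
      st.2 ++ (mergeAll (lvl3 S m st).1).filter (fun X => linkB X X)) := by
  have h := lvl3_snd S m st
  unfold level
  show ((mergeAll (lvl3 S m st).1).filter (fun X => !linkB X X),
    (lvl3 S m st).2 ++ (mergeAll (lvl3 S m st).1).filter (fun X => linkB X X)) = _
  rw [h]

/-- opens only grow during `issue` -/
theorem issue_fst_mem {m : ℕ} {st : St} {K X : PL} (h : X ∈ st.1) : X ∈ (issue m st K).1 := by
  unfold issue; split
  · exact List.mem_cons_of_mem _ h
  · exact h

theorem addInput_fst_mem {m : ℕ} {st : St} {s : Word} {X : PL} (h : X ∈ st.1) :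
    X ∈ (addInput m st s).1 := by
  unfold addInput; split
  · exact List.mem_cons_of_mem _ h
  · exact h

theorem foldl_issue_fst_mem {m : ℕ} (l : List PL) {st : St} {X : PL} (h : X ∈ st.1) :
    X ∈ (l.foldl (issue m) st).1 := by
  induction l generalizing st with
  | nil => exact h
  | cons K l ih => exact ih (issue_fst_mem h)

theorem foldl_addInput_fst_mem {m : ℕ} (l : List Word) {st : St} {X : PL} (h : X ∈ st.1) :
    X ∈ (l.foldl (addInput m) st).1 := by
  induction l generalizing st with
  | nil => exact h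
  | cons K l ih => exact ih (addInput_fst_mem h)

/-- an open chain present at any moment of the issue fold is present before merging -/
theorem mem_lvl3_of_issue {S : List Word} {m : ℕ} {st : St} {l₁ l₂ : List PL}
    (e : st.2 = l₁ ++ l₂) {X : PL} (h : X ∈ (l₁.foldl (issue m) (lvl1 st)).1) :
    X ∈ (lvl3 S m st).1 := by
  unfold lvl3 lvl2
  apply foldl_addInput_fst_mem
  rw [lvl1_snd, e, List.foldl_append]
  exact foldl_issue_fst_mem _ h

theorem mem_lvl3_of_addInput {S : List Word} {m : ℕ} {st : St} {l₁ l₂ : List Word}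
    (e : S = l₁ ++ l₂) {X : PL} (h : X ∈ (l₁.foldl (addInput m) (lvl2 m st)).1) :
    X ∈ (lvl3 S m st).1 := by
  unfold lvl3
  rw [e, List.foldl_append]
  exact foldl_addInput_fst_mem _ h

/-! ### invariants -/

/-- invariant between levels: `stt S i` satisfies `LInv (maxLen S - i)` -/
structure LInv (m : ℕ) (st : St) : Prop where
  opens : ∀ X ∈ st.1, IsOpen m X
  rings : ∀ P ∈ st.2, IsRingGe m P
  free : ∀ X ∈ st.1, ∀ Y ∈ st.1, linkB X Y = false

/-- invariant inside level `m` -/
structure Mid (m : ℕ) (st : St) : Prop where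
  opens : ∀ X ∈ st.1, IsOpen (m - 1) X
  rings : ∀ P ∈ st.2, IsRingGe m P

theorem length_bottom {P : PL} (h : IsPRing P) : (bottom P).length = levN P := by
  obtain ⟨z, _, hz⟩ := exists_bottom h
  rw [hz, length_win]; omega

theorem length_xw {P : PL} (h : IsPRing P) : (xw P).length = levN P - P.length := by
  unfold xw
  rw [List.length_take, length_bottom h]
  omega

theorem mid_lvl1 {m : ℕ} {st : St} (hm : 1 ≤ m) (h : LInv m st) : Mid m (lvl1 st) := by
  refine ⟨?_, h.rings⟩
  intro X hX
  obtain ⟨Y, hY, rfl⟩ := List.mem_map.mp hX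
  exact (h.opens Y hY).ext hm

theorem mid_issue {m : ℕ} {st : St} {K : PL} (hm : 1 ≤ m) (hK : IsPRing K) (h : Mid m st) :
    Mid m (issue m st K) := by
  unfold issue
  split
  · rename_i hc
    simp only [Bool.and_eq_true, decide_eq_true_eq] at hc
    refine ⟨?_, h.rings⟩
    intro X hX
    rcases List.mem_cons.mp hX with rfl | hX
    · apply isOpen_singleton
      rw [length_xw hK, hc.1]; omega
    · exact h.opens X hX
  · exact h

theorem mid_foldl_issue {m : ℕ} (hm : 1 ≤ m) {l : List PL} (hl : ∀ K ∈ l, IsPRing K) {st : St}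
    (h : Mid m st) : Mid m (l.foldl (issue m) st) := by
  induction l generalizing st with
  | nil => exact h
  | cons K l ih =>
    exact ih (fun K hK => hl K (List.mem_cons_of_mem _ hK))
      (mid_issue hm (hl K List.mem_cons_self) h)

theorem mid_addInput {m : ℕ} {st : St} {s : Word} (hm : 1 ≤ m) (h : Mid m st) :
    Mid m (addInput m st s) := by
  unfold addInput
  split
  · rename_i hc
    simp only [Bool.and_eq_true, decide_eq_true_eq] at hc
    refine ⟨?_, h.rings⟩
    intro X hX
    rcases List.mem_cons.mp hX with rfl | hX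
    · apply isOpen_singleton
      rw [hc.1]; omega
    · exact h.opens X hX
  · exact h

theorem mid_foldl_addInput {m : ℕ} (hm : 1 ≤ m) {l : List Word} {st : St}
    (h : Mid m st) : Mid m (l.foldl (addInput m) st) := by
  induction l generalizing st with
  | nil => exact h
  | cons K l ih => exact ih (mid_addInput hm h)

theorem mid_lvl2 {m : ℕ} {st : St} (hm : 1 ≤ m) (h : LInv m st) : Mid m (lvl2 m st) :=
  mid_foldl_issue hm (fun K hK => (h.rings K hK).ring) (mid_lvl1 hm h)

theorem mid_lvl3 (S : List Word) {m : ℕ} {st : St} (hm : 1 ≤ m) (h : LInv m st) :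
    Mid m (lvl3 S m st) :=
  mid_foldl_addInput hm (mid_lvl2 hm h)

theorem inv_level (S : List Word) {m : ℕ} {st : St} (hm : 1 ≤ m) (h : LInv m st) :
    LInv (m - 1) (level S m st) := by
  have hmid := mid_lvl3 S hm h
  obtain ⟨h1, h2⟩ := mergeAll_spec hmid.opens
  rw [level_eq]
  refine ⟨?_, ?_, ?_⟩
  · intro X hX
    exact h1 X (List.mem_filter.mp hX).1
  · intro P hP
    rcases List.mem_append.mp hP with hP | hP
    · exact (h.rings P hP).mono (by omega)
    · obtain ⟨hP1, hP2⟩ := List.mem_filter.mp hP
      exact (h1 P hP1).close (by simpa using hP2)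
  · intro X hX Y hY
    obtain ⟨hX1, hX2⟩ := List.mem_filter.mp hX
    obtain ⟨hY1, hY2⟩ := List.mem_filter.mp hY
    by_cases e : X = Y
    · rw [← e]; simpa using hX2
    · have : Std.Symm (fun X Y : PL => linkB X Y = false ∧ linkB Y X = false) :=
        ⟨fun _ _ h => ⟨h.2, h.1⟩⟩
      exact (List.Pairwise.forall h2 hX1 hY1 e).1

theorem linv_stt (S : List Word) {i : ℕ} (hi : i ≤ maxLen S) :
    LInv (maxLen S - i) (stt S i) := by
  induction i with
  | zero => exact ⟨by simp [stt], by simp [stt], by simp [stt]⟩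
  | succ i ih =>
    have := inv_level S (m := maxLen S - i) (by omega) (ih (by omega))
    have e : maxLen S - i - 1 = maxLen S - (i + 1) := by omega
    rw [e] at this
    exact this

/-- at the end everything is closed -/
theorem opens_end (S : List Word) : (stt S (maxLen S)).1 = [] := by
  have h := linv_stt S (le_refl (maxLen S))
  rw [Nat.sub_self] at h
  rw [List.eq_nil_iff_forall_not_mem]
  intro X hX
  have h1 := (h.opens X hX).last
  have h2 := h.free X hX X hX
  unfold linkB at h2
  have : (lastW X).tail = [] := by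
    rw [← List.length_eq_zero_iff, List.length_tail, h1]
  rw [this] at h2
  simp at h2

theorem isPRing_ringsOf {S : List Word} {P : PL} (h : P ∈ ringsOf S) : IsPRing P :=
  ((linv_stt S (le_refl (maxLen S))).rings P h).ring

/-- rings are never changed or removed -/
theorem ringsOf_isPRing (S : List Word) : ∀ P ∈ ringsOf S, IsPRing P :=
  fun _ h => isPRing_ringsOf h

theorem rings_mono {S : List Word} {P : PL} {i j : ℕ} (h : P ∈ (stt S i).2) (hij : i ≤ j) :
    P ∈ (stt S j).2 := by
  induction j with
  | zero =>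
    have : i = 0 := by omega
    subst this; exact h
  | succ j ih =>
    by_cases e : i = j + 1
    · subst e; exact h
    · have := ih (by omega)
      show P ∈ (level S (maxLen S - j) (stt S j)).2
      rw [level_eq]
      exact List.mem_append_left _ this

theorem levN_of_closed {m : ℕ} {P : PL} (hP : IsPRing P) (hlen : ∀ p ∈ P, m < p.length)
    (hlast : (lastW P).length = m + 1) : levN P = m := by
  obtain ⟨p, hp, hpl⟩ := exists_levN hP
  have h1 := hlen p hp
  have h2 := levN_le hP (lastW P) (lastW_mem' hP.1)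
  omega

/-- a ring of the final family was closed at level `levN` -/
theorem mem_rings_iff {S : List Word} {K : PL} (h : K ∈ ringsOf S) {i : ℕ}
    (hi : i ≤ maxLen S) : K ∈ (stt S i).2 ↔ maxLen S - i ≤ levN K := by
  have hK := isPRing_ringsOf h
  constructor
  · intro hm
    obtain ⟨p, hp, hpl⟩ := exists_levN hK
    have := ((linv_stt S hi).rings K hm).len p hp
    omega
  · intro hl
    by_contra hn
    -- first stage at which `K` is present
    have key : ∀ j, i ≤ j → j ≤ maxLen S → K ∉ (stt S j).2 := by
      intro j hij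
      induction j, hij using Nat.le_induction with
      | base => intro _; exact hn
      | succ j hij ih =>
        intro hj hKj
        have hnot := ih (by omega)
        change K ∈ (level S (maxLen S - j) (stt S j)).2 at hKj
        rw [level_eq] at hKj
        rcases List.mem_append.mp hKj with hKj | hKj
        · exact hnot hKj
        · have hKm := (List.mem_filter.mp hKj).1
          have hop := (mergeAll_spec (mid_lvl3 S (m := maxLen S - j) (by omega)
            (linv_stt S (by omega))).opens).1 K hKm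
          have := levN_of_closed hK hop.len hop.last
          omega
    exact key (maxLen S) hi (le_refl _) h

/-! ### blocks in final rings -/

/-- `X` is a block of the ring `V`, all words near its beginning have length at most `n` -/
def BlockR (n : ℕ) (X V : PL) : Prop :=
  ∃ A B, V = A ++ X ++ B ∧ (A ≠ [] → (lastW A).length ≤ n) ∧ (A = [] → (lastW V).length ≤ n)

theorem block_lvl3_succ {S : List Word} {i : ℕ} (hi : i < maxLen S) {X : PL}
    (hX : X ∈ (lvl3 S (maxLen S - i) (stt S i)).1) :
    ∃ Z, BlockO (maxLen S - i) X Z ∧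
      (Z ∈ (stt S (i + 1)).1 ∨
        (Z ∈ (stt S (i + 1)).2 ∧ (lastW Z).length = maxLen S - i)) := by
  have hmid := mid_lvl3 S (m := maxLen S - i) (by omega) (linv_stt S (i := i) (by omega))
  obtain ⟨Z, hZ, hb⟩ := block_mergeAll hmid.opens X hX
  have e : maxLen S - i - 1 + 1 = maxLen S - i := by omega
  rw [e] at hb
  refine ⟨Z, hb, ?_⟩
  have hZo := (mergeAll_spec hmid.opens).1 Z hZ
  have hst : stt S (i + 1) = level S (maxLen S - i) (stt S i) := rfl
  rw [hst, level_eq]
  by_cases hl : linkB Z Z = true
  · right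
    refine ⟨List.mem_append_right _ (List.mem_filter.mpr ⟨hZ, hl⟩), ?_⟩
    rw [hZo.last, e]
  · left
    exact List.mem_filter.mpr ⟨hZ, by simpa using hl⟩

theorem block_ext_lvl3 {S : List Word} {i : ℕ} {X : PL} (hX : X ∈ (stt S i).1) :
    ext X ∈ (lvl3 S (maxLen S - i) (stt S i)).1 := by
  apply mem_lvl3_of_issue (l₁ := []) (l₂ := (stt S i).2) (by simp)
  exact List.mem_map.mpr ⟨X, hX, rfl⟩

/-- every open chain present at level `m = maxLen S - i` (before merging) is a block of a final
ring, and the word before the block has length at most `m` -/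
theorem block_final {S : List Word} {i : ℕ} (hi : i < maxLen S) {X : PL}
    (hX : X ∈ (lvl3 S (maxLen S - i) (stt S i)).1) :
    ∃ V ∈ ringsOf S, BlockR (maxLen S - i) X V ∧ levN V < maxLen S - i := by
  -- downward induction on the number of remaining levels
  obtain ⟨k, hk⟩ : ∃ k, k + i + 1 = maxLen S := ⟨maxLen S - i - 1, by omega⟩
  induction k generalizing i X with
  | zero =>
    obtain ⟨Z, hb, hZ⟩ := block_lvl3_succ hi hX
    have e : i + 1 = maxLen S := by omega
    rw [e] at hZ
    rcases hZ with hZ | ⟨hZ, hl⟩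
    · rw [opens_end] at hZ; simp at hZ
    · refine ⟨Z, hZ, ?_, ?_⟩
      · obtain ⟨A, B, hZe, hA⟩ := hb
        exact ⟨A, B, hZe, hA, fun _ => le_of_eq hl⟩
      · have hR := isPRing_ringsOf hZ
        have := levN_le hR (lastW Z) (lastW_mem' hR.1)
        omega
  | succ k ih =>
    obtain ⟨Z, hb, hZ⟩ := block_lvl3_succ hi hX
    rcases hZ with hZ | ⟨hZ, hl⟩
    · have hi' : i + 1 < maxLen S := by omega
      obtain ⟨V, hV, hVb, hVl⟩ := ih hi' (block_ext_lvl3 hZ) (by omega)
      refine ⟨V, hV, ?_, by omega⟩
      obtain ⟨A, B, hZe, hA⟩ := hb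
      obtain ⟨A', B', hVe, hA', hA''⟩ := hVb
      refine ⟨A' ++ A, B ++ [(lastW Z).tail] ++ B', ?_, ?_, ?_⟩
      · rw [hVe]; unfold ext; rw [hZe]; simp
      · intro h
        by_cases hAe : A = []
        · subst hAe
          rw [List.append_nil] at h ⊢
          have := hA' h; omega
        · rw [lastW_append' hAe]; exact hA hAe
      · intro h
        have hA'e : A' = [] := (List.append_eq_nil_iff.mp h).1
        have := hA'' hA'e; omega
    · refine ⟨Z, rings_mono hZ (by omega), ?_, ?_⟩
      · obtain ⟨A, B, hZe, hA⟩ := hb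
        exact ⟨A, B, hZe, hA, fun _ => le_of_eq hl⟩
      · have hR := isPRing_ringsOf (rings_mono hZ (by omega : i + 1 ≤ maxLen S))
        have := levN_le hR (lastW Z) (lastW_mem' hR.1)
        omega

/-! ### closing an open chain through the empty word -/

theorem tails_ne_nil' (w : Word) : w.tails ≠ [] := by cases w <;> simp

theorem mem_tails_dropLast' {w q : Word} : q ∈ w.tails.dropLast ↔ q <:+ w ∧ q ≠ [] := by
  induction w with
  | nil => simp
  | cons a w ih =>
    rw [List.tails_cons, List.dropLast_cons_of_ne_nil (tails_ne_nil' _), List.mem_cons, ih,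
      List.suffix_cons_iff]
    constructor
    · rintro (rfl | ⟨h1, h2⟩)
      · exact ⟨Or.inl rfl, by simp⟩
      · exact ⟨Or.inr h1, h2⟩
    · rintro ⟨rfl | h1, h2⟩
      · exact Or.inl rfl
      · exact Or.inr ⟨h1, h2⟩

theorem chain_tails (w : Word) :
    List.IsChain (fun p q : Word => p.tail <+: q) (w :: w.tail.tails.dropLast) := by
  induction w with
  | nil => simp
  | cons a w ih =>
    cases w with
    | nil => simp
    | cons b w =>
      have e : (a :: b :: w).tail.tails.dropLast = (b :: w) :: w.tails.dropLast := by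
        rw [List.tail_cons, List.tails_cons, List.dropLast_cons_of_ne_nil (tails_ne_nil' _)]
      rw [e]
      refine List.IsChain.cons_cons (by simp) ?_
      exact ih

theorem isPRing_closeO {m : ℕ} {X : PL} (hX : IsOpen m X) : IsPRing (closeR X) := by
  have hpos : ∀ p ∈ closeR X, p ≠ [] := by
    intro p hp
    unfold closeR at hp
    rcases List.mem_append.mp hp with hp | hp
    · intro e; have := hX.len p hp; rw [e] at this; simp at this
    · exact (mem_tails_dropLast'.mp hp).2
  have hch : List.IsChain (fun p q : Word => p.tail <+: q) (closeR X) := by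
    unfold closeR
    rw [List.isChain_append]
    have h2 := chain_tails (lastW X)
    rw [List.isChain_cons] at h2
    refine ⟨hX.chain, h2.2, ?_⟩
    intro p hp q hq
    have e1 : lastW X = p := by
      unfold lastW; rw [List.getLastD_eq_getLast?, Option.mem_def.mp hp]; rfl
    rw [← e1]; exact h2.1 q hq
  refine ⟨by unfold closeR; simp [hX.ne], hpos, ?_⟩
  rw [List.isChain_append]
  refine ⟨hch, List.isChain_singleton _, ?_⟩
  intro p hp q hq
  -- the last word has length one
  have hlast : p.length = 1 := by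
    have h1 : (closeR X).getLast? = some p := Option.mem_def.mp hp
    unfold closeR at h1
    have hne : lastW X ≠ [] := by
      intro e; have := hX.last; rw [e] at this; simp at this
    obtain ⟨a, w, hw⟩ := List.exists_cons_of_ne_nil hne
    rw [hw, List.tail_cons] at h1
    by_cases hwe : w = []
    · subst hwe
      have hl := hX.last
      have e2 : X.getLast? = some p := by simpa using h1
      have e1 : lastW X = p := by
        unfold lastW; rw [List.getLastD_eq_getLast?, e2]; rfl
      rw [← e1, hw]; rfl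
    · have hlastT : ∀ w : Word, w ≠ [] → ∃ c, w.tails.dropLast.getLast? = some [c] := by
        intro w hw
        induction w with
        | nil => exact absurd rfl hw
        | cons b w ih =>
          rw [List.tails_cons, List.dropLast_cons_of_ne_nil (tails_ne_nil' _)]
          by_cases hw' : w = []
          · subst hw'; exact ⟨b, by simp⟩
          · obtain ⟨c, hc⟩ := ih hw'
            refine ⟨c, ?_⟩
            rw [List.getLast?_cons, hc]; rfl
      obtain ⟨c, hc⟩ := hlastT w hwe
      rw [List.getLast?_append, hc] at h1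
      simp only [Option.some_or, Option.some.injEq] at h1
      rw [← h1]; rfl
  have : p.tail = [] := by
    rw [← List.length_eq_zero_iff, List.length_tail, hlast]
  rw [this]
  exact List.nil_prefix

end Crest.Agent.R287
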