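import Crest.Agent.R287.InvCount

/-!
# Row 287: structure of the states and total length of the final rings
-/

set_option autoImplicit false

namespace Crest.Agent.R287.IC

theorem getLast_concat_head {Z : PL} (hZ : Z ≠ []) (hc : Z.IsChain TP) (hl : linkB Z Z = true) :
    (Z ++ [Z.headD []]).IsChain TP := by
  rw [List.isChain_append]
  refine ⟨hc, List.isChain_singleton _, ?_⟩
  intro x hx y hy
  rw [List.getLast?_eq_some_getLast hZ] at hx
  simp only [Option.mem_def, Option.some.injEq, List.head?_cons] at hx hy
  subst hx; subst hy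
  have h1 : (lastW Z).tail <+: headW Z := linkB_iff.1 hl
  rw [lastW_eq hZ] at h1
  exact h1

theorem mergeAll_open {m : ℕ} {l : List PL} (h : ∀ X ∈ l, OpenAt m X) {Z : PL}
    (hZ : Z ∈ mergeAll l) : OpenAt m Z := by
  obtain ⟨b, hb, h1, h2, h3, h4, h5, h6, h7⟩ := mem_mergeAll (fun Y hY => (h Y hY).ne)
    (fun Y hY => (h Y hY).chain) hZ
  refine ⟨h4, h5, ?_, ?_⟩
  · intro p hp
    rw [h1, List.mem_flatten] at hp
    obtain ⟨X, hX, hp⟩ := hp
    exact (h X (h2 X hX)).len p hp
  · rw [h7]
    exact (h _ (h2 _ (List.getLast_mem hb))).last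

theorem mid_level {m : ℕ} (hm : 1 ≤ m) {st : St} (h : Mid m st) :
    Mid m ((mergeAll st.1).filter (fun X => !linkB X X),
      st.2 ++ (mergeAll st.1).filter (fun X => linkB X X)) ∧
    LinkFree ((mergeAll st.1).filter (fun X => !linkB X X),
      st.2 ++ (mergeAll st.1).filter (fun X => linkB X X)) := by
  refine ⟨⟨?_, ?_⟩, ?_⟩
  · intro X hX
    exact mergeAll_open h.opens (List.mem_filter.1 hX).1
  · intro P hP
    simp only [List.mem_append, List.mem_filter] at hP
    rcases hP with hP | ⟨hP, hl⟩
    · exact h.rings P hP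
    · have hZ := mergeAll_open h.opens hP
      refine ⟨⟨hZ.ne, ?_, getLast_concat_head hZ.ne hZ.chain hl⟩, hZ.len⟩
      intro p hp e
      have := hZ.len p hp
      rw [e] at this
      simp at this
      omega
  · intro X hX Y hY
    exact open_unlinked (fun Y hY => (h.opens Y hY).ne) hX hY

theorem issue_mid {m : ℕ} {st : St} {K : PL} (hM : Mid m st) (hK : K ∈ st.2) :
    Mid m (issue m st K) ∧ (issue m st K).2 = st.2 := by
  unfold issue
  by_cases hc : (decide (levN K = m + K.length) && candB (famS st) K) = true
  · rw [if_pos hc]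
    simp only [Bool.and_eq_true, decide_eq_true_eq] at hc
    have hx : (xw K).length = m := by
      rw [length_xw (hM.rings K hK).ring (by omega), hc.1]; omega
    exact ⟨hM.add hx, rfl⟩
  · rw [if_neg hc]
    exact ⟨hM, rfl⟩

theorem issues_mid {m : ℕ} (L : List PL) {st : St} (hM : Mid m st) (hL : ∀ K ∈ L, K ∈ st.2) :
    Mid m (L.foldl (issue m) st) ∧ (L.foldl (issue m) st).2 = st.2 := by
  induction L generalizing st with
  | nil => exact ⟨hM, rfl⟩
  | cons K L ih =>
    rw [List.foldl_cons]
    obtain ⟨h1, h2⟩ := issue_mid hM (hL K List.mem_cons_self)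
    obtain ⟨h4, h5⟩ := ih h1 (fun K' hK' => by rw [h2]; exact hL K' (List.mem_cons_of_mem _ hK'))
    exact ⟨h4, h5.trans h2⟩

theorem addInput_mid {m : ℕ} {st : St} {s : Word} (hM : Mid m st) : Mid m (addInput m st s) := by
  unfold addInput
  by_cases hc : (decide (s.length = m) && !occursB st s) = true
  · rw [if_pos hc]
    simp only [Bool.and_eq_true, decide_eq_true_eq, Bool.not_eq_true'] at hc
    exact hM.add hc.1
  · rw [if_neg hc]
    exact hM

theorem addInputs_mid {m : ℕ} (S : List Word) {st : St} (hM : Mid m st) :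
    Mid m (S.foldl (addInput m) st) := by
  induction S generalizing st with
  | nil => exact hM
  | cons s S ih => rw [List.foldl_cons]; exact ih (addInput_mid hM)

theorem struct_level {m : ℕ} (hm : 1 ≤ m) (S : List Word) {st : St} (hM : Mid (m + 1) st) :
    Mid m (level S m st) ∧ LinkFree (level S m st) := by
  have h1 := issues_mid st.2 hM.ext (fun K hK => hK)
  have h2 := addInputs_mid S h1.1
  exact mid_level hm h2

theorem struct_stt (S : List Word) : ∀ i ≤ maxLen S,
    Mid (maxLen S - i + 1) (stt S i) ∧ LinkFree (stt S i) := by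
  intro i
  induction i with
  | zero =>
    intro _
    refine ⟨⟨?_, ?_⟩, ?_⟩
    · intro X hX; simp [stt] at hX
    · intro X hX; simp [stt] at hX
    · intro X hX; simp [stt] at hX
  | succ i ih =>
    intro hi
    have h1 := (ih (by omega)).1
    have hm : maxLen S - (i + 1) + 1 = maxLen S - i := by omega
    rw [hm]
    exact struct_level (by omega) S h1

theorem ringsOf_isPRing (S : List Word) : ∀ P ∈ ringsOf S, IsPRing P := fun P hP =>
  ((struct_stt S (maxLen S) le_rfl).1.rings P hP).ring

end Crest.Agent.R287.IC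

namespace Crest.Agent.R287

/-- the total length of the final rings is at most the length of every superstring -/
theorem ringsOf_sum_le (S : List Word) (T : List ℕ) (h : ∀ s ∈ S, s <:+: T) :
    ((ringsOf S).map List.length).sum ≤ T.length := by
  have h1 := IC.sum_le_of_struct S h (IC.struct_stt S)
  rw [List.flatten_append, List.length_append, List.length_flatten (L := (stt S (maxLen S)).2)] at h1
  unfold ringsOf
  omega

end Crest.Agent.R287
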