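import Crest.Agent.R287.StepA
import Crest.Agent.R287.LBDefs

/-!
# Row 287 (S0432): Step A of the slack lemma, for rings
-/

set_option autoImplicit false

namespace Crest.Agent.R287

open Finset

section stepA

set_option linter.unusedSectionVars false

variable {ι : Type*} [Fintype ι] (R : ι → Ring) (K : ι) (z : ℤ)

/-- the length of the candidate word `x` -/
noncomputable abbrev xlen : ℤ := (R K).lev - (R K).w

/-- position `s` of ring `c` is in phase with position `i` of the ring `K` -/
def Ph (c : ι) (s i : ℤ) : Prop := ∀ r, (R c).κ (s + r) = (R K).κ (i + r)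

/-- the values of the rings in phase, column `i` -/
def envSet (i : ℤ) : Set ℤ :=
  {v | ∃ c s, VisU R K z (xlen R K) c ∧ Ph R K c s i ∧ v = (R c).F s - s + i}

/-- the lower envelope -/
noncomputable def env (i : ℤ) : ℤ := sInf (envSet R K z i)

variable {R K z}

theorem Ph.succ {c : ι} {s i : ℤ} (h : Ph R K c s i) (a : ℤ) : Ph R K c (s + a) (i + a) := by
  intro r
  have := h (a + r)
  rw [show s + a + r = s + (a + r) by ring, show i + a + r = i + (a + r) by ring]
  exact this

theorem Ph.per {c : ι} {s i : ℤ} (h : Ph R K c s i) (k : ℤ) : Ph R K c s (i + k * (R K).w) := by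
  intro r
  rw [h r, show i + k * ((R K).w : ℤ) + r = (i + r) + k * (R K).w by ring, (R K).κper']

theorem Cand.visUK (hC : Cand R K z) : VisU R K z (xlen R K) K := by
  have hw := hC.wrapK
  unfold Ring.Wrap at hw
  refine ⟨z, z + (R K).lev, z, le_rfl, ?_, ?_, ?_, ?_⟩
  · unfold xlen; omega
  · congr 1; ring
  · rw [hC.bot]; omega
  · have := (R K).lev_le (z + 1)
    have hm := (R K).mono (show z - 1 ≤ z by omega)
    rw [hC.bot] at hm
    omega

theorem envSet_bound (hC : Cand R K z) {i v : ℤ} (hv : v ∈ envSet R K z i) :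
    i + 1 + (R K).lev ≤ v := by
  obtain ⟨c, s, hc, _, rfl⟩ := hv
  have h1 := (hC.wrap c hc).2
  have h2 := (R c).lev_le (s + 1)
  rw [show s + 1 - 1 = s by ring] at h2
  omega

theorem envSet_nonempty (hC : Cand R K z) (i : ℤ) : (envSet R K z i).Nonempty :=
  ⟨_, K, i, hC.visUK, fun _ => rfl, rfl⟩

theorem envSet_bddBelow (hC : Cand R K z) (i : ℤ) : BddBelow (envSet R K z i) :=
  ⟨_, fun _ hv => envSet_bound hC hv⟩

theorem env_mem (hC : Cand R K z) (i : ℤ) : ∃ c s, VisU R K z (xlen R K) c ∧ Ph R K c s i ∧
    env R K z i = (R c).F s - s + i :=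
  Int.csInf_mem (envSet_nonempty hC i) (envSet_bddBelow hC i)

theorem env_le (hC : Cand R K z) {i s : ℤ} {c : ι} (hc : VisU R K z (xlen R K) c)
    (h : Ph R K c s i) : env R K z i ≤ (R c).F s - s + i :=
  csInf_le (envSet_bddBelow hC i) ⟨c, s, hc, h, rfl⟩

theorem le_env (hC : Cand R K z) (i : ℤ) : i + 1 + (R K).lev ≤ env R K z i :=
  envSet_bound hC (env_mem hC i)

theorem env_le_F (hC : Cand R K z) (i : ℤ) : env R K z i ≤ (R K).F i := by
  have := env_le hC hC.visUK (fun _ => rfl : Ph R K K i i)
  omega

theorem env_mono (hC : Cand R K z) (i : ℤ) : env R K z i ≤ env R K z (i + 1) := by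
  obtain ⟨c, s, hc, h, e⟩ := env_mem hC (i + 1)
  have h' : Ph R K c (s - 1) i := by
    have := h.succ (-1)
    rwa [show s + -1 = s - 1 by ring, show i + 1 + -1 = i by ring] at this
  have h1 := env_le hC hc h'
  have h2 := (R c).mono (show s - 1 ≤ s by omega)
  omega

theorem env_monotone (hC : Cand R K z) : Monotone (env R K z) := by
  apply monotone_int_of_le_succ
  exact env_mono hC

theorem env_per (hC : Cand R K z) (i k : ℤ) :
    env R K z (i + k * (R K).w) = env R K z i + k * (R K).w := by
  have key : ∀ i k : ℤ, env R K z (i + k * (R K).w) ≤ env R K z i + k * (R K).w := by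
    intro i k
    obtain ⟨c, s, hc, h, e⟩ := env_mem hC i
    have := env_le hC hc (h.per k)
    omega
  refine le_antisymm (key i k) ?_
  have := key (i + k * (R K).w) (-k)
  rw [show i + k * ((R K).w : ℤ) + -k * (R K).w = i by ring] at this
  linarith

/-- a window of length at least `lev` contains a lift of `x` -/
theorem exists_shift (z : ℤ) {i j : ℤ} (h : i + (R K).lev ≤ j) :
    ∃ k : ℤ, z - (R K).w < i + k * (R K).w ∧ i + k * (R K).w ≤ z ∧
      z + xlen R K ≤ j + k * (R K).w := by
  have hw' : (0 : ℤ) < (R K).w := by exact_mod_cast (R K).wpos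
  refine ⟨(z - i) / (R K).w, ?_, ?_, ?_⟩
  · have h1 := Int.emod_lt_of_pos (z - i) hw'
    have h2 := Int.emod_add_mul_ediv (z - i) (R K).w
    rw [mul_comm] at h2
    linarith
  · have h1 := Int.emod_nonneg (z - i) hw'.ne'
    have h2 := Int.emod_add_mul_ediv (z - i) (R K).w
    rw [mul_comm] at h2
    linarith
  · have h1 := Int.emod_lt_of_pos (z - i) hw'
    have h2 := Int.emod_add_mul_ediv (z - i) (R K).w
    rw [mul_comm] at h2
    unfold xlen
    linarith

/-- a ring visiting a `K`-window on or above the envelope is in the family and in phase -/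
theorem phase_of_vis (hC : Cand R K z) {c : ι} {i j t : ℤ} (hij : env R K z (i - 1) ≤ j)
    (hw : win (R c).κ t (t + (j - i)) = win (R K).κ i j) (hv : (R c).Vis t (t + (j - i))) :
    VisU R K z (xlen R K) c ∧ Ph R K c t i := by
  have hl := le_env hC (i - 1)
  obtain ⟨k, _, hk1, hk2⟩ := exists_shift (R := R) (K := K) z (i := i) (j := j) (by omega)
  have hc : VisU R K z (xlen R K) c := by
    refine ⟨i + k * (R K).w, j + k * (R K).w, t, hk1, hk2, ?_, ?_⟩
    · rw [(R K).win_per', ← hw]; congr 1; ring
    · convert hv using 1; ring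
  refine ⟨hc, ?_⟩
  by_contra hph
  obtain ⟨c', s, hc', h, e⟩ := env_mem hC (i - 1)
  apply hC.unlinked c c' hc hc'
  have h' : Ph R K c' (s + 1) i := by
    have := h.succ 1
    rwa [show i - 1 + 1 = i by ring] at this
  refine ⟨t, s + 1, j - i, ?_, hv.1, ?_, ?_⟩
  · rw [hw, win_eq_iff _ _ (by ring)]
    intro n _ _
    exact (h' n).symm
  · unfold Ring.Touch
    rw [show s + 1 - 1 = s by ring]
    omega
  · intro hcc
    apply hph
    intro r
    rw [hcc r, h' r]

/-- **Step A** -/
theorem stepA (hC : Cand R K z) {T : List ℕ}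
    (hOcc : ∀ y : List ℕ, (xlen R K).toNat < y.length → Mtot R y ≤ occ y T) :
    ∃ i0 j0 : ℤ, z - (R K).w < i0 ∧ i0 ≤ z ∧ z + xlen R K < j0 ∧ j0 ≤ z + (R K).lev ∧
      i0 + (R K).lev ≤ j0 ∧
      (∀ c s, VisU R K z (xlen R K) c → Ph R K c s i0 → j0 ≤ (R c).F (s - 1) - s + i0) ∧
      (∃ c s, VisU R K z (xlen R K) c ∧ Ph R K c s i0 ∧ j0 = (R c).F (s - 1) - s + i0) ∧
      Mtot R (win (R K).κ i0 j0) + 1 ≤ occ (win (R K).κ i0 j0) T := by
  classical
  obtain ⟨A, hA, hAT⟩ := exists_alphabet R T
  have hwr := hC.wrapK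
  unfold Ring.Wrap at hwr
  have hw' : (0 : ℤ) < (R K).w := by exact_mod_cast (R K).wpos
  set E : ℤ → ℤ → ℤ := fun i j =>
    (occ (win (R K).κ i j) T : ℤ) - Mtot R (win (R K).κ i j) with hE
  set D : ℤ → ℤ → ℤ := fun i j => (Dtot R (win (R K).κ i j) : ℤ) with hD
  set Q : ℤ → ℤ → ℤ := fun i j =>
    ∑ b ∈ A.erase ((R K).κ j), ((occ (win (R K).κ i j ++ [b]) T : ℤ) -
      Mtot R (win (R K).κ i j ++ [b])) + (if win (R K).κ i j <:+ T then 1 else 0) with hQ
  have hlen : ∀ i j : ℤ, env R K z (i - 1) ≤ j →
      (xlen R K).toNat < (win (R K).κ i j).length := by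
    intro i j hij
    have := le_env hC (i - 1)
    rw [length_win]
    unfold xlen
    omega
  have hne : ∀ i j : ℤ, env R K z (i - 1) ≤ j → win (R K).κ i j ≠ [] := by
    intro i j hij e
    have := hlen i j hij
    rw [e] at this
    simp at this
  have hlt : ∀ i j : ℤ, env R K z (i - 1) ≤ j → i < j := by
    intro i j hij
    have := le_env hC (i - 1)
    omega
  have main := stepA_abstract (env R K z) E D Q ?hR ?hE0 ?hR0 ?hD0 (env_mono hC) ?hL ?hDz ?hD1
    ?hcol ?hfin
  case hR =>
    intro i j hij
    have h1 := Mtot_eq_D (R := R) hA (win (R K).κ i j)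
    have h2 := occ_eq_suffix A hAT (hne i j hij)
    have h3 := Finset.add_sum_erase A (fun b => ((occ (win (R K).κ i j ++ [b]) T : ℤ) -
      Mtot R (win (R K).κ i j ++ [b]))) (hA K j)
    have h4 : win (R K).κ i (j + 1) = win (R K).κ i j ++ [(R K).κ j] :=
      win_concat _ (hlt i j hij).le
    simp only [hE, hD, hQ, h4]
    have h5 : ∑ b ∈ A, ((occ (win (R K).κ i j ++ [b]) T : ℤ) -
        Mtot R (win (R K).κ i j ++ [b])) = ∑ b ∈ A, (occ (win (R K).κ i j ++ [b]) T : ℤ) -
        ∑ b ∈ A, (Mtot R (win (R K).κ i j ++ [b]) : ℤ) := Finset.sum_sub_distrib _ _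
    have h1' : (Mtot R (win (R K).κ i j) : ℤ) =
        ∑ b ∈ A, (Mtot R (win (R K).κ i j ++ [b]) : ℤ) + Dtot R (win (R K).κ i j) := by
      exact_mod_cast h1
    have h2' : (occ (win (R K).κ i j) T : ℤ) =
        ∑ b ∈ A, (occ (win (R K).κ i j ++ [b]) T : ℤ) +
          (if win (R K).κ i j <:+ T then 1 else 0) := by
      rw [h2]; push_cast; rfl
    rw [h1', h2']
    linarith
  case hE0 =>
    intro i j hij
    have := hOcc _ (hlen i j hij)
    simp only [hE]
    omega
  case hR0 =>
    intro i j hij
    simp only [hQ]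
    have h1 : 0 ≤ ∑ b ∈ A.erase ((R K).κ j), ((occ (win (R K).κ i j ++ [b]) T : ℤ) -
        Mtot R (win (R K).κ i j ++ [b])) := by
      apply Finset.sum_nonneg
      intro b _
      have := hOcc (win (R K).κ i j ++ [b]) (by
        rw [List.length_append]
        have := hlen i j hij
        omega)
      omega
    split_ifs <;> omega
  case hD0 =>
    intro i j _
    simp only [hD]
    omega
  case hL =>
    intro i j hij
    simp only [hQ]
    have hlt' := hlt i j hij
    have hcons : win (R K).κ (i - 1) j = (R K).κ (i - 1) :: win (R K).κ i j := by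
      rw [win_cons _ (by omega), show i - 1 + 1 = i by ring]
    have h2 : (if win (R K).κ (i - 1) j <:+ T then (1 : ℤ) else 0) ≤
        (if win (R K).κ i j <:+ T then 1 else 0) := by
      rw [hcons]
      by_cases h : (R K).κ (i - 1) :: win (R K).κ i j <:+ T
      · rw [if_pos h, if_pos ((List.suffix_cons _ _).trans h)]
      · rw [if_neg h]
        split_ifs <;> omega
    have h1 : ∑ b ∈ A.erase ((R K).κ j), ((occ (win (R K).κ (i - 1) j ++ [b]) T : ℤ) -
          Mtot R (win (R K).κ (i - 1) j ++ [b])) ≤
        ∑ b ∈ A.erase ((R K).κ j), ((occ (win (R K).κ i j ++ [b]) T : ℤ) -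
          Mtot R (win (R K).κ i j ++ [b])) := by
      apply Finset.sum_le_sum
      intro b hb
      have hbne : b ≠ (R K).κ j := (Finset.mem_erase.mp hb).1
      rw [hcons, List.cons_append]
      set y := win (R K).κ i j ++ [b] with hy
      have hylen : y.length = (j - i).toNat + 1 := by simp [hy]
      have hyne : y ≠ [] := by simp [hy]
      have e1 := Mtot_eq_U (R := R) hA y
      have e2 := occ_eq_prefix A hAT hyne
      have hU : Utot R y = 0 := by
        unfold Utot
        apply Finset.sum_eq_zero
        intro c _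
        by_contra hpos
        obtain ⟨t, ht1, ht2, ht3⟩ := (R c).exists_of_U_pos (Nat.pos_of_ne_zero hpos)
        have hl : (y.length : ℤ) = (j - i) + 1 := by rw [hylen]; push_cast; omega
        rw [hl] at ht1 ht2 ht3
        have ht1' : win (R c).κ t (t + (j - i)) ++ [(R c).κ (t + (j - i))] =
            win (R K).κ i j ++ [b] := by
          rw [← win_concat _ (by omega), ← hy, ← ht1]
          congr 1
          ring
        have hsplit := List.append_inj ht1' (by simp)
        have hb' : (R c).κ (t + (j - i)) = b := by simpa using hsplit.2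
        have hph := (phase_of_vis hC hij hsplit.1 ⟨by omega, by omega⟩).2
        apply hbne
        rw [← hb', hph (j - i)]
        congr 1
        ring
      rw [hU] at e1
      have e1' : (Mtot R y : ℤ) = ∑ a ∈ A, (Mtot R (a :: y) : ℤ) := by
        rw [e1]; push_cast; ring
      have e2' : (occ y T : ℤ) = ∑ a ∈ A, (occ (a :: y) T : ℤ) +
          (if y <+: T then 1 else 0) := by
        rw [e2]; push_cast; rfl
      have e3 : (occ ((R K).κ (i - 1) :: y) T : ℤ) - Mtot R ((R K).κ (i - 1) :: y) ≤
          ∑ a ∈ A, ((occ (a :: y) T : ℤ) - Mtot R (a :: y)) := by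
        apply Finset.single_le_sum (f := fun a => ((occ (a :: y) T : ℤ) - Mtot R (a :: y)))
          _ (hA K (i - 1))
        intro a _
        have := hOcc (a :: y) (by
          have := hlen i j hij
          simp only [List.length_cons, hylen]
          rw [length_win] at this
          omega)
        omega
      rw [Finset.sum_sub_distrib] at e3
      have e4 : (0 : ℤ) ≤ (if y <+: T then 1 else 0) := by split_ifs <;> omega
      linarith
    linarith
  case hDz =>
    intro i j hij hji
    simp only [hD]
    have : Dtot R (win (R K).κ i j) = 0 := by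
      unfold Dtot
      apply Finset.sum_eq_zero
      intro c _
      by_contra hpos
      obtain ⟨t, ht1, ht2⟩ := (R c).exists_of_D_pos (Nat.pos_of_ne_zero hpos)
      have hl : ((win (R K).κ i j).length : ℤ) = j - i := by
        rw [length_win]; have := hlt i j hij; omega
      rw [hl] at ht1 ht2
      have hm := (R c).mono (show t - 1 ≤ t by omega)
      obtain ⟨hc, hph⟩ := phase_of_vis hC hij ht1 ⟨by omega, by omega⟩
      have := env_le hC hc hph
      omega
    rw [this]
    rfl
  case hD1 =>
    intro i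
    obtain ⟨c, s, hc, h, e⟩ := env_mem hC i
    simp only [hD]
    have hb := le_env hC i
    have hl : ((win (R K).κ i (env R K z i)).length : ℤ) = env R K z i - i := by
      rw [length_win]; omega
    have h1 : 0 < (R c).D (win (R K).κ i (env R K z i)) := by
      unfold Ring.D
      apply cnt_pos (R c).wpos ((R c).D_per _) (i := s)
      rw [hl]
      refine ⟨?_, by omega⟩
      rw [win_eq_iff _ _ (by ring)]
      intro n _ _
      exact h n
    have h2 : (R c).D (win (R K).κ i (env R K z i)) ≤ Dtot R (win (R K).κ i (env R K z i)) :=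
      Finset.single_le_sum (f := fun c => (R c).D (win (R K).κ i (env R K z i)))
        (fun _ _ => Nat.zero_le _) (Finset.mem_univ c)
    omega
  case hcol =>
    intro j
    obtain ⟨B, hB⟩ := (R K).exists_bound
    have hbd : ∀ i : ℤ, j < env R K z i → j - B ≤ i := by
      intro i hi
      have h1 := env_le_F hC i
      have h2 := hB i
      omega
    obtain ⟨i, hi, hmin⟩ := Int.exists_least_of_bdd (P := fun i => j < env R K z i)
      ⟨j - B, hbd⟩ ⟨j, by have := le_env hC j; omega⟩
    refine ⟨i, ?_, hi⟩
    by_contra hcon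
    have := hmin (i - 1) (by omega)
    omega
  case hfin =>
    intro i
    refine ⟨max (env R K z i + 1) (i + T.length + 1), by omega, ?_⟩
    simp only [hE]
    have h1 : occ (win (R K).κ i (max (env R K z i + 1) (i + T.length + 1))) T = 0 := by
      apply occ_eq_zero_of_length_lt
      rw [length_win]
      omega
    rw [h1]
    omega
  obtain ⟨i, hi⟩ := main
  have hle := le_env hC (i - 1)
  obtain ⟨k, hk0, hk1, hk2⟩ := exists_shift (R := R) (K := K) z (i := i) (j := env R K z (i - 1)) (by omega)
  have hj0 : env R K z (i + k * (R K).w - 1) = env R K z (i - 1) + k * (R K).w := by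
    rw [show i + k * ((R K).w : ℤ) - 1 = (i - 1) + k * (R K).w by ring, env_per hC]
  have hi0l := le_env hC (i + k * (R K).w - 1)
  refine ⟨i + k * (R K).w, env R K z (i + k * (R K).w - 1), hk0, hk1, ?_, ?_, ?_, ?_, ?_, ?_⟩
  · unfold xlen; omega
  · have h1 := env_monotone hC (show i + k * ((R K).w : ℤ) - 1 ≤ z - 1 by omega)
    have h2 := env_le_F hC (z - 1)
    rw [hC.bot] at h2
    omega
  · omega
  · intro c s hc hph
    have h1 : Ph R K c (s - 1) (i + k * (R K).w - 1) := by
      have := hph.succ (-1)
      rwa [show s + -1 = s - 1 by ring,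
        show i + k * ((R K).w : ℤ) + -1 = i + k * (R K).w - 1 by ring] at this
    have := env_le hC hc h1
    omega
  · obtain ⟨c, s, hc, hph, e⟩ := env_mem hC (i + k * (R K).w - 1)
    refine ⟨c, s + 1, hc, ?_, ?_⟩
    · have := hph.succ 1
      rwa [show i + k * ((R K).w : ℤ) - 1 + 1 = i + k * (R K).w by ring] at this
    · rw [show s + 1 - 1 = s by ring]
      omega
  · rw [hj0, (R K).win_per']
    simp only [hE] at hi
    omega

end stepA

end Crest.Agent.R287
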