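import Crest.Agent.R287.InvStruct
import Crest.Agent.R287.InvCount
import Crest.Agent.R287.Final

/-!
Row 287: the lower bound for the final rings and S0432.
-/

set_option autoImplicit false

namespace Crest.Agent.R287

theorem ringsOf_sum_le (S : List Word) (T : Word) (hT : ∀ s ∈ S, s <:+: T) :
    ((ringsOf S).map List.length).sum ≤ T.length := by
  have h := IC.sum_le_of_struct S hT (fun i hi => by
    have h := linv_stt S hi
    refine ⟨⟨fun X hX => ?_, fun P hP => ?_⟩, h.free⟩
    · exact ⟨(h.opens X hX).ne, (h.opens X hX).chain, (h.opens X hX).len, (h.opens X hX).last⟩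
    · exact ⟨(h.rings P hP).ring, (h.rings P hP).len⟩)
  have e : ((stt S (maxLen S)).1 ++ (stt S (maxLen S)).2).flatten.length
      = ((stt S (maxLen S)).1.map List.length).sum + ((ringsOf S).map List.length).sum := by
    rw [List.flatten_append, List.length_append, List.length_flatten, List.length_flatten]
    rfl
  omega

/-- the statement S0432 -/
theorem s0432 :
    ∃ f : List Bool → List Bool, Crest.Complexity.PolyTime f ∧
      ∀ S : List (List ℕ), ∃ T : List ℕ,
        f (Crest.Enc.natCode S.length ++ (S.map Crest.Enc.listCode).flatten) = Crest.Enc.listCode T ∧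
        (∀ s ∈ S, s <:+: T) ∧
        ∀ T' : List ℕ, (∀ s ∈ S, s <:+: T') → T.length ≤ 2 * T'.length :=
  final_of ringsOf_isPRing ringsOf_sum_le

end Crest.Agent.R287
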