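import Mathlib

/-!
Row 287 (shortest superstring, 2-approximation): rings = closed walks of the hierarchical graph
in staircase form, counting functions and their two basic recursions; occurrences in a string.
-/

set_option autoImplicit false

namespace Crest.Agent.R287

/-- the window `κ[i, j)` -/
def win (κ : ℤ → ℕ) (i j : ℤ) : List ℕ :=
  (List.range (j - i).toNat).map (fun k : ℕ => κ (i + (k : ℤ)))

@[simp] theorem length_win (κ : ℤ → ℕ) (i j : ℤ) : (win κ i j).length = (j - i).toNat := by
  simp [win]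

theorem win_self (κ : ℤ → ℕ) (i : ℤ) : win κ i i = [] := by simp [win]

theorem win_eq_nil (κ : ℤ → ℕ) {i j : ℤ} (h : j ≤ i) : win κ i j = [] := by
  have : (j - i).toNat = 0 := by omega
  simp [win, this]

theorem win_concat (κ : ℤ → ℕ) {i j : ℤ} (h : i ≤ j) :
    win κ i (j + 1) = win κ i j ++ [κ j] := by
  have h1 : (j + 1 - i).toNat = (j - i).toNat + 1 := by omega
  have h2 : i + (((j - i).toNat : ℕ) : ℤ) = j := by omega
  rw [win, h1, List.range_succ, List.map_append, List.map_singleton, h2, win]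

theorem win_cons (κ : ℤ → ℕ) {i j : ℤ} (h : i < j) :
    win κ i j = κ i :: win κ (i + 1) j := by
  have h1 : (j - i).toNat = (j - (i + 1)).toNat + 1 := by omega
  simp only [win, h1, List.range_succ_eq_map, List.map_cons, List.map_map]
  congr 1
  · simp
  · apply List.map_congr_left
    intro a _
    simp only [Function.comp]
    congr 1
    push_cast
    ring

theorem win_append (κ : ℤ → ℕ) {i j k : ℤ} (h : i ≤ j) (h' : j ≤ k) :
    win κ i k = win κ i j ++ win κ j k := by
  have h1 : (k - i).toNat = (j - i).toNat + (k - j).toNat := by omega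
  simp only [win, h1, List.range_add, List.map_append, List.map_map]
  congr 1
  apply List.map_congr_left
  intro a _
  simp only [Function.comp]
  congr 1
  push_cast
  omega

theorem win_eq_iff (κ κ' : ℤ → ℕ) {i j i' j' : ℤ} (h : j - i = j' - i') :
    win κ i j = win κ' i' j' ↔ ∀ n : ℤ, 0 ≤ n → n < j - i → κ (i + n) = κ' (i' + n) := by
  have h1 : (j - i).toNat = (j' - i').toNat := by rw [h]
  constructor
  · intro e n hn hn'
    have := congrArg (fun l => l[n.toNat]?) e
    simp only [win, List.getElem?_map] at this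
    have hr : n.toNat < (j - i).toNat := by omega
    rw [List.getElem?_range hr, List.getElem?_range (h1 ▸ hr)] at this
    simp only [Option.map_some, Option.some.injEq] at this
    have h2 : ((n.toNat : ℕ) : ℤ) = n := by omega
    rw [h2] at this
    exact this
  · intro e
    simp only [win, ← h1]
    apply List.map_congr_left
    intro a ha
    rw [List.mem_range] at ha
    exact e a (by omega) (by omega)

theorem win_getElem? (κ : ℤ → ℕ) {i j : ℤ} {n : ℕ} (h : (n : ℤ) < j - i) :
    (win κ i j)[n]? = some (κ (i + n)) := by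
  simp only [win, List.getElem?_map]
  rw [List.getElem?_range (by omega)]
  rfl

/-- a string equal to a window: characterisation -/
theorem win_eq_iff_list (κ : ℤ → ℕ) (i : ℤ) (y : List ℕ) :
    win κ i (i + y.length) = y ↔ ∀ n : ℕ, n < y.length → some (κ (i + n)) = y[n]? := by
  constructor
  · intro e n hn
    rw [← win_getElem? κ (i := i) (j := i + y.length) (n := n) (by omega), e]
  · intro e
    apply List.ext_getElem?
    intro n
    by_cases hn : n < y.length
    · rw [win_getElem? κ (by omega), e n hn]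
    · rw [List.getElem?_eq_none (by simp; omega), List.getElem?_eq_none (by omega)]

/-- A ring: a closed walk in the hierarchical graph (append a letter / drop the first letter).
`κ` is its bi-infinite periodic text with period `w`; the letter at position `i` is dropped when the
right end is `F i`.  The visited windows in column `i` are `κ[i, j)` with `F (i-1) ≤ j ≤ F i`. -/
structure Ring where
  w : ℕ
  wpos : 0 < w
  κ : ℤ → ℕ
  κper : ∀ i, κ (i + w) = κ i
  F : ℤ → ℤ
  mono : Monotone F
  Fper : ∀ i, F (i + w) = F i + w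
  Fgt : ∀ i, i < F i

/-- number of residues `n < w` satisfying `P` -/
def cnt (w : ℕ) (P : ℤ → Prop) [DecidablePred P] : ℕ :=
  ∑ n ∈ Finset.range w, if P n then 1 else 0

theorem sum_shift_one (w : ℕ) (f : ℤ → ℕ) (hf : ∀ i, f (i + w) = f i) :
    ∑ n ∈ Finset.range w, f (n + 1) = ∑ n ∈ Finset.range w, f n := by
  have h1 := Finset.sum_range_succ (fun n : ℕ => f (n : ℤ)) w
  have h2 := Finset.sum_range_succ' (fun n : ℕ => f (n : ℤ)) w
  have h3 : f (w : ℤ) = f 0 := by simpa using hf 0
  simp only [Nat.cast_add, Nat.cast_one, Nat.cast_zero] at h1 h2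
  omega

theorem cnt_shift_one {w : ℕ} {P : ℤ → Prop} [DecidablePred P] (hP : ∀ i, P (i + w) ↔ P i) :
    cnt w (fun i => P (i + 1)) = cnt w P := by
  unfold cnt
  exact sum_shift_one w (fun i => if P i then 1 else 0) (by intro i; simp [hP])

theorem cnt_congr {w : ℕ} {P Q : ℤ → Prop} [DecidablePred P] [DecidablePred Q]
    (h : ∀ i, P i ↔ Q i) : cnt w P = cnt w Q := by
  unfold cnt
  exact Finset.sum_congr rfl (fun n _ => by simp [h])

theorem cnt_eq_zero {w : ℕ} {P : ℤ → Prop} [DecidablePred P] (h : ∀ i, ¬ P i) : cnt w P = 0 := by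
  unfold cnt
  exact Finset.sum_eq_zero (fun n _ => by simp [h])

theorem exists_of_cnt_pos {w : ℕ} {P : ℤ → Prop} [DecidablePred P] (h : 0 < cnt w P) :
    ∃ i, P i := by
  by_contra hc
  push Not at hc
  rw [cnt_eq_zero hc] at h
  exact lt_irrefl _ h

theorem cnt_pos {w : ℕ} (hw : 0 < w) {P : ℤ → Prop} [DecidablePred P]
    (hP : ∀ i, P (i + w) ↔ P i) {i : ℤ} (h : P i) : 0 < cnt w P := by
  have hPk : ∀ (k : ℕ) (i : ℤ), P (i + k * w) ↔ P i := by
    intro k
    induction k with
    | zero => intro i; simp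
    | succ k ih =>
      intro i
      have : i + ((k + 1 : ℕ) : ℤ) * w = (i + k * w) + w := by push_cast; ring
      rw [this, hP, ih]
  have hPz : ∀ (k : ℤ) (i : ℤ), P (i + k * w) ↔ P i := by
    intro k i
    obtain ⟨n, rfl | rfl⟩ := Int.eq_nat_or_neg k
    · exact hPk n i
    · have := hPk n (i + -(n : ℤ) * w)
      have e : i + -(n : ℤ) * w + n * w = i := by ring
      rw [e] at this
      exact this.symm
  have hw' : (0 : ℤ) < w := by exact_mod_cast hw
  have h0 := Int.emod_nonneg i hw'.ne'
  have h1 := Int.emod_lt_of_pos i hw'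
  have h2 : P (i % w) := by
    have e : i % w + (i / w) * w = i := by rw [mul_comm]; exact Int.emod_add_mul_ediv i w
    have := hPz (i / w) (i % w)
    rw [e] at this
    exact this.mp h
  obtain ⟨n, hn⟩ := Int.eq_ofNat_of_zero_le h0
  unfold cnt
  refine Finset.sum_pos' (fun _ _ => Nat.zero_le _) ⟨n, ?_, ?_⟩
  · rw [Finset.mem_range]; omega
  · rw [hn] at h2
    have h2' : P (n : ℤ) := h2
    simp [h2']

namespace Ring

variable (R : Ring)

/-- visited lattice points -/
def Vis (i j : ℤ) : Prop := R.F (i - 1) ≤ j ∧ j ≤ R.F i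

/-- number of occurrences of `y` covered by the walk -/
def M (y : List ℕ) : ℕ :=
  cnt R.w (fun i => win R.κ i (i + y.length) = y ∧ i + y.length ≤ R.F i)

/-- number of down-arcs out of `y` -/
def D (y : List ℕ) : ℕ :=
  cnt R.w (fun i => win R.κ i (i + y.length) = y ∧ i + y.length = R.F i)

/-- number of up-arcs into `y` -/
def U (y : List ℕ) : ℕ :=
  cnt R.w (fun i => win R.κ i (i + y.length) = y ∧ (R.F (i - 1) < i + y.length ∧
    i + y.length ≤ R.F i))

theorem κper' (k i : ℤ) : R.κ (i + k * R.w) = R.κ i := by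
  have hn : ∀ (n : ℕ) (i : ℤ), R.κ (i + n * R.w) = R.κ i := by
    intro n
    induction n with
    | zero => intro i; simp
    | succ n ih =>
      intro i
      have : i + ((n + 1 : ℕ) : ℤ) * R.w = (i + n * R.w) + R.w := by push_cast; ring
      rw [this, R.κper, ih]
  obtain ⟨n, rfl | rfl⟩ := Int.eq_nat_or_neg k
  · exact hn n i
  · have := hn n (i + -(n : ℤ) * R.w)
    have e : i + -(n : ℤ) * R.w + n * R.w = i := by ring
    rw [e] at this
    exact this.symm

theorem Fper' (k i : ℤ) : R.F (i + k * R.w) = R.F i + k * R.w := by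
  have hn : ∀ (n : ℕ) (i : ℤ), R.F (i + n * R.w) = R.F i + n * R.w := by
    intro n
    induction n with
    | zero => intro i; simp
    | succ n ih =>
      intro i
      have : i + ((n + 1 : ℕ) : ℤ) * R.w = (i + n * R.w) + R.w := by push_cast; ring
      rw [this, R.Fper, ih]; push_cast; ring
  obtain ⟨n, rfl | rfl⟩ := Int.eq_nat_or_neg k
  · exact hn n i
  · have := hn n (i + -(n : ℤ) * R.w)
    have e : i + -(n : ℤ) * R.w + n * R.w = i := by ring
    rw [e] at this
    linarith

theorem win_per (i j : ℤ) : win R.κ (i + R.w) (j + R.w) = win R.κ i j := by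
  rw [win_eq_iff _ _ (by ring)]
  intro n _ _
  have : i + R.w + n = (i + n) + R.w := by ring
  rw [this, R.κper]

theorem win_per' (k i j : ℤ) : win R.κ (i + k * R.w) (j + k * R.w) = win R.κ i j := by
  rw [win_eq_iff _ _ (by ring)]
  intro n _ _
  have : i + k * R.w + n = (i + n) + k * R.w := by ring
  rw [this, R.κper']

theorem Vis_per (k i j : ℤ) : R.Vis (i + k * R.w) (j + k * R.w) ↔ R.Vis i j := by
  unfold Vis
  have e : i + k * R.w - 1 = (i - 1) + k * R.w := by ring
  rw [e, R.Fper', R.Fper']
  constructor <;> intro h <;> constructor <;> linarith [h.1, h.2]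

theorem M_per (y : List ℕ) (i : ℤ) :
    (win R.κ (i + R.w) (i + R.w + y.length) = y ∧ i + R.w + y.length ≤ R.F (i + R.w)) ↔
    (win R.κ i (i + y.length) = y ∧ i + y.length ≤ R.F i) := by
  have e : i + (R.w : ℤ) + y.length = (i + y.length) + R.w := by ring
  rw [e, R.win_per, R.Fper]
  constructor <;> rintro ⟨h1, h2⟩ <;> exact ⟨h1, by linarith⟩

theorem D_per (y : List ℕ) (i : ℤ) :
    (win R.κ (i + R.w) (i + R.w + y.length) = y ∧ i + R.w + y.length = R.F (i + R.w)) ↔
    (win R.κ i (i + y.length) = y ∧ i + y.length = R.F i) := by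
  have e : i + (R.w : ℤ) + y.length = (i + y.length) + R.w := by ring
  rw [e, R.win_per, R.Fper]
  constructor <;> rintro ⟨h1, h2⟩ <;> exact ⟨h1, by linarith⟩

theorem U_per (y : List ℕ) (i : ℤ) :
    (win R.κ (i + R.w) (i + R.w + y.length) = y ∧ (R.F (i + R.w - 1) < i + R.w + y.length ∧
      i + R.w + y.length ≤ R.F (i + R.w))) ↔
    (win R.κ i (i + y.length) = y ∧ (R.F (i - 1) < i + y.length ∧ i + y.length ≤ R.F i)) := by
  have e : i + (R.w : ℤ) + y.length = (i + y.length) + R.w := by ring
  have e' : i + (R.w : ℤ) - 1 = (i - 1) + R.w := by ring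
  rw [e, R.win_per, R.Fper, e', R.Fper]
  constructor <;> rintro ⟨h1, h2, h3⟩ <;> exact ⟨h1, by linarith, by linarith⟩

/-- first recursion -/
theorem M_eq_D (A : Finset ℕ) (hA : ∀ i, R.κ i ∈ A) (y : List ℕ) :
    R.M y = ∑ b ∈ A, R.M (y ++ [b]) + R.D y := by
  unfold M D cnt
  rw [Finset.sum_comm, ← Finset.sum_add_distrib]
  apply Finset.sum_congr rfl
  intro n _
  have key : ∀ b, (win R.κ n (n + ((y.length : ℤ) + 1)) = y ++ [b]) ↔
      (win R.κ n (n + y.length) = y ∧ R.κ (n + y.length) = b) := by
    intro b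
    have e : (n : ℤ) + ((y.length : ℤ) + 1) = (n + y.length) + 1 := by ring
    rw [e, win_concat _ (by omega)]
    constructor
    · intro h
      have := List.append_inj h (by simp)
      exact ⟨this.1, by simpa using this.2⟩
    · rintro ⟨h1, h2⟩
      rw [h1, h2]
  have hlen : ∀ b, (((y ++ [b]).length : ℕ) : ℤ) = y.length + 1 := by
    intro b; simp only [List.length_append, List.length_singleton]; push_cast; ring
  simp only [hlen, key]
  by_cases h1 : win R.κ n (n + y.length) = y
  · simp only [h1, true_and]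
    have hsum : (∑ x ∈ A, if R.κ (↑n + ↑y.length) = x ∧ (n : ℤ) + (y.length + 1) ≤ R.F n
        then 1 else 0) = if (n : ℤ) + (y.length + 1) ≤ R.F n then 1 else 0 := by
      by_cases h2 : (n : ℤ) + (y.length + 1) ≤ R.F n
      · simp [h2, hA]
      · simp [h2]
    rw [hsum]
    by_cases h2 : (n : ℤ) + y.length ≤ R.F n
    · by_cases h3 : (n : ℤ) + y.length = R.F n
      · have h4 : ¬ ((n : ℤ) + (y.length + 1) ≤ R.F n) := by omega
        simp [h3, h4]
      · have h4 : ((n : ℤ) + (y.length + 1) ≤ R.F n) := by omega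
        simp [h2, h3, h4]
    · have h3 : ¬ ((n : ℤ) + y.length = R.F n) := by omega
      have h4 : ¬ ((n : ℤ) + (y.length + 1) ≤ R.F n) := by omega
      simp [h2, h3, h4]
  · simp [h1]

/-- second recursion -/
theorem M_eq_U (A : Finset ℕ) (hA : ∀ i, R.κ i ∈ A) (y : List ℕ) :
    R.M y = ∑ a ∈ A, R.M (a :: y) + R.U y := by
  have hshift : ∀ a, R.M (a :: y) =
      cnt R.w (fun i => (win R.κ i (i + y.length) = y ∧ R.κ (i - 1) = a) ∧
        i + y.length ≤ R.F (i - 1)) := by
    intro a
    unfold M
    rw [← cnt_shift_one (w := R.w) (P := fun i => (win R.κ i (i + y.length) = y ∧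
      R.κ (i - 1) = a) ∧ i + y.length ≤ R.F (i - 1))]
    · apply cnt_congr
      intro i
      have e : i + ((a :: y).length : ℤ) = (i + 1) + y.length := by
        simp only [List.length_cons]; push_cast; ring
      have e2 : i + 1 - 1 = i := by ring
      rw [e, e2, win_cons _ (by omega)]
      constructor
      · rintro ⟨h1, h2⟩
        rw [List.cons.injEq] at h1
        exact ⟨⟨h1.2, h1.1⟩, h2⟩
      · rintro ⟨⟨h1, h2⟩, h3⟩
        rw [h1, h2]
        exact ⟨rfl, h3⟩
    · intro i
      have e : i + (R.w : ℤ) + y.length = (i + y.length) + R.w := by ring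
      have e' : i + (R.w : ℤ) - 1 = (i - 1) + R.w := by ring
      rw [e, R.win_per, e', R.κper, R.Fper]
      constructor <;> rintro ⟨h1, h2⟩ <;> exact ⟨h1, by linarith⟩
  simp only [hshift]
  unfold M U cnt
  rw [Finset.sum_comm, ← Finset.sum_add_distrib]
  apply Finset.sum_congr rfl
  intro n _
  by_cases h1 : win R.κ n (n + y.length) = y
  · simp only [h1, true_and]
    have hsum : (∑ x ∈ A, if R.κ (↑n - 1) = x ∧ (n : ℤ) + y.length ≤ R.F (n - 1)
        then 1 else 0) = if (n : ℤ) + y.length ≤ R.F (n - 1) then 1 else 0 := by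
      by_cases h2 : (n : ℤ) + y.length ≤ R.F (n - 1)
      · simp [h2, hA]
      · simp [h2]
    rw [hsum]
    have hm := R.mono (show (n : ℤ) - 1 ≤ n by omega)
    by_cases h2 : (n : ℤ) + y.length ≤ R.F n
    · by_cases h3 : (n : ℤ) + y.length ≤ R.F (n - 1)
      · have h4 : ¬ (R.F (n - 1) < (n : ℤ) + y.length) := by omega
        simp [h2, h3]
      · have h4 : (R.F (n - 1) < (n : ℤ) + y.length) := by omega
        simp [h2, h3, h4]
    · have h3 : ¬ ((n : ℤ) + y.length ≤ R.F (n - 1)) := by omega
      simp [h2, h3]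
  · simp [h1]

/-- equality of a long window with itself in another phase propagates -/
theorem κ_eq_of_window {R : Ring} {i i' : ℤ}
    (h : ∀ n : ℤ, 0 ≤ n → n < R.w → R.κ (i + n) = R.κ (i' + n)) (n : ℤ) :
    R.κ (i + n) = R.κ (i' + n) := by
  have hw' : (0 : ℤ) < R.w := by exact_mod_cast R.wpos
  have h0 := Int.emod_nonneg n hw'.ne'
  have h1 := Int.emod_lt_of_pos n hw'
  have e : n % R.w + (n / R.w) * R.w = n := by rw [mul_comm]; exact Int.emod_add_mul_ediv n R.w
  have e1 : i + n = (i + n % R.w) + (n / R.w) * R.w := by linarith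
  have e2 : i' + n = (i' + n % R.w) + (n / R.w) * R.w := by linarith
  rw [e1, e2, R.κper', R.κper']
  exact h _ h0 h1

/-- bounded window length -/
theorem exists_bound (R : Ring) : ∃ B : ℕ, ∀ i, R.F i - i ≤ B := by
  have hw' : (0 : ℤ) < R.w := by exact_mod_cast R.wpos
  refine ⟨(R.F R.w).toNat, fun i => ?_⟩
  have h0 := Int.emod_nonneg i hw'.ne'
  have h1 := Int.emod_lt_of_pos i hw'
  have e : i % R.w + (i / R.w) * R.w = i := by rw [mul_comm]; exact Int.emod_add_mul_ediv i R.w
  have e1 : R.F i = R.F (i % R.w) + (i / R.w) * R.w := by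
    rw [← R.Fper', e]
  have e2 : R.F (i % R.w) ≤ R.F R.w := R.mono h1.le
  omega

/-- `l`-bottom lower bound -/
def LevGE (R : Ring) (l : ℤ) : Prop := ∀ i, i + l ≤ R.F (i - 1)

/-- the level of a ring: minimal length of a visited window -/
noncomputable def lev (R : Ring) : ℤ :=
  (Finset.range R.w).inf' (Finset.nonempty_range_iff.mpr R.wpos.ne') (fun n => R.F ((n : ℤ) - 1) - n)

theorem lev_le (R : Ring) (i : ℤ) : R.lev ≤ R.F (i - 1) - i := by
  have hw' : (0 : ℤ) < R.w := by exact_mod_cast R.wpos
  have h0 := Int.emod_nonneg i hw'.ne'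
  have h1 := Int.emod_lt_of_pos i hw'
  have e : i % R.w + (i / R.w) * R.w = i := by rw [mul_comm]; exact Int.emod_add_mul_ediv i R.w
  have e1 : R.F (i - 1) = R.F (i % R.w - 1) + (i / R.w) * R.w := by
    rw [← R.Fper']; congr 1; linarith
  obtain ⟨n, hn⟩ := Int.eq_ofNat_of_zero_le h0
  have hmem : n ∈ Finset.range R.w := by rw [Finset.mem_range]; omega
  have := Finset.inf'_le (fun n : ℕ => R.F ((n : ℤ) - 1) - n) hmem
  have h2 : R.lev ≤ R.F ((n : ℤ) - 1) - n := this
  rw [← hn] at h2
  omega

theorem exists_lev (R : Ring) : ∃ i : ℤ, 0 ≤ i ∧ i < R.w ∧ R.F (i - 1) - i = R.lev := by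
  obtain ⟨n, hn, h⟩ := Finset.exists_mem_eq_inf' (Finset.nonempty_range_iff.mpr R.wpos.ne')
    (fun n : ℕ => R.F ((n : ℤ) - 1) - n)
  rw [Finset.mem_range] at hn
  exact ⟨n, by omega, by exact_mod_cast hn, h.symm⟩

theorem levGE_iff (R : Ring) (l : ℤ) : R.LevGE l ↔ l ≤ R.lev := by
  constructor
  · intro h
    obtain ⟨i, _, _, hi⟩ := R.exists_lev
    have := h i
    omega
  · intro h i
    have := R.lev_le i
    omega

theorem lev_nonneg (R : Ring) : 0 ≤ R.lev := by
  rw [← levGE_iff]
  intro i
  have := R.Fgt (i - 1)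
  omega

/-- wrapping ring -/
def Wrap (R : Ring) : Prop := (R.w : ℤ) < R.lev

/-- `R` touches the window `[s, e)`: it visits the window `[s, F (s-1))`, which lies inside. -/
def Touch (R : Ring) (s e : ℤ) : Prop := R.F (s - 1) ≤ e

/-- two rings are linked: they touch a common word and are not in phase there -/
def Linked (R R' : Ring) : Prop :=
  ∃ s t n : ℤ, win R.κ s (s + n) = win R'.κ t (t + n) ∧ R.Touch s (s + n) ∧ R'.Touch t (t + n) ∧
    ¬ ∀ r, R.κ (s + r) = R'.κ (t + r)

theorem Linked.symm {R R' : Ring} (h : Linked R R') : Linked R' R := by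
  obtain ⟨s, t, n, h1, h2, h3, h4⟩ := h
  exact ⟨t, s, n, h1.symm, h3, h2, fun h => h4 (fun r => (h r).symm)⟩

/-- translation of a ring -/
def shift (R : Ring) (a : ℤ) : Ring where
  w := R.w
  wpos := R.wpos
  κ := fun i => R.κ (i + a)
  κper := by intro i; have := R.κper (i + a); rw [← this]; congr 1; ring
  F := fun i => R.F (i + a) - a
  mono := by intro i j h; have := R.mono (show i + a ≤ j + a by omega); simp only; omega
  Fper := by
    intro i
    have := R.Fper (i + a)
    have e : i + (R.w : ℤ) + a = i + a + R.w := by ring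
    simp only [e, this]; ring
  Fgt := by intro i; have := R.Fgt (i + a); omega

theorem M_eq_zero_of_bound (R : Ring) {B : ℕ} (hB : ∀ i, R.F i - i ≤ B) {y : List ℕ}
    (hy : B < y.length) : R.M y = 0 := by
  unfold M
  apply cnt_eq_zero
  rintro i ⟨_, h⟩
  have := hB i
  omega

/-- if the window `[i, j)` is under the walk then `M` of it is positive -/
theorem M_pos (R : Ring) {i j : ℤ} (hij : i ≤ j) (h : j ≤ R.F i) : 0 < R.M (win R.κ i j) := by
  unfold M
  apply cnt_pos R.wpos (R.M_per _) (i := i)
  have e : i + ((win R.κ i j).length : ℤ) = j := by rw [length_win]; omega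
  rw [e]
  exact ⟨rfl, h⟩

theorem exists_of_M_pos (R : Ring) {y : List ℕ} (h : 0 < R.M y) :
    ∃ i, win R.κ i (i + y.length) = y ∧ i + y.length ≤ R.F i := exists_of_cnt_pos h

theorem exists_of_D_pos (R : Ring) {y : List ℕ} (h : 0 < R.D y) :
    ∃ i, win R.κ i (i + y.length) = y ∧ i + y.length = R.F i := exists_of_cnt_pos h

theorem exists_of_U_pos (R : Ring) {y : List ℕ} (h : 0 < R.U y) :
    ∃ i, win R.κ i (i + y.length) = y ∧ (R.F (i - 1) < i + y.length ∧ i + y.length ≤ R.F i) :=
  exists_of_cnt_pos h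

/-- sum over letters -/
theorem sum_M_singleton (R : Ring) (A : Finset ℕ) (hA : ∀ i, R.κ i ∈ A) :
    ∑ a ∈ A, R.M [a] = R.w := by
  have h := R.M_eq_D A hA []
  have h1 : R.M [] = R.w := by
    unfold M cnt
    have : ∀ n ∈ Finset.range R.w, (if win R.κ n (n + (([] : List ℕ).length : ℤ)) = [] ∧
        (n : ℤ) + (([] : List ℕ).length : ℤ) ≤ R.F n then 1 else 0) = 1 := by
      intro n _
      have h3 := R.Fgt n
      have h2 : win R.κ n (n + (([] : List ℕ).length : ℤ)) = [] ∧
        (n : ℤ) + (([] : List ℕ).length : ℤ) ≤ R.F n := by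
        constructor
        · apply win_eq_nil; simp
        · simp; omega
      rw [if_pos h2]
    rw [Finset.sum_congr rfl this]
    simp
  have h2 : R.D [] = 0 := by
    unfold D
    apply cnt_eq_zero
    rintro i ⟨_, h⟩
    have := R.Fgt i
    simp at h
    omega
  rw [h1, h2] at h
  simpa using h.symm

end Ring

end Crest.Agent.R287
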