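import Crest.Agent.R287.SpecCand
import Crest.Agent.R287.Cost

/-!
Row 287: the executable test `linkedB` of `Core.lean` decides `Ring.Linked`.
-/

set_option autoImplicit false

namespace Crest.Agent.R287

theorem LinkAt.translate {R R' : Ring} {s t : ℤ} (h : LinkAt R R' s t) (a b : ℤ) :
    LinkAt R R' (s + a * R.w) (t + b * R'.w) := by
  have e1 : s + a * R.w - 1 = (s - 1) + a * R.w := by ring
  have e2 : t + b * R'.w - 1 = (t - 1) + b * R'.w := by ring
  refine ⟨?_, ?_⟩
  · rw [e1, e2, R.κper', R'.κper']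
    exact h.1
  · intro i hi0 hi
    have e3 : s + a * R.w + i = (s + i) + a * R.w := by ring
    have e4 : t + b * R'.w + i = (t + i) + b * R'.w := by ring
    rw [e3, e4, R.κper', R'.κper']
    apply h.2 i hi0
    rw [e1, e2, R.Fper', R'.Fper'] at hi
    rcases hi with hi | hi
    · exact Or.inl (by linarith)
    · exact Or.inr (by linarith)

theorem toRing_F_sub {P : PL} (h : IsPRing P) (s : ℕ) :
    (toRing P h).F ((s : ℤ) - 1) - s = ((prevW P s).length - 1 : ℕ) := by
  rw [prevW_eq h, toRing_F]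
  have := List.length_pos_iff.mpr (h.2.1 _ (pz_mem h.1 ((s : ℤ) - 1)))
  omega

/-- `linkAt` decides `LinkAt` -/
theorem linkAt_iff {A B : PL} (hA : IsPRing A) (hB : IsPRing B) (s t : ℕ) :
    linkAt A B s t = true ↔ LinkAt (toRing A hA) (toRing B hB) s t := by
  unfold linkAt LinkAt
  rw [Bool.and_eq_true, bne_iff_ne, beq_iff_eq, perWin_txt hA, perWin_txt hB,
    win_eq_iff _ _ (by ring), toRing_F_sub hA, toRing_F_sub hB, toRing_κ, toRing_κ,
    prevW_eq hA, prevW_eq hB]
  constructor
  · rintro ⟨h1, h2⟩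
    refine ⟨h1, fun i h0 hi => h2 i h0 ?_⟩
    push_cast
    rcases hi with hi | hi
    · have := le_max_left (((pz A ((s : ℤ) - 1)).length - 1 : ℕ) : ℤ)
        (((pz B ((t : ℤ) - 1)).length - 1 : ℕ) : ℤ)
      push_cast at *
      linarith
    · have := le_max_right (((pz A ((s : ℤ) - 1)).length - 1 : ℕ) : ℤ)
        (((pz B ((t : ℤ) - 1)).length - 1 : ℕ) : ℤ)
      push_cast at *
      linarith
  · rintro ⟨h1, h2⟩
    refine ⟨h1, fun i h0 hi => h2 i h0 ?_⟩
    rw [add_sub_cancel_left] at hi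
    rw [Nat.cast_max] at hi
    exact lt_max_iff.mp hi

/-- **the test `linkedB` decides `Linked`** -/
theorem linkedB_iff {A B : PL} (hA : IsPRing A) (hB : IsPRing B) :
    linkedB A B = true ↔ (toRing A hA).Linked (toRing B hB) := by
  rw [linked_iff]
  unfold linkedB
  rw [List.any_eq_true]
  constructor
  · rintro ⟨s, _, h⟩
    rw [List.any_eq_true] at h
    obtain ⟨t, _, h⟩ := h
    exact ⟨s, t, (linkAt_iff hA hB s t).mp h⟩
  · rintro ⟨s, t, h⟩
    obtain ⟨s', hs', a, ha⟩ := exists_nat_pz hA.1 s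
    obtain ⟨t', ht', b, hb⟩ := exists_nat_pz hB.1 t
    refine ⟨s', List.mem_range.mpr hs', ?_⟩
    rw [List.any_eq_true]
    refine ⟨t', List.mem_range.mpr ht', ?_⟩
    rw [linkAt_iff hA hB]
    have := h.translate (-a) (-b)
    rw [toRing_w, toRing_w] at this
    have e1 : s + -a * A.length = s' := by rw [ha]; ring
    have e2 : t + -b * B.length = t' := by rw [hb]; ring
    rwa [e1, e2] at this

theorem linkedB_comm {A B : PL} (hA : IsPRing A) (hB : IsPRing B) :
    linkedB A B = linkedB B A := by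
  rw [Bool.eq_iff_iff, linkedB_iff hA hB, linkedB_iff hB hA]
  exact ⟨fun h => h.symm, fun h => h.symm⟩

end Crest.Agent.R287
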