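import Crest.Agent.R287.RouteW
import Crest.Agent.R287.AsmDefs

/-!
Row 287: word level star lemma for the assembly program of `AsmDefs`.
-/

set_option autoImplicit false

namespace Crest.Agent.R287

namespace Star

/-! ### pair versions of the star lemma -/

theorem Over.eq_text {A K : Ring} {a b c : ℤ} (h : Over A K a b c) {x : ℤ} (h1 : a ≤ x) (h2 : x < b) :
    A.κ x = K.κ (x + c) := h.2.1 x h1 h2

theorem wrap_lt {K : Ring} (h : K.Wrap) (s : ℤ) : s + K.w < K.F (s - 1) := by
  have h1 := K.lev_le s
  have h2 : ((K.w : ℤ)) < K.lev := h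
  omega

/-- chain property for two rings below `A` -/
theorem chain_pair {A K K' : Ring} (hwrap' : K'.Wrap) {a b c a' b' c' : ℤ}
    (ho : Over A K a b c) (ho' : Over A K' a' b' c')
    (hfar : K.F (a - 1 + c) - c + K.w < b) (hlt : a + b < a' + b')
    (hnot : ¬ Over A K' a b c') :
    K.F (a - 1 + c) - c ≤ K'.F (a' - 1 + c') - c' := by
  have hab := Vis.le_of_sum_le ho.1 ho'.1 hlt.le
  rcases eq_or_lt_of_le hab.1 with heq | hlt'
  · -- same column
    by_contra hcon
    push Not at hcon
    apply hnot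
    refine ⟨ho.1, ?_, ?_⟩
    · intro x hx1 hx2
      exact ho'.2.1 x (by omega) (by omega)
    · rw [heq]
      have := ho.2.2
      omega
  · by_cases hX : ∀ x, K.κ (x + c) = K'.κ (x + c')
    · by_contra hcon
      push Not at hcon
      apply hnot
      have h1 : K'.F (a - 1 + c') ≤ K'.F (a' - 1 + c') := K'.mono (by omega)
      refine ⟨ho.1, ?_, ?_⟩
      · intro x hx1 hx2
        rw [ho.2.1 x hx1 hx2, hX]
      · have := ho.2.2
        omega
    · have h1 : b - a' < K.w + K'.w := by
        by_contra hcon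
        push Not at hcon
        apply hX
        apply fineWilf (f := fun x => K.κ (x + c)) (g := fun x => K'.κ (x + c'))
          K.wpos K'.wpos ?_ ?_ (a := a') (b := b) (by linarith)
        · intro x hx1 hx2
          have e1 := ho.2.1 x (by omega) hx2
          have e2 := ho'.2.1 x hx1 (by omega)
          rw [← e1, ← e2]
        · intro s
          have := K.κper (s + c)
          rw [← this]; congr 1; ring
        · intro s
          have := K'.κper (s + c')
          rw [← this]; congr 1; ring
      have h3 := wrap_lt hwrap' (a' + c')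
      rw [show a' + c' - 1 = a' - 1 + c' by ring] at h3
      omega

/-- length bound, one vertex -/
theorem length_single {A K : Ring} {a b c : ℤ} (ho : Over A K a b c)
    (htext : ¬ ∀ x, A.κ x = K.κ (x + c)) : b - a < A.w + K.w := by
  by_contra hcon
  push Not at hcon
  apply htext
  apply fineWilf (f := A.κ) (g := fun x => K.κ (x + c))
    A.wpos K.wpos A.κper ?_ (a := a) (b := b) (by linarith) ho.2.1
  intro s
  have := K.κper (s + c)
  rw [← this]; congr 1; ring

/-- length bound, two vertices -/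
theorem length_pair {A K K₀ : Ring} {a₀ b₀ c₀ a b c : ℤ}
    (h₀ : Over A K₀ a₀ b₀ c₀) (hfar₀ : K₀.F (a₀ - 1 + c₀) - c₀ + K₀.w < b₀)
    (hpred : ∀ a' b', a' + b' + 1 = a₀ + b₀ → ¬ Over A K₀ a' b' c₀)
    (ho : Over A K a b c) (hlt : a + b < a₀ + b₀ + 2 * A.w) :
    b - a₀ ≤ A.w + (K.w + K₀.w) := by
  have hs := h₀.shift
  have h1 := Vis.le_of_sum_le ho.1 hs.1 (by linarith)
  have hw0 : (0 : ℤ) ≤ K₀.w := by positivity
  have hw1 : (0 : ℤ) ≤ K.w := by positivity
  by_cases hsmall : b < a₀ + A.w
  · linarith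
  push Not at hsmall
  by_cases hX : ∀ x, K.κ (x + c) = K₀.κ (x + (c₀ - A.w))
  · exfalso
    obtain ⟨a', b', hv', hs'⟩ : ∃ a' b', A.Vis a' b' ∧ a' + b' + 1 = a₀ + b₀ + 2 * A.w := by
      by_cases hb : A.F (a₀ + A.w - 1) < b₀ + A.w
      · exact ⟨a₀ + A.w, b₀ + A.w - 1, ⟨by omega, by have := hs.1.2; omega⟩, by ring⟩
      · have hb' : A.F (a₀ + A.w - 1) = b₀ + A.w := le_antisymm hs.1.1 (not_lt.1 hb)
        exact ⟨a₀ + A.w - 1, b₀ + A.w, ⟨by rw [← hb']; exact A.mono (by omega), by rw [hb']⟩,
          by ring⟩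
    have h2 := Vis.le_of_sum_le ho.1 hv' (by linarith)
    have h3 := Vis.le_of_sum_le hv' hs.1 (by linarith)
    have h4 : Over A K₀ a' b' (c₀ - A.w) := by
      refine ⟨hv', ?_, ?_⟩
      · intro x hx1 hx2
        by_cases hx : x < b
        · rw [ho.2.1 x (by omega) hx, hX]
        · exact hs.2.1 x (by omega) (by omega)
      · have hm := K₀.mono (show a' - 1 + (c₀ - A.w) ≤ a₀ - 1 + c₀ by omega)
        omega
    have h5 := h4.unshift'
    apply hpred _ _ ?_ (by simpa using h5)
    linarith
  · have h2 : b - (a₀ + A.w) < K.w + K₀.w := by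
      by_contra hcon
      push Not at hcon
      apply hX
      apply fineWilf (f := fun x => K.κ (x + c)) (g := fun x => K₀.κ (x + (c₀ - A.w)))
        K.wpos K₀.wpos ?_ ?_ (a := a₀ + A.w) (b := b) (by linarith)
      · intro x hx1 hx2
        have e1 := ho.2.1 x (by omega) hx2
        have e2 := hs.2.1 x hx1 (by omega)
        rw [← e1, ← e2]
      · intro s
        have := K.κper (s + c)
        rw [← this]; congr 1; ring
      · intro s
        have := K₀.κper (s + (c₀ - A.w))
        rw [← this]; congr 1; ring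
    linarith

/-! ### the path of a ring -/

theorem exists_vis (A : Ring) (τ : ℤ) : ∃ a b, A.Vis a b ∧ a + b = τ := by
  have hg : ∀ a, 2 * a ≤ A.F (a - 1) + a := by
    intro a
    have := A.Fgt (a - 1)
    omega
  obtain ⟨B, hB⟩ := A.exists_bound
  have h1 : ∃ a, A.F (a - 1) + a ≤ τ := by
    refine ⟨(τ - B) / 2, ?_⟩
    have := hB ((τ - B) / 2 - 1)
    omega
  have h2 : ∃ ub : ℤ, ∀ a, A.F (a - 1) + a ≤ τ → a ≤ ub := by
    refine ⟨τ / 2, fun a ha => ?_⟩
    have := hg a
    omega
  obtain ⟨a, ha, hmax⟩ := Int.exists_greatest_of_bdd h2 h1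
  refine ⟨a, τ - a, ⟨by omega, ?_⟩, by ring⟩
  by_contra hcon
  push Not at hcon
  have := hmax (a + 1) (by rw [add_sub_cancel_right]; omega)
  omega

/-- the vertex number `τ` on the path of the ring -/
noncomputable def pt (A : Ring) (τ : ℤ) : ℤ × ℤ :=
  ((exists_vis A τ).choose, (exists_vis A τ).choose_spec.choose)

theorem pt_vis (A : Ring) (τ : ℤ) : A.Vis (pt A τ).1 (pt A τ).2 :=
  (exists_vis A τ).choose_spec.choose_spec.1

theorem pt_sum (A : Ring) (τ : ℤ) : (pt A τ).1 + (pt A τ).2 = τ :=
  (exists_vis A τ).choose_spec.choose_spec.2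

theorem pt_eq {A : Ring} {a b : ℤ} (h : A.Vis a b) : pt A (a + b) = (a, b) := by
  have h1 := pt_vis A (a + b)
  have h2 := pt_sum A (a + b)
  have h3 := Vis.le_of_sum_le h h1 h2.ge
  have h4 := Vis.le_of_sum_le h1 h h2.le
  exact Prod.ext (le_antisymm h4.1 h3.1) (le_antisymm h4.2 h3.2)

theorem pt_eq' {A : Ring} {a b τ : ℤ} (h : A.Vis a b) (hs : a + b = τ) : pt A τ = (a, b) := by
  rw [← hs]; exact pt_eq h

theorem pt_shift (A : Ring) (τ : ℤ) (k : ℤ) :
    pt A (τ + k * (2 * A.w)) = ((pt A τ).1 + k * A.w, (pt A τ).2 + k * A.w) := by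
  apply pt_eq'
  · exact (A.Vis_per k _ _).2 (pt_vis A τ)
  · have := pt_sum A τ
    linarith

theorem pt_le (A : Ring) (τ : ℤ) : (pt A τ).1 ≤ (pt A τ).2 := by
  have h := pt_vis A τ
  have := A.Fgt ((pt A τ).1 - 1)
  have := h.1
  omega

theorem pt_mono (A : Ring) {τ τ' : ℤ} (h : τ ≤ τ') :
    (pt A τ).1 ≤ (pt A τ').1 ∧ (pt A τ).2 ≤ (pt A τ').2 :=
  Vis.le_of_sum_le (pt_vis A τ) (pt_vis A τ') (by rw [pt_sum, pt_sum]; exact h)

/-- word of the vertex number `τ` -/
noncomputable def ptw (A : Ring) (τ : ℤ) : Word := win A.κ (pt A τ).1 (pt A τ).2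

theorem ptw_shift (A : Ring) (τ : ℤ) (k : ℤ) : ptw A (τ + k * (2 * A.w)) = ptw A τ := by
  unfold ptw
  rw [pt_shift]
  exact A.win_per' k _ _

/-- the words of the vertices number `τ, …, τ + n - 1` -/
noncomputable def pathList (A : Ring) (τ : ℤ) (n : ℕ) : List Word :=
  (List.range n).map (fun t : ℕ => ptw A (τ + t))

theorem pathList_zero (A : Ring) (τ : ℤ) : pathList A τ 0 = [] := rfl

theorem pathList_succ (A : Ring) (τ : ℤ) (n : ℕ) :
    pathList A τ (n + 1) = ptw A τ :: pathList A (τ + 1) n := by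
  unfold pathList
  rw [List.range_succ_eq_map, List.map_cons, List.map_map]
  congr 1
  · simp
  · apply List.map_congr_left
    intro t _
    simp only [Function.comp]
    congr 1
    push_cast
    ring

@[simp] theorem length_pathList (A : Ring) (τ : ℤ) (n : ℕ) : (pathList A τ n).length = n := by
  simp [pathList]

theorem pathList_add (A : Ring) (τ : ℤ) (m n : ℕ) :
    pathList A τ (m + n) = pathList A τ m ++ pathList A (τ + m) n := by
  unfold pathList
  rw [List.range_add, List.map_append, List.map_map]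
  congr 1
  apply List.map_congr_left
  intro t _
  simp only [Function.comp]
  congr 1
  push_cast
  ring

theorem pathList_shift (A : Ring) (τ : ℤ) (n : ℕ) (k : ℤ) :
    pathList A (τ + k * (2 * A.w)) n = pathList A τ n := by
  unfold pathList
  apply List.map_congr_left
  intro t _
  have : τ + k * (2 * A.w) + t = (τ + t) + k * (2 * A.w) := by ring
  rw [this, ptw_shift]

theorem pathList_rotate (A : Ring) (τ : ℤ) (t : ℕ) (ht : t ≤ 2 * A.w) :
    (pathList A τ (2 * A.w)).drop t ++ (pathList A τ (2 * A.w)).take t =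
      pathList A (τ + t) (2 * A.w) := by
  obtain ⟨m, hm⟩ := Nat.exists_eq_add_of_le ht
  have h1 : pathList A τ (2 * A.w) = pathList A τ t ++ pathList A (τ + t) m := by
    rw [hm, pathList_add]
  rw [h1, List.drop_left' (by simp), List.take_left' (by simp)]
  have h2 : pathList A (τ + t) (2 * A.w) = pathList A (τ + t) m ++ pathList A (τ + t + m) t := by
    rw [hm, Nat.add_comm t m, pathList_add]
  rw [h2]
  congr 1
  have h3 : τ + t + m = τ + 1 * (2 * A.w) := by
    have : (2 * A.w : ℤ) = t + m := by exact_mod_cast hm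
    rw [this]; ring
  rw [h3, pathList_shift]

theorem exists_rotate (A : Ring) (τ τ₀ : ℤ) : ∃ t : ℕ, t < 2 * A.w ∧
    (pathList A τ (2 * A.w)).drop t ++ (pathList A τ (2 * A.w)).take t =
      pathList A τ₀ (2 * A.w) := by
  have hw : (0 : ℤ) < 2 * A.w := by have := A.wpos; positivity
  have h0 := Int.emod_nonneg (τ₀ - τ) hw.ne'
  have h1 := Int.emod_lt_of_pos (τ₀ - τ) hw
  have e := Int.emod_add_mul_ediv (τ₀ - τ) (2 * A.w)
  refine ⟨((τ₀ - τ) % (2 * A.w)).toNat, by omega, ?_⟩
  rw [pathList_rotate A τ _ (by omega)]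
  have h2 : (((τ₀ - τ) % (2 * A.w)).toNat : ℤ) = (τ₀ - τ) % (2 * A.w) := Int.toNat_of_nonneg h0
  rw [h2]
  have h3 : τ₀ = τ + (τ₀ - τ) % (2 * A.w) + ((τ₀ - τ) / (2 * A.w)) * (2 * A.w) := by
    have := mul_comm (2 * (A.w : ℤ)) ((τ₀ - τ) / (2 * A.w))
    linarith
  conv_rhs => rw [h3, pathList_shift]


/-! ### words and rings -/

theorem win_drop (κ : ℤ → ℕ) {i j : ℤ} (n : ℕ) : (win κ i j).drop n = win κ (i + n) j := by
  by_cases h : i + n ≤ j
  · rw [win_append κ (i := i) (j := i + n) (by omega) h, List.drop_left' (by simp)]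
  · rw [win_eq_nil κ (i := i + n) (by omega), List.drop_eq_nil_iff]
    simp; omega

theorem win_take (κ : ℤ → ℕ) {i j : ℤ} (n : ℕ) (h : i + n ≤ j) : (win κ i j).take n = win κ i (i + n) := by
  rw [win_append κ (i := i) (j := i + n) (by omega) h, List.take_left' (by simp)]

end Star

open Asm Crest.Agent.R287.Star

/-- the word data `K` represents the ring `R` -/
structure RepW (K : WC) (R : Ring) : Prop where
  wt : K.wt = R.w
  lv : (K.lv : ℤ) = R.lev
  mem : ∀ v, v ∈ K.tour ↔ ∃ i j, R.Vis i j ∧ v = win R.κ i j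

namespace Star

theorem hasPer_win (R : Ring) (i j : ℤ) : hasPer R.w (win R.κ i j) = true := by
  unfold hasPer
  rw [List.isPrefixOf_iff_prefix, win_drop]
  have : win R.κ (i + R.w) j = win R.κ i (j - R.w) := by
    have := R.win_per i (j - R.w)
    rw [sub_add_cancel] at this
    exact this
  rw [this]
  exact win_prefix_win _ (by omega)

theorem win_text {A R : Ring} {a b c : ℤ} (h : ∀ x, a ≤ x → x < b → A.κ x = R.κ (x + c)) {b' : ℤ}
    (hb : b' ≤ b) : win A.κ a b' = win R.κ (a + c) (b' + c) := by
  rw [win_eq_iff _ _ (by ring)]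
  intro n hn hn'
  rw [h _ (by omega) (by omega)]
  congr 1; ring

theorem overW_of_over {A R : Ring} {K : WC} (hK : RepW K R) {a b c : ℤ} (h : Over A R a b c) :
    overW (win A.κ a b) K = true := by
  unfold overW
  rw [Bool.and_eq_true]
  constructor
  · rw [hK.wt, win_text h.2.1 (le_refl _)]
    exact hasPer_win R _ _
  · rw [List.any_eq_true]
    refine ⟨win R.κ (a + c) (R.F (a + c - 1)), ?_, ?_⟩
    · rw [hK.mem]
      exact ⟨_, _, ⟨le_refl _, R.mono (by omega)⟩, rfl⟩
    · rw [List.isPrefixOf_iff_prefix, win_text h.2.1 (le_refl _)]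
      apply win_prefix_win
      have := h.2.2
      rw [show a + c - 1 = a - 1 + c by ring]
      omega

theorem inits_pairwise (v : Word) : v.inits.Pairwise (fun a b => a.length < b.length) := by
  induction v with
  | nil => simp
  | cons a v ih =>
    rw [List.inits_cons, List.pairwise_cons]
    constructor
    · intro b hb
      obtain ⟨c, _, rfl⟩ := List.mem_map.1 hb
      simp
    · rw [List.pairwise_map]
      exact ih.imp (fun h => by simpa using h)

theorem yOf_spec {v : Word} {K : WC} (h : ∃ y ∈ K.tour, y <+: v) :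
    ∃ y, yOf v K = some y ∧ y ∈ K.tour ∧ y <+: v ∧ ∀ y' ∈ K.tour, y' <+: v → y.length ≤ y'.length := by
  obtain ⟨y0, hy0, hy0v⟩ := h
  have hsome : (yOf v K).isSome = true := by
    unfold yOf
    rw [List.find?_isSome]
    exact ⟨y0, by rw [List.mem_inits]; exact hy0v, by simpa using hy0⟩
  obtain ⟨y, hy⟩ := Option.isSome_iff_exists.1 hsome
  refine ⟨y, hy, ?_⟩
  unfold yOf at hy
  rw [List.find?_eq_some_iff_append] at hy
  obtain ⟨h1, as, bs, h2, h3⟩ := hy
  have hyv : y <+: v := by rw [← List.mem_inits, h2]; simp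
  refine ⟨by simpa using h1, hyv, ?_⟩
  intro y' hy' hy'v
  have hp := inits_pairwise v
  rw [h2, List.pairwise_append] at hp
  have hmem : y' ∈ v.inits := by rw [List.mem_inits]; exact hy'v
  rw [h2, List.mem_append, List.mem_cons] at hmem
  rcases hmem with h | h | h
  · exfalso
    have := h3 y' h
    simp [hy'] at this
  · rw [h]
  · have := (List.pairwise_cons.1 hp.2.1).1 y' h
    omega

theorem over_of_overW {A R : Ring} {K : WC} (hK : RepW K R) (hwrap : R.Wrap) {a b : ℤ}
    (hv : A.Vis a b) (hab : a ≤ b) (h : overW (win A.κ a b) K = true) :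
    ∃ c, Over A R a b c ∧ yOf (win A.κ a b) K = some (win A.κ a (R.F (a - 1 + c) - c)) := by
  unfold overW at h
  rw [Bool.and_eq_true, List.any_eq_true] at h
  obtain ⟨hper, y0, hy0, hy0v⟩ := h
  rw [List.isPrefixOf_iff_prefix] at hy0v
  obtain ⟨y, hyOf, hyt, hyv, hmin⟩ := yOf_spec ⟨y0, hy0, hy0v⟩
  obtain ⟨i, j, hvis, hyw⟩ := (hK.mem y).1 hyt
  have hlen := hyv.length_le
  rw [length_win] at hlen
  have hylen : y.length = (j - i).toNat := by rw [hyw, length_win]
  have hwl := wrap_lt hwrap i
  have hij : i + R.w < j := by have := hvis.1; omega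
  unfold hasPer at hper
  rw [List.isPrefixOf_iff_prefix, hK.wt] at hper
  -- agreement
  have hA : ∀ n : ℕ, (n : ℤ) < b - a → A.κ (a + n) = R.κ (i + n) := by
    intro n
    induction n using Nat.strong_induction_on with
    | _ n ih =>
      intro hn
      by_cases hny : (n : ℤ) < j - i
      · have e1 : (win A.κ a b)[n]? = some (A.κ (a + n)) := win_getElem? _ hn
        have e2 : (win R.κ i j)[n]? = some (R.κ (i + n)) := win_getElem? _ hny
        obtain ⟨t, ht⟩ := hyv
        rw [← ht, List.getElem?_append_left (by rw [hylen]; omega), hyw, e2] at e1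
        exact (Option.some.inj e1).symm
      · have hnw : R.w ≤ n := by omega
        have e1 : ((win A.κ a b).drop R.w)[n - R.w]? = some (A.κ (a + n)) := by
          rw [List.getElem?_drop]
          have : R.w + (n - R.w) = n := by omega
          rw [this]
          exact win_getElem? _ hn
        have e2 : (win A.κ a b)[n - R.w]? = some (A.κ (a + ((n - R.w : ℕ) : ℤ))) :=
          win_getElem? _ (by omega)
        have hlt2 : n - R.w < ((win A.κ a b).drop R.w).length := by
          rw [List.length_drop, length_win]; omega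
        obtain ⟨t, ht⟩ := hper
        have e3 : (win A.κ a b)[n - R.w]? = ((win A.κ a b).drop R.w)[n - R.w]? := by
          conv_lhs => rw [← ht]
          rw [List.getElem?_append_left hlt2]
        rw [e1, e2] at e3
        have e4 := Option.some.inj e3
        rw [← e4, ih (n - R.w) (by have := R.wpos; omega) (by omega)]
        have e5 := R.κper (i + ((n - R.w : ℕ) : ℤ))
        rw [← e5]
        congr 1
        omega
  have hFj : R.F (i - 1) = j := by
    apply le_antisymm hvis.1
    by_contra hcon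
    push Not at hcon
    have h1 : win R.κ i (R.F (i - 1)) ∈ K.tour := by
      rw [hK.mem]; exact ⟨_, _, ⟨le_refl _, R.mono (by omega)⟩, rfl⟩
    have h2 : win R.κ i (R.F (i - 1)) <+: win A.κ a b := by
      refine List.IsPrefix.trans ?_ hyv
      rw [hyw]
      exact win_prefix_win _ hcon.le
    have h3 := hmin _ h1 h2
    rw [length_win, hylen] at h3
    omega
  refine ⟨i - a, ⟨hv, ?_, ?_⟩, ?_⟩
  · intro x hx1 hx2
    have := hA (x - a).toNat (by omega)
    have e : (((x - a).toNat : ℕ) : ℤ) = x - a := by omega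
    rw [e] at this
    rw [show a + (x - a) = x by ring] at this
    rw [this]; congr 1; ring
  · rw [show a - 1 + (i - a) = i - 1 by ring, hFj]
    omega
  · rw [hyOf, show a - 1 + (i - a) = i - 1 by ring, hFj]
    congr 1
    rw [hyw, win_eq_iff _ _ (by ring)]
    intro n hn hn'
    have := hA n.toNat (by omega)
    have e : ((n.toNat : ℕ) : ℤ) = n := by omega
    rw [e] at this
    exact this.symm

theorem far_of_not_near {A R : Ring} {K A' : WC} (hK : RepW K R) (hA : RepW A' A)
    (hnear : near K A' = false) {a b c : ℤ} (h : Over A R a b c) :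
    R.F (a - 1 + c) - c + R.w < b := by
  by_contra hcon
  push Not at hcon
  have hn : near K A' = true := by
    unfold near nearPair
    rw [List.find?_isSome]
    refine ⟨(win R.κ (a + c) (R.F (a + c - 1)), win A.κ a b), ?_, ?_⟩
    · rw [List.mem_flatMap]
      refine ⟨win R.κ (a + c) (R.F (a + c - 1)), (hK.mem _).2
        ⟨_, _, ⟨le_refl _, R.mono (by omega)⟩, rfl⟩, ?_⟩
      rw [List.mem_map]
      exact ⟨_, (hA.mem _).2 ⟨_, _, h.1, rfl⟩, rfl⟩
    · rw [decide_eq_true_iff, hK.wt]
      have hFb : R.F (a + c - 1) ≤ b + c := by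
        have := h.2.2
        rw [show a + c - 1 = a - 1 + c by ring]
        omega
      have := R.Fgt (a + c - 1)
      rw [win_text h.2.1 (le_refl _)]
      have h1 := near_connector (y := win R.κ (a + c) (R.F (a + c - 1)))
        (v := win R.κ (a + c) (b + c)) (w := R.w) (win_prefix_win _ hFb) ?_ ?_
      · simp only
        omega
      · have := hasPer_win R (a + c) (b + c)
        unfold hasPer at this
        rwa [List.isPrefixOf_iff_prefix] at this
      · rw [length_win, length_win]
        have e : a - 1 + c = a + c - 1 := by ring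
        rw [e] at hcon
        omega
  rw [hnear] at hn
  exact Bool.noConfusion hn


/-! ### the star walk -/

/-- the words added by the star walk -/
def walkYs : List WC → List Word → List Word
  | _, [] => []
  | L, v :: ws => ysOf v (L.filter (fun K => overW v K)) ++
      walkYs (L.filter (fun K => !overW v K)) ws

/-- the last centre word of the star walk -/
def walkLast : Word → List WC → List Word → Word
  | l, _, [] => l
  | l, L, v :: ws => walkLast (bif (L.filter (fun K => overW v K)).isEmpty then l else v)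
      (L.filter (fun K => !overW v K)) ws

theorem foldl_starStep (ws : List Word) (E : List Word) (l : Word) (L : List WC) :
    (ws.foldl starStep (E, l, L)).1 = E ++ walkYs L ws ∧
      (ws.foldl starStep (E, l, L)).2.1 = walkLast l L ws := by
  induction ws generalizing E l L with
  | nil => simp [walkYs, walkLast]
  | cons v ws ih =>
    rw [List.foldl_cons]
    by_cases h : (L.filter (fun K => overW v K)).isEmpty = true
    · have h0 : L.filter (fun K => overW v K) = [] := List.isEmpty_iff.1 h
      have h1 : L.filter (fun K => !overW v K) = L := by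
        rw [List.filter_eq_self]
        intro K hK
        rw [List.filter_eq_nil_iff] at h0
        simpa using h0 K hK
      have h2 : starStep (E, l, L) v = (E, l, L) := by
        unfold starStep
        simp only [h, cond_true]
      rw [h2]
      have h3 : ysOf v [] = [] := by
        unfold ysOf
        rw [List.filter_eq_nil_iff]
        intro y _
        simp
      obtain ⟨i1, i2⟩ := ih E l L
      constructor
      · rw [i1, walkYs, h0, h1, h3]; simp
      · rw [i2, walkLast, h0, h1]; simp
    · have h2 : starStep (E, l, L) v = (E ++ ysOf v (L.filter (fun K => overW v K)), v,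
          L.filter (fun K => !overW v K)) := by
        unfold starStep
        simp only [h, cond_false]
      rw [h2]
      obtain ⟨i1, i2⟩ := ih (E ++ ysOf v (L.filter (fun K => overW v K))) v
        (L.filter (fun K => !overW v K))
      constructor
      · rw [i1, walkYs, List.append_assoc]
      · rw [i2, walkLast]
        simp [h]

theorem starWalk_eq (L : List WC) (ws : List Word) :
    starWalk L ws = [] :: (walkYs L ws ++ [walkLast [] L ws]) := by
  obtain ⟨h1, h2⟩ := foldl_starStep ws [] [] L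
  unfold starWalk
  simp only [h1, h2, List.nil_append]

/-- data of the star situation -/
structure StarHyp (A : Ring) (R : WC → Ring) (K : WC) : Prop where
  rep : RepW K (R K)
  wrap : (R K).Wrap
  far : ∀ a b c, Over A (R K) a b c → (R K).F (a - 1 + c) - c + (R K).w < b

/-- `K` is over at the vertex number `τ` (in some phase) -/
def OverT (A : Ring) (R : WC → Ring) (K : WC) (τ : ℤ) : Prop :=
  ∃ c, Over A (R K) (pt A τ).1 (pt A τ).2 c

theorem overT_iff {A : Ring} {R : WC → Ring} {K : WC} (h : StarHyp A R K) (τ : ℤ) :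
    overW (ptw A τ) K = true ↔ OverT A R K τ := by
  constructor
  · intro h'
    obtain ⟨c, hc, _⟩ := over_of_overW h.rep h.wrap (pt_vis A τ) (pt_le A τ) h'
    exact ⟨c, hc⟩
  · rintro ⟨c, hc⟩
    exact overW_of_over h.rep hc

theorem walk_spec {A : Ring} {R : WC → Ring} (n : ℕ) : ∀ (τ : ℤ) (L : List WC),
    (∀ K ∈ L, StarHyp A R K) →
    ∃ E : List (ℤ × ℤ), walkYs L (pathList A τ n) = E.map (fun p => win A.κ p.1 p.2) ∧
      E.Pairwise (fun p q => p.1 ≤ q.1 ∧ p.2 ≤ q.2) ∧
      (∀ p ∈ E, ∃ K ∈ L, ∃ τ' c, τ ≤ τ' ∧ τ' < τ + n ∧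
        Over A (R K) (pt A τ').1 (pt A τ').2 c ∧
        p = ((pt A τ').1, (R K).F ((pt A τ').1 - 1 + c) - c) ∧
        ∀ σ, τ ≤ σ → σ < τ' → ¬ OverT A R K σ) ∧
      (∀ K ∈ L, (∃ τ', τ ≤ τ' ∧ τ' < τ + n ∧ OverT A R K τ') →
        ∃ p ∈ E, win A.κ p.1 p.2 ∈ K.tour) ∧
      (∀ l, (walkLast l L (pathList A τ n) = l ∧ E = []) ∨
        ∃ τl, τ ≤ τl ∧ τl < τ + n ∧ walkLast l L (pathList A τ n) = ptw A τl ∧
          (∀ p ∈ E, p.1 ≤ (pt A τl).1 ∧ p.2 ≤ (pt A τl).2) ∧
          ∃ K ∈ L, OverT A R K τl ∧ ∀ σ, τ ≤ σ → σ < τl → ¬ OverT A R K σ) := by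
  induction n with
  | zero =>
    intro τ L hL
    refine ⟨[], rfl, List.Pairwise.nil, by simp, ?_, ?_⟩
    · rintro K _ ⟨τ', h1, h2, _⟩
      exfalso; push_cast at h2; omega
    · intro l; left; exact ⟨rfl, rfl⟩
  | succ n ih =>
    intro τ L hL
    set H := L.filter (fun K => overW (ptw A τ) K) with hH
    set L' := L.filter (fun K => !overW (ptw A τ) K) with hL'
    have hL'mem : ∀ K, K ∈ L' ↔ K ∈ L ∧ ¬ OverT A R K τ := by
      intro K
      rw [hL', List.mem_filter]
      constructor
      · rintro ⟨h1, h2⟩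
        refine ⟨h1, fun h3 => ?_⟩
        rw [← overT_iff (hL K h1)] at h3
        simp [h3] at h2
      · rintro ⟨h1, h2⟩
        refine ⟨h1, ?_⟩
        rw [← overT_iff (hL K h1)] at h2
        simpa using h2
    have hHmem : ∀ K, K ∈ H ↔ K ∈ L ∧ OverT A R K τ := by
      intro K
      rw [hH, List.mem_filter]
      constructor
      · rintro ⟨h1, h2⟩
        exact ⟨h1, (overT_iff (hL K h1) τ).1 h2⟩
      · rintro ⟨h1, h2⟩
        exact ⟨h1, (overT_iff (hL K h1) τ).2 h2⟩
    obtain ⟨E', e1, e2, e3, e4, e5⟩ := ih (τ + 1) L' (fun K hK => hL K ((hL'mem K).1 hK).1)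
    -- head entries
    set a := (pt A τ).1 with ha
    set b := (pt A τ).2 with hb
    have hab : a ≤ b := pt_le A τ
    have hvis : A.Vis a b := pt_vis A τ
    set E0 : List (ℤ × ℤ) := (ysOf (ptw A τ) H).map (fun y => (a, a + (y.length : ℤ))) with hE0
    have hy : ∀ y ∈ ysOf (ptw A τ) H, y <+: ptw A τ ∧ ∃ K ∈ H, yOf (ptw A τ) K = some y := by
      intro y hy
      unfold ysOf at hy
      rw [List.mem_filter, List.mem_inits, List.any_eq_true] at hy
      obtain ⟨h1, K, h2, h3⟩ := hy
      exact ⟨h1, K, h2, by simpa using h3⟩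
    have hywin : ∀ y, y <+: ptw A τ → win A.κ a (a + (y.length : ℤ)) = y := by
      intro y hy
      have hlen := hy.length_le
      unfold ptw at hy hlen
      rw [length_win] at hlen
      rw [List.prefix_iff_eq_take] at hy
      rw [← win_take A.κ (i := a) (j := b) y.length (by omega)]
      exact hy.symm
    have hE0map : ysOf (ptw A τ) H = E0.map (fun p => win A.κ p.1 p.2) := by
      rw [hE0, List.map_map]
      conv_lhs => rw [← List.map_id (ysOf (ptw A τ) H)]
      apply List.map_congr_left
      intro y hy'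
      simp only [Function.comp, id]
      exact (hywin y (hy y hy').1).symm
    have hE0spec : ∀ p ∈ E0, ∃ K ∈ H, ∃ c, Over A (R K) a b c ∧
        p = (a, (R K).F (a - 1 + c) - c) := by
      intro p hp
      rw [hE0, List.mem_map] at hp
      obtain ⟨y, hy1, rfl⟩ := hp
      obtain ⟨hyp, K, hKH, hyK⟩ := hy y hy1
      have hKL := (hHmem K).1 hKH
      obtain ⟨c, hc1, hc2⟩ := over_of_overW (hL K hKL.1).rep (hL K hKL.1).wrap hvis hab
        ((overT_iff (hL K hKL.1) τ).2 hKL.2)
      refine ⟨K, hKH, c, hc1, ?_⟩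
      have h1 : yOf (ptw A τ) K = some (win A.κ a ((R K).F (a - 1 + c) - c)) := hc2
      rw [h1] at hyK
      have h2 := Option.some.inj hyK
      rw [← h2, length_win]
      have := wrap_lt (hL K hKL.1).wrap (a + c)
      rw [show a + c - 1 = a - 1 + c by ring] at this
      ext
      · rfl
      · simp only; omega
    refine ⟨E0 ++ E', ?_, ?_, ?_, ?_, ?_⟩
    · rw [pathList_succ, walkYs, List.map_append, ← hE0map, e1]
    · rw [List.pairwise_append]
      refine ⟨?_, e2, ?_⟩
      · rw [hE0, List.pairwise_map]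
        have h1 : (ysOf (ptw A τ) H).Pairwise (fun a b => a.length < b.length) := by
          unfold ysOf
          exact (inits_pairwise _).filter _
        exact h1.imp (fun h => ⟨le_refl _, by omega⟩)
      · intro p hp q hq
        obtain ⟨K, hK, c, hc, rfl⟩ := hE0spec p hp
        obtain ⟨K', hK', τ', c', h1, h2, h3, rfl, h5⟩ := e3 q hq
        have hKL := (hHmem K).1 hK
        have hK'L := (hL'mem K').1 hK'
        refine ⟨(pt_mono A (show τ ≤ τ' by omega)).1, ?_⟩
        refine chain_pair (hL K' hK'L.1).wrap hc h3 ((hL K hKL.1).far _ _ _ hc) ?_ ?_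
        · have h7 := pt_sum A τ
          have h8 := pt_sum A τ'
          omega
        · intro hcon
          exact hK'L.2 ⟨c', hcon⟩
    · intro p hp
      rw [List.mem_append] at hp
      rcases hp with hp | hp
      · obtain ⟨K, hK, c, hc, rfl⟩ := hE0spec p hp
        refine ⟨K, ((hHmem K).1 hK).1, τ, c, le_refl _, by push_cast; omega, hc, rfl, ?_⟩
        intro σ h1 h2; omega
      · obtain ⟨K, hK, τ', c, h1, h2, h3, h4, h5⟩ := e3 p hp
        refine ⟨K, ((hL'mem K).1 hK).1, τ', c, by omega, by push_cast; omega, h3, h4, ?_⟩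
        intro σ h6 h7
        rcases eq_or_lt_of_le h6 with rfl | h8
        · exact ((hL'mem K).1 hK).2
        · exact h5 σ (by omega) h7
    · rintro K hK ⟨τ', h1, h2, h3⟩
      by_cases h4 : OverT A R K τ
      · have hKH := (hHmem K).2 ⟨hK, h4⟩
        obtain ⟨c, hc1, hc2⟩ := over_of_overW (hL K hK).rep (hL K hK).wrap hvis hab
          ((overT_iff (hL K hK) τ).2 h4)
        have h5 : yOf (ptw A τ) K = some (win A.κ a ((R K).F (a - 1 + c) - c)) := hc2
        have hpre : win A.κ a ((R K).F (a - 1 + c) - c) <+: ptw A τ := by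
          unfold ptw
          exact win_prefix_win _ hc1.2.2
        have h6 : win A.κ a ((R K).F (a - 1 + c) - c) ∈ ysOf (ptw A τ) H := by
          unfold ysOf
          rw [List.mem_filter, List.mem_inits, List.any_eq_true]
          exact ⟨hpre, K, hKH, by simp [h5]⟩
        refine ⟨(a, a + ((win A.κ a ((R K).F (a - 1 + c) - c)).length : ℤ)), ?_, ?_⟩
        · rw [List.mem_append]; left
          rw [hE0, List.mem_map]
          exact ⟨_, h6, rfl⟩
        · simp only
          rw [hywin _ hpre]
          unfold yOf at h5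
          have := List.find?_some h5
          simpa using this
      · rcases eq_or_lt_of_le h1 with rfl | h5
        · exact absurd h3 h4
        · obtain ⟨p, hp, hp'⟩ := e4 K ((hL'mem K).2 ⟨hK, h4⟩) ⟨τ', by omega, by push_cast at h2; omega, h3⟩
          exact ⟨p, List.mem_append.2 (Or.inr hp), hp'⟩
    · intro l
      by_cases hemp : H.isEmpty = true
      · have h0 : H = [] := List.isEmpty_iff.1 hemp
        have hE0nil : E0 = [] := by
          rw [hE0, h0]
          have : ysOf (ptw A τ) [] = [] := by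
            unfold ysOf; rw [List.filter_eq_nil_iff]; intro y _; simp
          rw [this]; rfl
        have hwl : walkLast l L (pathList A τ (n + 1)) = walkLast l L' (pathList A (τ + 1) n) := by
          rw [pathList_succ, walkLast, ← hH, ← hL', hemp, cond_true]
        rcases e5 l with ⟨h1, h2⟩ | ⟨τl, h1, h2, h3, h4, K, hK, h5, h6⟩
        · left
          rw [hwl, h1, hE0nil, h2]
          exact ⟨rfl, rfl⟩
        · right
          refine ⟨τl, by omega, by push_cast; omega, by rw [hwl, h3], ?_, K, ((hL'mem K).1 hK).1, h5, ?_⟩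
          · rw [hE0nil, List.nil_append]; exact h4
          · intro σ h7 h8
            rcases eq_or_lt_of_le h7 with rfl | h9
            · exact ((hL'mem K).1 hK).2
            · exact h6 σ (by omega) h8
      · have hne : H ≠ [] := by simpa using hemp
        obtain ⟨K0, hK0⟩ := List.exists_mem_of_ne_nil _ hne
        have hK0L := (hHmem K0).1 hK0
        have hwl : walkLast l L (pathList A τ (n + 1)) =
            walkLast (ptw A τ) L' (pathList A (τ + 1) n) := by
          rw [pathList_succ, walkLast, ← hH, ← hL']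
          simp [hemp]
        have hE0le : ∀ p ∈ E0, p.1 ≤ a ∧ p.2 ≤ b := by
          intro p hp
          obtain ⟨K, hK, c, hc, rfl⟩ := hE0spec p hp
          exact ⟨le_refl _, hc.2.2⟩
        right
        rcases e5 (ptw A τ) with ⟨h1, h2⟩ | ⟨τl, h1, h2, h3, h4, K, hK, h5, h6⟩
        · refine ⟨τ, le_refl _, by push_cast; omega, by rw [hwl, h1], ?_, K0, hK0L.1, hK0L.2, ?_⟩
          · rw [h2, List.append_nil]; exact hE0le
          · intro σ h7 h8; omega
        · refine ⟨τl, by omega, by push_cast; omega, by rw [hwl, h3], ?_, K, ((hL'mem K).1 hK).1, h5, ?_⟩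
          · intro p hp
            rw [List.mem_append] at hp
            rcases hp with hp | hp
            · have h7 := pt_mono A (show τ ≤ τl by omega)
              have h8 := hE0le p hp
              exact ⟨h8.1.trans h7.1, h8.2.trans h7.2⟩
            · exact h4 p hp
          · intro σ h7 h8
            rcases eq_or_lt_of_le h7 with rfl | h9
            · exact ((hL'mem K).1 hK).2
            · exact h6 σ (by omega) h8


theorem isChain_of_pairwise' {α : Type} {r : α → α → Prop} {l : List α} (h : l.Pairwise r) :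
    List.IsChain r l := h.isChain

theorem le_wtSum {L : List WC} {K : WC} (h : K ∈ L) : K.wt ≤ wtSum L := by
  unfold wtSum
  exact List.single_le_sum (fun _ _ => Nat.zero_le _) _ (List.mem_map.2 ⟨K, h, rfl⟩)

theorem add_le_wtSum {L : List WC} {K K' : WC} (h : K ∈ L) (h' : K' ∈ L) (hne : K ≠ K') :
    K.wt + K'.wt ≤ wtSum L := by
  induction L with
  | nil => simp at h
  | cons M L ih =>
    have hs : wtSum (M :: L) = M.wt + wtSum L := by simp [wtSum]
    rw [hs]
    rcases List.mem_cons.1 h with rfl | h1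
    · rcases List.mem_cons.1 h' with rfl | h2
      · exact absurd rfl hne
      · have := le_wtSum h2; omega
    · rcases List.mem_cons.1 h' with rfl | h2
      · have := le_wtSum h1; omega
      · have := ih h1 h2; omega

theorem wtSum_cons (A : WC) (L : List WC) : wtSum (A :: L) = A.wt + wtSum L := by simp [wtSum]

/-- the star walk from a good start is a good route -/
theorem star_good_start {A' : WC} {A : Ring} (hA : RepW A' A) {L : List WC} {R : WC → Ring}
    (hL : ∀ K ∈ L, StarHyp A R K)
    (hover : ∀ K ∈ L, ∃ a b c, Over A (R K) a b c)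
    (htext : ∀ K ∈ L, ∀ c, ¬ ∀ x, A.κ x = (R K).κ (x + c))
    {K₀ : WC} (hK₀ : K₀ ∈ L) {τ₀ : ℤ} {c₀ : ℤ} (h₀ : Over A (R K₀) (pt A τ₀).1 (pt A τ₀).2 c₀)
    (hpred : ∀ a' b', a' + b' + 1 = τ₀ → ¬ Over A (R K₀) a' b' c₀) :
    good A' L (starWalk L (pathList A τ₀ (2 * A.w))) = true := by
  obtain ⟨E, e1, e2, e3, e4, e5⟩ := walk_spec (A := A) (R := R) (2 * A.w) τ₀ L hL
  have hAw : (0 : ℤ) < A.w := by exact_mod_cast A.wpos
  -- every K is hit
  have hhit : ∀ K ∈ L, ∃ p ∈ E, win A.κ p.1 p.2 ∈ K.tour := by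
    intro K hK
    apply e4 K hK
    obtain ⟨a, b, c, hab, hge, hmin⟩ := exists_first (hover K hK) τ₀
    refine ⟨a + b, hge, ?_, ?_⟩
    · by_contra hcon
      push Not at hcon
      have := hmin _ _ _ hab.unshift' (by push_cast at hcon; linarith)
      linarith
    · refine ⟨c, ?_⟩
      rw [pt_eq hab.1]; exact hab
  have hEne : E ≠ [] := by
    rintro rfl
    obtain ⟨p, hp, _⟩ := hhit K₀ hK₀
    simp at hp
  rcases e5 [] with ⟨_, h2⟩ | ⟨τl, h1, h2, h3, h4, K, hK, h5, h6⟩
  · exact absurd h2 hEne
  obtain ⟨p, E', hE⟩ := List.exists_cons_of_ne_nil hEne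
  have hwalk : starWalk L (pathList A τ₀ (2 * A.w)) =
      [] :: (p :: (E' ++ [pt A τl])).map (fun q => win A.κ q.1 q.2) := by
    rw [starWalk_eq, e1, h3, hE]
    simp [ptw]
  have hle : ∀ q ∈ p :: (E' ++ [pt A τl]), q.1 ≤ q.2 := by
    intro q hq
    have hq' : q ∈ E ∨ q = pt A τl := by
      rw [hE]
      rw [List.mem_cons, List.mem_append, List.mem_singleton] at hq
      rcases hq with h | h | h
      · left; simp [h]
      · left; simp [h]
      · right; exact h
    rcases hq' with h | h
    · obtain ⟨K, hK, τ', c, _, _, h7, rfl, _⟩ := e3 q h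
      have := wrap_lt (hL K hK).wrap ((pt A τ').1 + c)
      rw [show (pt A τ').1 + c - 1 = (pt A τ').1 - 1 + c by ring] at this
      simp only
      omega
    · rw [h]; exact pt_le A τl
  have hpw : (p :: (E' ++ [pt A τl])).Pairwise (fun p q => p.1 ≤ q.1 ∧ p.2 ≤ q.2) := by
    have : p :: (E' ++ [pt A τl]) = E ++ [pt A τl] := by rw [hE]; rfl
    rw [this, List.pairwise_append]
    refine ⟨e2, List.pairwise_singleton _ _, ?_⟩
    intro x hx y hy
    rw [List.mem_singleton] at hy
    rw [hy]; exact h4 x hx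
  have hcost := ccost_route A.κ (E' ++ [pt A τl]) p hpw.isChain hle
  have hlast : ((p :: (E' ++ [pt A τl])).getLast (by simp)) = pt A τl := by
    rw [List.getLast_cons (by simp), List.getLast_append_singleton]
  rw [hlast, ← hwalk] at hcost
  have hp1 : (pt A τ₀).1 ≤ p.1 := by
    obtain ⟨K, hK, τ', c, h7, _, _, h8, _⟩ := e3 p (by rw [hE]; simp)
    rw [h8]; exact (pt_mono A h7).1
  have hbound : (pt A τl).2 - (pt A τ₀).1 ≤ A.w + wtSum L := by
    obtain ⟨c, hc⟩ := h5
    rcases eq_or_lt_of_le h1 with heq | hlt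
    · rw [← heq] at hc ⊢
      have h8 := length_single hc (htext K hK c)
      have h9 := le_wtSum hK
      have h10 := (hL K hK).rep.wt
      omega
    · have hne : K ≠ K₀ := by
        rintro rfl
        exact h6 τ₀ (le_refl _) hlt ⟨c₀, h₀⟩
      have h8 := length_pair h₀ ((hL K₀ hK₀).far _ _ _ h₀)
        (by intro a' b' hs; rw [pt_sum] at hs; exact hpred a' b' hs) hc
        (by rw [pt_sum, pt_sum]; push_cast at h2; exact h2)
      have h9 := add_le_wtSum hK hK₀ hne
      have h10 := (hL K hK).rep.wt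
      have h11 := (hL K₀ hK₀).rep.wt
      omega
  unfold good
  rw [Bool.and_eq_true, Bool.and_eq_true]
  refine ⟨⟨?_, ?_⟩, ?_⟩
  · rw [hwalk]; simp
  · rw [decide_eq_true_iff, wtSum_cons, hA.wt]
    omega
  · rw [List.all_eq_true]
    intro M hM
    unfold touches
    rw [List.any_eq_true]
    rcases List.mem_cons.1 hM with rfl | hM
    · refine ⟨ptw A τl, ?_, ?_⟩
      · rw [hwalk]
        apply List.mem_cons_of_mem
        rw [List.mem_map]
        exact ⟨pt A τl, by simp, rfl⟩
      · rw [decide_eq_true_iff, hA.mem]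
        exact ⟨_, _, pt_vis A τl, rfl⟩
    · obtain ⟨q, hq, hq'⟩ := hhit M hM
      refine ⟨win A.κ q.1 q.2, ?_, ?_⟩
      · rw [hwalk]
        apply List.mem_cons_of_mem
        rw [List.mem_map]
        refine ⟨q, ?_, rfl⟩
        rw [hE] at hq
        rw [List.mem_cons] at hq ⊢
        rcases hq with h | h
        · left; exact h
        · right; simp [h]
      · rw [decide_eq_true_iff]; exact hq'

/-- **star fact**: a good star walk exists -/
theorem star_good {A' : WC} {A : Ring} (hA : RepW A' A) {τ : ℤ}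
    (htour : A'.tour = pathList A τ (2 * A.w)) {L : List WC} (hne : L ≠ []) {R : WC → Ring}
    (hrep : ∀ K ∈ L, RepW K (R K)) (hwrap : ∀ K ∈ L, (R K).Wrap)
    (hover : ∀ K ∈ L, overC A' K = true) (hnear : ∀ K ∈ L, near K A' = false)
    (htext : ∀ K ∈ L, ∀ c, ¬ ∀ x, A.κ x = (R K).κ (x + c)) :
    ∃ t, t < A'.tour.length ∧
      good A' L (starWalk L (A'.tour.drop t ++ A'.tour.take t)) = true := by
  have hL : ∀ K ∈ L, StarHyp A R K := fun K hK =>
    ⟨hrep K hK, hwrap K hK, fun a b c h => far_of_not_near (hrep K hK) hA (hnear K hK) h⟩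
  have hover' : ∀ K ∈ L, ∃ a b c, Over A (R K) a b c := by
    intro K hK
    have h := hover K hK
    unfold overC at h
    rw [List.any_eq_true] at h
    obtain ⟨v, hv, hov⟩ := h
    obtain ⟨i, j, hvis, rfl⟩ := (hA.mem v).1 hv
    have hij : i ≤ j := by
      have := A.Fgt (i - 1); have := hvis.1; omega
    obtain ⟨c, hc, _⟩ := over_of_overW (hrep K hK) (hwrap K hK) hvis hij hov
    exact ⟨i, j, c, hc⟩
  obtain ⟨K₀, hK₀⟩ := List.exists_mem_of_ne_nil _ hne
  obtain ⟨a, b, c, habc⟩ := hover' K₀ hK₀
  obtain ⟨a₀, b₀, h1, h2⟩ := exists_start habc (htext K₀ hK₀ c)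
  obtain ⟨t, ht, ht'⟩ := exists_rotate A τ (a₀ + b₀)
  refine ⟨t, by rw [htour]; simpa using ht, ?_⟩
  rw [htour, ht']
  exact star_good_start hA hL hover' htext hK₀ (c₀ := c) (by rw [pt_eq h1.1]; exact h1) h2

end Star

end Crest.Agent.R287
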