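import Mathlib

/-!
# Row 287 (S0432): Step A of the slack lemma, abstract form

`F i` is the reach of the lower envelope of the rings in phase, `E i j` the excess of the window
`[i, j)`, `D i j` the number of delete steps leaving that window, `R i j` the total excess of the
one-letter right extensions which leave the periodic text (plus one if the window is a suffix of
the superstring).
-/

set_option autoImplicit false

namespace Crest.Agent.R287

theorem stepA_abstract (F : ℤ → ℤ) (E D R : ℤ → ℤ → ℤ)
    (hR : ∀ i j, F (i - 1) ≤ j → E i j + D i j = E i (j + 1) + R i j)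
    (hE0 : ∀ i j, F (i - 1) ≤ j → 0 ≤ E i j)
    (hR0 : ∀ i j, F (i - 1) ≤ j → 0 ≤ R i j)
    (hD0 : ∀ i j, F (i - 1) ≤ j → 0 ≤ D i j)
    (hmono : ∀ i, F i ≤ F (i + 1))
    (hL : ∀ i j, F (i - 1) ≤ j → R (i - 1) j ≤ R i j)
    (hDz : ∀ i j, F (i - 1) ≤ j → j < F i → D i j = 0)
    (hD1 : ∀ i, 1 ≤ D i (F i))
    (hcol : ∀ j, ∃ i, F (i - 1) ≤ j ∧ j < F i)
    (hfin : ∀ i, ∃ j, F i < j ∧ E i j ≤ 0) :
    ∃ i, 1 ≤ E i (F (i - 1)) := by
  by_contra hno
  push Not at hno
  have hbot : ∀ i, E i (F (i - 1)) = 0 := fun i =>
    le_antisymm (by have := hno i; omega) (hE0 i _ le_rfl)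
  -- vertical segments
  have hvert : ∀ i (n : ℕ), F (i - 1) + n ≤ F i → E i (F (i - 1) + n) = 0 := by
    intro i n
    induction n with
    | zero => intro _; simpa using hbot i
    | succ n ih =>
      intro hn
      push_cast at hn
      have h1 := ih (by omega)
      have h2 := hR i (F (i - 1) + n) (by omega)
      have h3 := hDz i (F (i - 1) + n) (by omega) (by omega)
      have h4 := hR0 i (F (i - 1) + n) (by omega)
      have h5 := hE0 i (F (i - 1) + n + 1) (by omega)
      push_cast
      rw [show F (i - 1) + ((n : ℤ) + 1) = F (i - 1) + n + 1 by ring]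
      omega
  have hvert' : ∀ i j, F (i - 1) ≤ j → j ≤ F i → E i j = 0 := by
    intro i j h1 h2
    have := hvert i (j - F (i - 1)).toNat (by
      rw [Int.toNat_of_nonneg (by omega)]; omega)
    rw [Int.toNat_of_nonneg (by omega)] at this
    rwa [show F (i - 1) + (j - F (i - 1)) = j by ring] at this
  have hRm : ∀ i j, F (i - 1) ≤ j → j < F i → R i j = 0 := by
    intro i j h1 h2
    have e1 := hvert' i j h1 h2.le
    have e2 := hvert' i (j + 1) (by omega) (by omega)
    have e3 := hR i j h1
    have e4 := hDz i j h1 h2
    omega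
  have hmono' : ∀ i (n : ℕ), F i ≤ F (i + n) := by
    intro i n
    induction n with
    | zero => simp
    | succ n ih =>
      have := hmono (i + n)
      push_cast
      rw [show i + ((n : ℤ) + 1) = i + n + 1 by ring]
      omega
  have hmono'' : ∀ i k, i ≤ k → F i ≤ F k := by
    intro i k h
    have := hmono' i (k - i).toNat
    rw [Int.toNat_of_nonneg (by omega)] at this
    rwa [show i + (k - i) = k by ring] at this
  -- `R` vanishes on and above the envelope
  have hRz : ∀ j i, F (i - 1) ≤ j → R i j = 0 := by
    intro j i hij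
    obtain ⟨m, hm1, hm2⟩ := hcol j
    have him : i ≤ m := by
      by_contra hcon
      push Not at hcon
      have := hmono'' m (i - 1) (by omega)
      omega
    have key : ∀ n : ℕ, R (m - n) j = 0 := by
      intro n
      induction n with
      | zero => simpa using hRm m j hm1 hm2
      | succ n ih =>
        have hle : F (m - n - 1) ≤ j := (hmono'' (m - n - 1) (m - 1) (by omega)).trans hm1
        have h1 := hL (m - n) j hle
        have h2 := hR0 (m - n - 1) j ((hmono'' (m - n - 1 - 1) (m - 1) (by omega)).trans hm1)
        push_cast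
        rw [show m - ((n : ℤ) + 1) = m - n - 1 by ring]
        omega
    have := key (m - i).toNat
    rw [Int.toNat_of_nonneg (by omega)] at this
    rwa [show m - (m - i) = i by ring] at this
  -- go up a column
  have hup : ∀ (i : ℤ) (n : ℕ), 1 ≤ E i (F i + 1 + n) := by
    intro i n
    have hFi : F (i - 1) ≤ F i := by
      have := hmono (i - 1)
      rwa [show i - 1 + 1 = i by ring] at this
    induction n with
    | zero =>
      have h1 := hR i (F i) hFi
      have h2 := hvert' i (F i) hFi le_rfl
      have h3 := hRz (F i) i hFi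
      have h4 := hD1 i
      simp only [Nat.cast_zero, add_zero]
      omega
    | succ n ih =>
      have h1 := hR i (F i + 1 + n) (by omega)
      have h3 := hRz (F i + 1 + n) i (by omega)
      have h4 := hD0 i (F i + 1 + n) (by omega)
      push_cast
      rw [show F i + 1 + ((n : ℤ) + 1) = F i + 1 + n + 1 by ring]
      omega
  obtain ⟨j, hj1, hj2⟩ := hfin 0
  have := hup 0 (j - F 0 - 1).toNat
  rw [Int.toNat_of_nonneg (by omega)] at this
  rw [show F 0 + 1 + (j - F 0 - 1) = j by ring] at this
  omega

end Crest.Agent.R287
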