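import Crest.Agent.R287.Visit

/-!
# Row 287: the tour of a cycle of links
-/

set_option autoImplicit false

namespace Crest.Agent.R287

/-- `(d, n)` : the peak `d` is linked to the next peak with overlap `n` -/
abbrev Node := Word × ℕ

/-- `p` is linked to `q` with proper overlap `p.2` -/
def IsLink (p q : Node) : Prop :=
  p.2 < p.1.length ∧ p.2 < q.1.length ∧ p.1.drop (p.1.length - p.2) = q.1.take p.2

/-- the words visited between the peak of `p` (included) and the peak of `q` (excluded) -/
def linkWords (p q : Node) : List Word :=
  (List.range (p.1.length - p.2 + 1)).map (fun k => p.1.drop k) ++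
    (List.range (q.1.length - p.2 - 1)).map (fun k => q.1.take (p.2 + 1 + k))

/-- all visited words of a cycle, in cyclic order -/
def tour (K : List Node) : List Word := (List.zipWith linkWords K (K.rotate 1)).flatten

/-- number of letters of the cycle -/
def wt (K : List Node) : ℕ := (K.map (fun p => p.1.length - p.2)).sum

theorem cost_drops (d : Word) (m k : ℕ) (L : List Word) :
    cost ((List.range m).map (fun j => d.drop (k + j)) ++ d.drop (k + m) :: L) =
      cost (d.drop (k + m) :: L) := by
  induction m generalizing k with
  | zero => simp
  | succ m ih =>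
    rw [List.range_succ_eq_map, List.map_cons, List.map_map]
    have h1 : (fun j => d.drop (k + j)) ∘ Nat.succ = (fun j => d.drop (k + 1 + j)) := by
      funext j; simp only [Function.comp]; congr 1; omega
    rw [h1]
    have h2 : k + (m + 1) = k + 1 + m := by omega
    rw [h2]
    have h3 := ih (k + 1)
    rw [List.cons_append]
    cases hm : (List.range m).map (fun j => d.drop (k + 1 + j)) with
    | nil =>
      rw [hm] at h3
      have hm0 : m = 0 := by simpa using congrArg List.length hm
      subst hm0
      simp only [List.nil_append, Nat.add_zero, cost_cons_cons]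
      rw [dist_of_suffix]
      · simp
      · rw [show d.drop (k + 1) = (d.drop k).drop 1 by rw [List.drop_drop]]
        exact List.drop_suffix _ _
    | cons a l =>
      rw [hm] at h3
      rw [List.cons_append, cost_cons_cons, ← List.cons_append, h3, dist_of_suffix]
      · simp
      · have ha : a = d.drop (k + 1) := by
          have := congrArg List.head? hm
          cases m with
          | zero => simp at hm
          | succ m => simp [List.range_succ_eq_map] at hm; exact hm.1.symm
        rw [ha, Nat.add_zero, show d.drop (k + 1) = (d.drop k).drop 1 by rw [List.drop_drop]]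
        exact List.drop_suffix _ _

theorem cost_takes (d : Word) (m k : ℕ) (L : List Word) (a : Word) (ha : a = d.take k)
    (hk : k + m + 1 = d.length) :
    cost (a :: (List.range m).map (fun j => d.take (k + 1 + j)) ++ d :: L) ≤
      m + 1 + cost (d :: L) := by
  induction m generalizing k a with
  | zero =>
    simp only [List.range_zero, List.map_nil, List.cons_append, List.nil_append, cost_cons_cons]
    have : dist a d ≤ 1 := by
      refine (dist_of_prefix (by rw [ha]; exact List.take_prefix _ _)).trans ?_
      rw [ha, List.length_take]; omega
    omega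
  | succ m ih =>
    rw [List.range_succ_eq_map, List.map_cons, List.map_map]
    have h1 : (fun j => d.take (k + 1 + j)) ∘ Nat.succ = (fun j => d.take (k + 1 + 1 + j)) := by
      funext j; simp only [Function.comp]; congr 1; omega
    rw [h1, List.cons_append, List.cons_append, cost_cons_cons, ← List.cons_append]
    have h2 := ih (k + 1) (d.take (k + 1 + 0)) (by simp) (by omega)
    have h3 : dist a (d.take (k + 1 + 0)) ≤ 1 := by
      refine (dist_of_prefix ?_).trans ?_
      · rw [ha]; exact List.take_prefix_take_left (by omega)
      · rw [ha, List.length_take, List.length_take]; omega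
    omega

theorem cost_linkWords {p q : Node} (h : IsLink p q) (L : List Word) :
    cost (linkWords p q ++ q.1 :: L) ≤ (q.1.length - p.2) + cost (q.1 :: L) := by
  obtain ⟨h1, h2, h3⟩ := h
  unfold linkWords
  rw [List.range_succ, List.map_append, List.map_singleton, List.append_assoc, List.append_assoc]
  have e1 := cost_drops p.1 (p.1.length - p.2) 0
    ((List.range (q.1.length - p.2 - 1)).map (fun k => q.1.take (p.2 + 1 + k)) ++ q.1 :: L)
  simp only [Nat.zero_add] at e1
  rw [List.singleton_append, e1]
  have e2 := cost_takes q.1 (q.1.length - p.2 - 1) p.2 L (p.1.drop (p.1.length - p.2)) h3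
    (by omega)
  rw [List.cons_append] at e2
  omega

theorem linkWords_head (p q : Node) : ∃ L, linkWords p q = p.1 :: L := by
  unfold linkWords
  rw [List.range_succ_eq_map]
  simp

theorem cost_flatten_links (K : List Node) (p q : Node) (hK : List.IsChain IsLink (p :: (K ++ [q]))) :
    cost ((List.zipWith linkWords (p :: K) (K ++ [q])).flatten ++ [q.1]) + p.1.length ≤
      wt (p :: K) + q.1.length := by
  induction K generalizing p with
  | nil =>
    simp only [List.nil_append, List.isChain_cons_cons] at hK
    simp only [List.nil_append, List.zipWith_cons_cons, List.zipWith_nil_left, List.flatten_cons,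
      List.flatten_nil, List.append_nil, wt, List.map_cons, List.map_nil, List.sum_cons,
      List.sum_nil]
    have := cost_linkWords hK.1 []
    have h1 := hK.1.1
    have h2 := hK.1.2.1
    simp at this ⊢
    omega
  | cons r K ih =>
    simp only [List.cons_append, List.isChain_cons_cons] at hK
    have h1 := ih r hK.2
    obtain ⟨L, hL⟩ := linkWords_head r ((K ++ [q]).head (by simp))
    have hz : (List.zipWith linkWords (r :: K) (K ++ [q])).flatten ++ [q.1] =
        r.1 :: ((L ++ (List.zipWith linkWords K (K ++ [q]).tail).flatten) ++ [q.1]) := by
      have : K ++ [q] = (K ++ [q]).head (by simp) :: (K ++ [q]).tail := by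
        rw [List.cons_head_tail]
      rw [this, List.zipWith_cons_cons, List.flatten_cons]
      simp only [List.head_cons, List.tail_cons]
      rw [hL]; simp
    simp only [List.cons_append, List.zipWith_cons_cons, List.flatten_cons, List.append_assoc]
    rw [hz]
    have h2 := cost_linkWords hK.1 ((L ++ (List.zipWith linkWords K (K ++ [q]).tail).flatten) ++ [q.1])
    rw [hz] at h1
    have h3 := hK.1.1
    have h4 := hK.1.2.1
    simp only [wt, List.map_cons, List.sum_cons] at h1 ⊢
    omega

/-- validity of a cycle -/
def IsCyc (K : List Node) : Prop := K ≠ [] ∧ List.IsChain IsLink (K ++ K.take 1)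

theorem ccost_tour_le {K : List Node} (h : IsCyc K) : ccost (tour K) ≤ wt K := by
  obtain ⟨hne, hc⟩ := h
  cases K with
  | nil => exact absurd rfl hne
  | cons p K =>
    simp only [List.take_succ_cons, List.take_zero, List.cons_append] at hc
    have h1 := cost_flatten_links K p p hc
    have h2 : tour (p :: K) = (List.zipWith linkWords (p :: K) (K ++ [p])).flatten := by
      unfold tour
      simp
    obtain ⟨L, hL⟩ := linkWords_head p ((K ++ [p]).head (by simp))
    have hz : ∃ M, (List.zipWith linkWords (p :: K) (K ++ [p])).flatten = p.1 :: M := by
      refine ⟨L ++ (List.zipWith linkWords K (K ++ [p]).tail).flatten, ?_⟩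
      have : K ++ [p] = (K ++ [p]).head (by simp) :: (K ++ [p]).tail := by
        rw [List.cons_head_tail]
      rw [this, List.zipWith_cons_cons, List.flatten_cons]
      simp only [List.head_cons, List.tail_cons]
      rw [hL]; simp
    obtain ⟨M, hM⟩ := hz
    rw [h2, hM]
    rw [hM] at h1
    simp only [ccost]
    omega

theorem mem_linkWords {p q : Node} (h : IsLink p q) (v : Word) :
    v ∈ linkWords p q ↔ (v <:+ p.1 ∧ p.2 ≤ v.length) ∨
      (v <+: q.1 ∧ p.2 ≤ v.length ∧ v.length < q.1.length) := by
  obtain ⟨h1, h2, h3⟩ := h
  unfold linkWords
  simp only [List.mem_append, List.mem_map, List.mem_range]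
  constructor
  · rintro (⟨k, hk, rfl⟩ | ⟨k, hk, rfl⟩)
    · left
      refine ⟨List.drop_suffix _ _, ?_⟩
      rw [List.length_drop]; omega
    · right
      refine ⟨List.take_prefix _ _, ?_, ?_⟩ <;> rw [List.length_take] <;> omega
  · rintro (⟨hv, hn⟩ | ⟨hv, hn, hn'⟩)
    · left
      have hle := hv.length_le
      refine ⟨p.1.length - v.length, by omega, ?_⟩
      exact (List.suffix_iff_eq_drop.1 hv).symm
    · by_cases he : v.length = p.2
      · left
        refine ⟨p.1.length - p.2, by omega, ?_⟩
        rw [h3, ← he]
        exact (List.prefix_iff_eq_take.1 hv).symm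
      · right
        refine ⟨v.length - (p.2 + 1), by omega, ?_⟩
        rw [show p.2 + 1 + (v.length - (p.2 + 1)) = v.length by omega]
        exact (List.prefix_iff_eq_take.1 hv).symm

end Crest.Agent.R287
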